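import Mathlib
import Crest.Agent.N334.T.Defs
import Crest.Agent.N334.I.Mix

-- ▼ part N334/Md/Cau
section

/-!
# Row 334 (helper14): logarithmic integrals against the Cauchy law

`cau_log`: `∫ log ‖α + β x‖ dx / (π (1 + x²)) = log max ‖α + i β‖ ‖α - i β‖`.
-/

set_option autoImplicit false

open MeasureTheory Real Complex Set

namespace Crest.Agent.N334.Md

/-- standard Cauchy density -/
noncomputable def cau (x : ℝ) : ℝ := (π * (1 + x ^ 2))⁻¹

theorem cau_pos (x : ℝ) : 0 < cau x := by unfold cau; positivity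

@[fun_prop] theorem continuous_cau : Continuous cau := by
  unfold cau
  exact Continuous.inv₀ (by fun_prop) fun x => by positivity

theorem add_I_ne (x : ℝ) : (x : ℂ) + I ≠ 0 := fun h => by simpa using congrArg Complex.im h

theorem circleMap_arctan (x : ℝ) :
    circleMap 0 1 (π + 2 * Real.arctan x) = ((x : ℂ) - I) / (x + I) := by
  have h0 : 0 < 1 + x ^ 2 := by positivity
  have hs : √(1 + x ^ 2) * √(1 + x ^ 2) = 1 + x ^ 2 := Real.mul_self_sqrt h0.le
  have hs0 : √(1 + x ^ 2) ≠ 0 := (Real.sqrt_pos.2 h0).ne'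
  have hc : Real.cos (π + 2 * Real.arctan x) = (x ^ 2 - 1) / (1 + x ^ 2) := by
    rw [add_comm, Real.cos_add_pi, Real.cos_two_mul, Real.cos_arctan, div_pow, Real.sq_sqrt h0.le]
    field_simp; ring
  have hsn : Real.sin (π + 2 * Real.arctan x) = -(2 * x) / (1 + x ^ 2) := by
    rw [add_comm, Real.sin_add_pi, Real.sin_two_mul, Real.cos_arctan, Real.sin_arctan]
    field_simp
    rw [Real.sq_sqrt h0.le]
  rw [circleMap, Complex.exp_mul_I, ← Complex.ofReal_cos, ← Complex.ofReal_sin, hc, hsn,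
    eq_div_iff (add_I_ne x)]
  have h1 : ((1 : ℂ) + (x : ℂ) ^ 2) ≠ 0 := by exact_mod_cast h0.ne'
  push_cast
  field_simp
  linear_combination (-(2 * x : ℂ) + I - I) * Complex.I_mul_I

theorem cau_circle (g : ℂ → ℝ) (hg : CircleIntegrable g 0 1) :
    Integrable (fun x : ℝ => cau x * g (((x : ℂ) - I) / (x + I))) ∧
      ∫ x : ℝ, cau x * g (((x : ℂ) - I) / (x + I)) = circleAverage g 0 1 := by
  have hd : ∀ x ∈ (univ : Set ℝ), HasDerivWithinAt (fun x => π + 2 * Real.arctan x)
      (2 * (1 / (1 + x ^ 2))) univ x := fun x _ =>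
    (((Real.hasDerivAt_arctan x).const_mul 2).const_add π).hasDerivWithinAt
  have hinj : InjOn (fun x => π + 2 * Real.arctan x) univ := fun x _ y _ h =>
    Real.arctan_injective (by simp only at h; linarith)
  have him : (fun x => π + 2 * Real.arctan x) '' univ = Ioo 0 (2 * π) := by
    ext t
    simp only [image_univ, mem_range, mem_Ioo]
    constructor
    · rintro ⟨x, rfl⟩
      have := Real.arctan_lt_pi_div_two x
      have := Real.neg_pi_div_two_lt_arctan x
      constructor <;> linarith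
    · rintro ⟨h1, h2⟩
      exact ⟨Real.tan ((t - π) / 2), by
        rw [Real.arctan_tan (by linarith) (by linarith)]; ring⟩
  have hπ := Real.pi_pos
  have e : ∀ x : ℝ, cau x * g (((x : ℂ) - I) / (x + I)) = (2 * π)⁻¹ *
      (|2 * (1 / (1 + x ^ 2))| • g (circleMap 0 1 (π + 2 * Real.arctan x))) := fun x => by
    rw [circleMap_arctan, abs_of_pos (by positivity), smul_eq_mul, cau]
    field_simp
  simp_rw [e]
  have h1 := integrableOn_image_iff_integrableOn_abs_deriv_smul MeasurableSet.univ hd hinj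
    (fun θ => g (circleMap 0 1 θ))
  have h2 := integral_image_eq_integral_abs_deriv_smul MeasurableSet.univ hd hinj
    (fun θ => g (circleMap 0 1 θ))
  rw [him] at h1 h2
  rw [integrableOn_univ] at h1
  rw [Measure.restrict_univ] at h2
  refine ⟨(h1.1 ((intervalIntegrable_iff_integrableOn_Ioo_of_le (by positivity)).1 hg)).const_mul _,
    ?_⟩
  rw [integral_const_mul, ← h2, Real.circleAverage_def, smul_eq_mul,
    intervalIntegral.integral_of_le (by positivity), integral_Ioc_eq_integral_Ioo]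

theorem integrable_cau : Integrable cau := by
  simpa using (cau_circle (fun _ => 1) (circleIntegrable_const _ _ _)).1

theorem integral_cau : ∫ x, cau x = 1 := by
  have := (cau_circle (fun _ => 1) (circleIntegrable_const _ _ _)).2
  rw [Real.circleAverage_const] at this
  simpa using this

theorem cau_log_I : Integrable (fun x : ℝ => cau x * Real.log ‖(x : ℂ) + I‖) ∧
    ∫ x : ℝ, cau x * Real.log ‖(x : ℂ) + I‖ = Real.log 2 := by
  obtain ⟨h1, h2⟩ := cau_circle (fun z => Real.log ‖z - 1‖) (circleIntegrable_log_norm_sub_const 1)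
  rw [circleAverage_log_norm_sub_const₁ (by simp)] at h2
  have e : ∀ x : ℝ, cau x * Real.log ‖(x : ℂ) + I‖ =
      cau x * Real.log 2 - cau x * Real.log ‖((x : ℂ) - I) / (x + I) - 1‖ := fun x => by
    have : ((x : ℂ) - I) / (x + I) - 1 = -(2 * I) / (x + I) := by
      field_simp [add_I_ne x]; ring
    rw [this, norm_div, Real.log_div (by simp) (norm_ne_zero_iff.2 (add_I_ne x))]
    simp; ring
  simp_rw [e]
  refine ⟨(integrable_cau.mul_const _).sub h1, ?_⟩
  rw [integral_sub (integrable_cau.mul_const _) h1, h2, integral_mul_const, integral_cau]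
  simp

theorem ae_aff_ne {α β : ℂ} (h : α ≠ 0 ∨ β ≠ 0) : ∀ᵐ x : ℝ, α + β * x ≠ 0 := by
  have : ({x : ℝ | α + β * x = 0}).Subsingleton := fun x hx y hy => by
    simp only [mem_setOf_eq] at hx hy
    have hβ : β ≠ 0 := by
      rintro rfl
      simp only [zero_mul, add_zero] at hx
      simp [hx] at h
    have : β * x = β * y := by linear_combination hx - hy
    exact_mod_cast mul_left_cancel₀ hβ this
  rw [ae_iff]
  simpa using this.measure_zero volume

theorem circ_aff {A B : ℂ} (h : A ≠ 0 ∨ B ≠ 0) :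
    Integrable (fun x : ℝ => cau x * Real.log ‖A + B * (((x : ℂ) - I) / (x + I))‖) ∧
      ∫ x : ℝ, cau x * Real.log ‖A + B * (((x : ℂ) - I) / (x + I))‖ = Real.log (max ‖A‖ ‖B‖) := by
  by_cases hB : B = 0
  · subst hB
    simp only [zero_mul, add_zero, norm_zero]
    exact ⟨integrable_cau.mul_const _, by
      rw [integral_mul_const, integral_cau, one_mul, max_eq_left (norm_nonneg _)]⟩
  obtain ⟨h1, h2⟩ := cau_circle (fun z => Real.log ‖z - (-A / B)‖)
    (circleIntegrable_log_norm_sub_const 1)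
  rw [circleAverage_log_norm_sub_const_eq_posLog] at h2
  have hne : (A - B) * I ≠ 0 ∨ A + B ≠ 0 := by
    by_contra hc
    rw [not_or, not_not, not_not] at hc
    have e1 : A - B = 0 := (mul_eq_zero.1 hc.1).resolve_right I_ne_zero
    exact hB (by linear_combination (hc.2 - e1) / 2)
  have e : (fun x : ℝ => cau x * Real.log ‖A + B * (((x : ℂ) - I) / (x + I))‖) =ᵐ[volume]
      fun x : ℝ => cau x * Real.log ‖B‖ + cau x * Real.log ‖((x : ℂ) - I) / (x + I) - -A / B‖ := by
    filter_upwards [ae_aff_ne hne] with x hx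
    have e1 : A + B * (((x : ℂ) - I) / (x + I)) = B * (((x : ℂ) - I) / (x + I) - -A / B) := by
      field_simp; ring
    have e2 : ((x : ℂ) - I) / (x + I) - -A / B ≠ 0 := fun h0 => hx (by
      rw [h0, mul_zero] at e1
      have := add_I_ne x
      field_simp at e1
      linear_combination e1)
    rw [e1, norm_mul, Real.log_mul (norm_ne_zero_iff.2 hB) (norm_ne_zero_iff.2 e2)]
    ring
  refine ⟨((integrable_cau.mul_const _).add h1).congr e.symm, ?_⟩
  rw [integral_congr_ae e, integral_add (integrable_cau.mul_const _) h1, h2, integral_mul_const,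
    integral_cau, one_mul, norm_div, norm_neg, Real.posLog_apply]
  have hB' : 0 < ‖B‖ := norm_pos_iff.2 hB
  rcases le_total ‖A‖ ‖B‖ with e | e
  · rw [max_eq_right e, max_eq_left, add_zero]
    exact Real.log_nonpos (by positivity) ((div_le_one hB').2 e)
  · rw [max_eq_left e, max_eq_right (Real.log_nonneg ((one_le_div hB').2 e)),
      Real.log_div (hB'.trans_le e).ne' hB'.ne']
    ring

/-- the Poisson–Jensen formula for an affine function -/
theorem cau_log {α β : ℂ} (h : α ≠ 0 ∨ β ≠ 0) :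
    Integrable (fun x : ℝ => cau x * Real.log ‖α + β * x‖) ∧
      ∫ x : ℝ, cau x * Real.log ‖α + β * x‖ = Real.log (max ‖α + I * β‖ ‖α - I * β‖) := by
  have hne : (β - I * α) / 2 ≠ 0 ∨ (β + I * α) / 2 ≠ 0 := by
    by_contra hc
    rw [not_or, not_not, not_not] at hc
    have e1 : β = 0 := by linear_combination hc.1 + hc.2
    have e2 : I * α = 0 := by linear_combination hc.2 - hc.1
    rcases h with h | h
    · exact h ((mul_eq_zero.1 e2).resolve_left I_ne_zero)
    · exact h e1
  obtain ⟨h1, h2⟩ := circ_aff hne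
  obtain ⟨h3, h4⟩ := cau_log_I
  have e : (fun x : ℝ => cau x * Real.log ‖α + β * x‖) =ᵐ[volume] fun x : ℝ =>
      cau x * Real.log ‖(β - I * α) / 2 + (β + I * α) / 2 * (((x : ℂ) - I) / (x + I))‖ +
        cau x * Real.log ‖(x : ℂ) + I‖ := by
    filter_upwards [ae_aff_ne h] with x hx
    have e1 : α + β * x =
        ((β - I * α) / 2 + (β + I * α) / 2 * (((x : ℂ) - I) / (x + I))) * (x + I) := by
      field_simp [add_I_ne x]
      linear_combination (2 * α) * Complex.I_mul_I
    have e2 := e1 ▸ hx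
    rw [e1, norm_mul, Real.log_mul (norm_ne_zero_iff.2 (left_ne_zero_of_mul e2))
      (norm_ne_zero_iff.2 (add_I_ne x))]
    ring
  refine ⟨(h1.add h3).congr e.symm, ?_⟩
  rw [integral_congr_ae e, integral_add h1 h3, h2, h4]
  have e1 : ‖(β - I * α) / 2‖ = ‖α + I * β‖ / 2 := by
    rw [norm_div, show β - I * α = -I * (α + I * β) by linear_combination β * Complex.I_mul_I]
    simp
  have e2 : ‖(β + I * α) / 2‖ = ‖α - I * β‖ / 2 := by
    rw [norm_div, show β + I * α = I * (α - I * β) by linear_combination β * Complex.I_mul_I]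
    simp
  have hpos : 0 < max ‖(β - I * α) / 2‖ ‖(β + I * α) / 2‖ := by
    rcases hne with e | e
    · exact lt_max_of_lt_left (norm_pos_iff.2 e)
    · exact lt_max_of_lt_right (norm_pos_iff.2 e)
  rw [← Real.log_mul hpos.ne' two_ne_zero, e1, e2, max_div_div_right two_pos.le]
  congr 1; ring

end Crest.Agent.N334.Md
end

-- ▼ part N334/Md/CauT
section

/-!
# Row 334 (helper14): truncated logarithmic integrals against the Cauchy law

Window `|x| ≤ l²`, errors `O(1/l)`.
-/

set_option autoImplicit false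

open MeasureTheory Real Complex Set

namespace Crest.Agent.N334.Md

theorem measurableSet_tail (L : ℝ) : MeasurableSet {x : ℝ | L < |x|} :=
  measurableSet_lt measurable_const (by fun_prop)

theorem cau_log_shift {l : ℝ} (hl : 0 < l) :
    Integrable (fun x : ℝ => cau x * (Real.log ‖(l : ℂ) * I + 1 * x‖ - Real.log l)) ∧
      ∫ x : ℝ, cau x * (Real.log ‖(l : ℂ) * I + 1 * x‖ - Real.log l) ≤ 1 / l := by
  obtain ⟨h1, h2⟩ := cau_log (α := (l : ℂ) * I) (β := 1) (Or.inr one_ne_zero)
  simp_rw [mul_sub]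
  refine ⟨h1.sub (integrable_cau.mul_const _), ?_⟩
  rw [integral_sub h1 (integrable_cau.mul_const _), h2, integral_mul_const, integral_cau, one_mul]
  have e1 : ‖(l : ℂ) * I + I * 1‖ ≤ l + 1 := (norm_add_le _ _).trans (by simp [abs_of_pos hl])
  have e2 : ‖(l : ℂ) * I - I * 1‖ ≤ l + 1 := (norm_sub_le _ _).trans (by simp [abs_of_pos hl])
  have e3 : 0 < max ‖(l : ℂ) * I + I * 1‖ ‖(l : ℂ) * I - I * 1‖ := by
    refine lt_max_of_lt_left (norm_pos_iff.2 fun h => ?_)
    have := congrArg Complex.im h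
    simp at this; linarith
  have e4 := Real.log_le_log e3 (max_le e1 e2)
  have e5 := Real.log_le_sub_one_of_pos (x := (l + 1) / l) (by positivity)
  rw [Real.log_div (by positivity) hl.ne'] at e5
  have e6 : (l + 1) / l - 1 = 1 / l := by field_simp; ring
  linarith

theorem integrable_cau_log2 : Integrable (fun x : ℝ => cau x * Real.log (2 + |x|)) := by
  refine Integrable.mono' ((integrable_cau.mul_const (Real.log 3)).add cau_log_I.1)
    (Continuous.aestronglyMeasurable (continuous_cau.mul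
      (Continuous.log (by fun_prop) fun x => by positivity))) (ae_of_all _ fun x => ?_)
  have h0 := cau_pos x
  have h1 : |x| ≤ ‖(x : ℂ) + I‖ := by simpa using Complex.abs_re_le_norm ((x : ℂ) + I)
  have h2 : 1 ≤ ‖(x : ℂ) + I‖ := by simpa using Complex.abs_im_le_norm ((x : ℂ) + I)
  have h3 := abs_nonneg x
  rw [Real.norm_eq_abs, abs_of_nonneg (mul_nonneg h0.le (Real.log_nonneg (by linarith)))]
  simp only [Pi.add_apply]
  rw [← mul_add, ← Real.log_mul (by norm_num) (by linarith)]
  exact mul_le_mul_of_nonneg_left (Real.log_le_log (by linarith) (by linarith)) h0.le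

theorem integral_cau_log2 : ∫ x : ℝ, cau x * Real.log (2 + |x|) ≤ Real.log 6 := by
  have : Real.log 6 = ∫ x : ℝ, (cau x * Real.log 3 + cau x * Real.log ‖(x : ℂ) + I‖) := by
    rw [integral_add (integrable_cau.mul_const _) cau_log_I.1, cau_log_I.2, integral_mul_const,
      integral_cau, one_mul, ← Real.log_mul (by norm_num) (by norm_num)]
    norm_num
  rw [this]
  refine integral_mono integrable_cau_log2 ((integrable_cau.mul_const _).add cau_log_I.1) fun x => ?_
  have h0 := cau_pos x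
  have h1 : |x| ≤ ‖(x : ℂ) + I‖ := by simpa using Complex.abs_re_le_norm ((x : ℂ) + I)
  have h2 : 1 ≤ ‖(x : ℂ) + I‖ := by simpa using Complex.abs_im_le_norm ((x : ℂ) + I)
  have h3 := abs_nonneg x
  simp only
  rw [← mul_add, ← Real.log_mul (by norm_num) (by linarith)]
  exact mul_le_mul_of_nonneg_left (Real.log_le_log (by linarith) (by linarith)) h0.le

theorem tail_log {l : ℝ} (hl : 2 ≤ l) :
    ∫ x in {x : ℝ | l ^ 2 < |x|}, cau x * Real.log (2 + |x|) ≤ 4 / l := by
  have hl0 : 0 < l := by linarith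
  obtain ⟨h1, h2⟩ := cau_log_shift hl0
  have hnn : ∀ x : ℝ, 0 ≤ cau x * (Real.log ‖(l : ℂ) * I + 1 * x‖ - Real.log l) := fun x => by
    refine mul_nonneg (cau_pos x).le (sub_nonneg.2 (Real.log_le_log hl0 ?_))
    simpa [abs_of_pos hl0] using Complex.abs_im_le_norm ((l : ℂ) * I + 1 * x)
  calc _ ≤ ∫ x in {x : ℝ | l ^ 2 < |x|},
        4 * (cau x * (Real.log ‖(l : ℂ) * I + 1 * x‖ - Real.log l)) := by
        refine setIntegral_mono_on integrable_cau_log2.integrableOn (h1.const_mul 4).integrableOn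
          (measurableSet_tail _) fun x hx => ?_
        simp only [mem_setOf_eq] at hx
        have e0 : 4 ≤ |x| := by nlinarith
        have e1 : |x| ≤ ‖(l : ℂ) * I + 1 * x‖ := by
          simpa using Complex.abs_re_le_norm ((l : ℂ) * I + 1 * x)
        have e2 := Real.log_le_log (by linarith) e1
        have e3 := Real.log_le_log (by positivity) hx.le
        have e4 : Real.log (2 + |x|) ≤ Real.log (|x| ^ 2) :=
          Real.log_le_log (by linarith) (by nlinarith)
        rw [Real.log_pow] at e3 e4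
        push_cast at e3 e4
        rw [mul_left_comm]
        exact mul_le_mul_of_nonneg_left (by linarith) (cau_pos x).le
    _ ≤ ∫ x, 4 * (cau x * (Real.log ‖(l : ℂ) * I + 1 * x‖ - Real.log l)) :=
        setIntegral_le_integral (h1.const_mul 4) (ae_of_all _ fun x => by
          have := hnn x; simp only [Pi.zero_apply]; linarith)
    _ ≤ 4 / l := by rw [integral_const_mul, div_eq_mul_one_div]; linarith

theorem tail_mass {l : ℝ} (hl : 2 ≤ l) : ∫ x in {x : ℝ | l ^ 2 < |x|}, cau x ≤ 4 / l := by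
  refine le_trans (setIntegral_mono_on integrable_cau.integrableOn integrable_cau_log2.integrableOn
    (measurableSet_tail _) fun x hx => ?_) (tail_log hl)
  simp only [mem_setOf_eq] at hx
  refine le_mul_of_one_le_right (cau_pos x).le ?_
  rw [Real.le_log_iff_exp_le (by positivity)]
  have := Real.exp_one_lt_d9
  nlinarith

theorem le_max_I (α β : ℂ) : ‖α‖ ≤ max ‖α + I * β‖ ‖α - I * β‖ ∧
    ‖β‖ ≤ max ‖α + I * β‖ ‖α - I * β‖ := by
  have h1 := le_max_left ‖α + I * β‖ ‖α - I * β‖
  have h2 := le_max_right ‖α + I * β‖ ‖α - I * β‖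
  have h3 := norm_add_le (α + I * β) (α - I * β)
  have h4 := norm_sub_le (α + I * β) (α - I * β)
  rw [show α + I * β + (α - I * β) = 2 * α by ring] at h3
  rw [show α + I * β - (α - I * β) = 2 * (I * β) by ring] at h4
  simp only [norm_mul, Complex.norm_ofNat, Complex.norm_I, one_mul] at h3 h4
  constructor <;> linarith

theorem log_aff_le {α β : ℂ} {N x : ℝ} (h1 : ‖α‖ ≤ N) (h2 : ‖β‖ ≤ N) (h : α + β * x ≠ 0) :
    Real.log ‖α + β * x‖ - Real.log N ≤ Real.log (2 + |x|) := by
  have h3 : ‖α + β * x‖ ≤ N * (1 + |x|) := by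
    refine (norm_add_le _ _).trans ?_
    rw [norm_mul, Complex.norm_real, Real.norm_eq_abs]
    nlinarith [abs_nonneg x]
  have h4 := norm_pos_iff.2 h
  have hN : 0 < N := by
    by_contra hc
    nlinarith [abs_nonneg x]
  rw [sub_le_iff_le_add, ← Real.log_mul (by positivity) hN.ne']
  exact Real.log_le_log h4 (by nlinarith)

theorem compl_tail (L : ℝ) : {x : ℝ | L < |x|}ᶜ = {x : ℝ | |x| ≤ L} := by ext x; simp

/-- lower bound for the truncated logarithmic integral of an affine function -/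
theorem win_log_ge {l : ℝ} (hl : 2 ≤ l) {α β : ℂ} (h : α ≠ 0 ∨ β ≠ 0) :
    -(4 / l) ≤ ∫ x in {x : ℝ | |x| ≤ l ^ 2},
      cau x * (Real.log ‖α + β * x‖ - Real.log (max ‖α + I * β‖ ‖α - I * β‖)) := by
  obtain ⟨h1, h2⟩ := cau_log h
  set N := max ‖α + I * β‖ ‖α - I * β‖
  have hi : Integrable fun x : ℝ => cau x * (Real.log ‖α + β * x‖ - Real.log N) := by
    simp_rw [mul_sub]; exact h1.sub (integrable_cau.mul_const _)
  have h0 : ∫ x : ℝ, cau x * (Real.log ‖α + β * x‖ - Real.log N) = 0 := by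
    simp_rw [mul_sub]
    rw [integral_sub h1 (integrable_cau.mul_const _), h2, integral_mul_const, integral_cau]; ring
  have h3 := integral_add_compl (measurableSet_tail (l ^ 2)) hi
  rw [compl_tail, h0] at h3
  have h4 : ∫ x in {x : ℝ | l ^ 2 < |x|}, cau x * (Real.log ‖α + β * x‖ - Real.log N) ≤
      ∫ x in {x : ℝ | l ^ 2 < |x|}, cau x * Real.log (2 + |x|) := by
    refine integral_mono_ae hi.integrableOn integrable_cau_log2.integrableOn ?_
    filter_upwards [ae_restrict_of_ae (ae_aff_ne h)] with x hx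
    exact mul_le_mul_of_nonneg_left (log_aff_le (le_max_I α β).1 (le_max_I α β).2 hx) (cau_pos x).le
  linarith [tail_log hl]

theorem cau_posLog_inv : Integrable (fun u : ℝ => cau u * log⁺ |u|⁻¹) ∧
    ∫ u : ℝ, cau u * log⁺ |u|⁻¹ ≤ Real.log 6 := by
  obtain ⟨h1, h2⟩ := cau_log (α := 0) (β := 1) (Or.inr one_ne_zero)
  simp only [one_mul, zero_add, Complex.norm_real, Real.norm_eq_abs, mul_one, zero_sub, norm_neg,
    Complex.norm_I, max_self, Real.log_one] at h1 h2
  have h3 : ∀ u : ℝ, log⁺ |u| ≤ Real.log (2 + |u|) := fun u => by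
    have := abs_nonneg u
    rw [Real.posLog_apply]
    refine max_le (Real.log_nonneg (by linarith)) ?_
    rcases this.eq_or_lt with e | e
    · rw [← e, Real.log_zero]; exact Real.log_nonneg (by norm_num)
    · exact Real.log_le_log e (by linarith)
  have h4 : Integrable (fun u : ℝ => cau u * log⁺ |u|) := by
    refine Integrable.mono' integrable_cau_log2 ?_ (ae_of_all _ fun x => ?_)
    · refine Measurable.aestronglyMeasurable (continuous_cau.measurable.mul ?_)
      exact measurable_const.max (Real.measurable_log.comp (by fun_prop))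
    · rw [Real.norm_eq_abs, abs_of_nonneg (mul_nonneg (cau_pos x).le Real.posLog_nonneg)]
      exact mul_le_mul_of_nonneg_left (h3 x) (cau_pos x).le
  have e : ∀ u : ℝ, cau u * log⁺ |u|⁻¹ = cau u * log⁺ |u| - cau u * Real.log |u| := fun u => by
    rw [← Real.posLog_sub_posLog_inv]; ring
  simp_rw [e]
  refine ⟨h4.sub h1, ?_⟩
  rw [integral_sub h4 h1, h2, sub_zero]
  exact (integral_mono h4 integrable_cau_log2 fun u =>
    mul_le_mul_of_nonneg_left (h3 u) (cau_pos u).le).trans integral_cau_log2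

theorem log_pole_le {m : ℂ} {x : ℝ} (h : x - m.re ≠ 0) (hm : m + I ≠ 0) :
    Real.log ‖m + I‖ - Real.log ‖-m + 1 * x‖ ≤ Real.log (2 + |x|) + log⁺ |x - m.re|⁻¹ := by
  have h1 : |x - m.re| ≤ ‖-m + 1 * x‖ := by
    have := Complex.abs_re_le_norm (-m + 1 * x)
    simpa [neg_add_eq_sub] using this
  have h2 : 0 < |x - m.re| := abs_pos.2 h
  have h3 : ‖m + I‖ ≤ ‖-m + 1 * x‖ + (1 + |x|) := by
    have e1 := norm_sub_le ((x : ℂ) + I) (-m + 1 * x)
    have e2 := norm_add_le (x : ℂ) I
    rw [show (x : ℂ) + I - (-m + 1 * x) = m + I by ring] at e1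
    simp only [Complex.norm_real, Real.norm_eq_abs, Complex.norm_I] at e2
    linarith
  have h4 := abs_nonneg x
  set d := ‖-m + 1 * x‖
  have hd : 0 < d := h2.trans_le h1
  have h5 : log⁺ d⁻¹ ≤ log⁺ |x - m.re|⁻¹ :=
    Real.posLog_le_posLog (by positivity) (inv_anti₀ h2 h1)
  have h6 : Real.log ‖m + I‖ ≤ Real.log ((2 + |x|) * max 1 d) :=
    Real.log_le_log (norm_pos_iff.2 hm) (by nlinarith [le_max_left 1 d, le_max_right 1 d])
  rw [Real.log_mul (by positivity) (by positivity), ← Real.posLog_eq_log_max_one hd.le] at h6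
  have h7 := Real.posLog_sub_posLog_inv (x := d)
  linarith

/-- upper bound for the truncated logarithmic integral of the denominator -/
theorem win_log_le {l : ℝ} (hl : 2 ≤ l) {m : ℂ} (hm : 0 ≤ m.im) :
    ∫ x in {x : ℝ | |x| ≤ l ^ 2}, cau x * (Real.log ‖-m + 1 * x‖ - Real.log ‖m + I‖) ≤ 5 / l := by
  obtain ⟨h1, h2⟩ := cau_log (α := -m) (β := 1) (Or.inr one_ne_zero)
  have hmI : m + I ≠ 0 := fun h => by have := congrArg Complex.im h; simp at this; linarith
  have hmax : max ‖-m + I * 1‖ ‖-m - I * 1‖ = ‖m + I‖ := by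
    rw [show -m - I * 1 = -(m + I) by ring, norm_neg]
    refine max_eq_right ?_
    rw [← sq_le_sq₀ (norm_nonneg _) (norm_nonneg _), Complex.sq_norm, Complex.sq_norm,
      Complex.normSq_apply, Complex.normSq_apply]
    simp; nlinarith
  rw [hmax] at h2
  have hi : Integrable fun x : ℝ => cau x * (Real.log ‖-m + 1 * x‖ - Real.log ‖m + I‖) := by
    simp_rw [mul_sub]; exact h1.sub (integrable_cau.mul_const _)
  have h0 : ∫ x : ℝ, cau x * (Real.log ‖-m + 1 * x‖ - Real.log ‖m + I‖) = 0 := by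
    simp_rw [mul_sub]
    rw [integral_sub h1 (integrable_cau.mul_const _), h2, integral_mul_const, integral_cau]; ring
  have h3 := integral_add_compl (measurableSet_tail (l ^ 2)) hi
  rw [compl_tail, h0] at h3
  obtain ⟨h5, h6⟩ := cau_posLog_inv
  have h7 := (h5.comp_sub_right m.re).const_mul (2 / l ^ 4)
  have hl0 : 0 < l := by linarith
  have h4 : ∫ x in {x : ℝ | l ^ 2 < |x|},
      -(cau x * (Real.log ‖-m + 1 * x‖ - Real.log ‖m + I‖)) ≤
      ∫ x in {x : ℝ | l ^ 2 < |x|}, (cau x * Real.log (2 + |x|) +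
        2 / l ^ 4 * (cau (x - m.re) * log⁺ |x - m.re|⁻¹)) := by
    refine integral_mono_ae hi.neg.integrableOn (integrable_cau_log2.add h7).integrableOn ?_
    have hne : ∀ᵐ x : ℝ, x ≠ m.re := by simp [ae_iff]
    filter_upwards [ae_restrict_of_ae hne, ae_restrict_mem (measurableSet_tail (l ^ 2))]
      with x hx hx'
    have e1 := log_pole_le (sub_ne_zero.2 hx) hmI
    have e2 : cau x * log⁺ |x - m.re|⁻¹ ≤ 2 / l ^ 4 * (cau (x - m.re) * log⁺ |x - m.re|⁻¹) := by
      by_cases hc : |x - m.re| ≤ 1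
      · rw [← mul_assoc]
        refine mul_le_mul_of_nonneg_right ?_ Real.posLog_nonneg
        have f1 : (x - m.re) ^ 2 ≤ 1 := by rw [← sq_abs]; nlinarith [abs_nonneg (x - m.re)]
        have f2 : l ^ 4 ≤ x ^ 2 := by rw [← sq_abs x]; nlinarith [sq_nonneg l]
        have hπ := Real.pi_pos
        unfold cau
        rw [← div_eq_mul_inv, inv_eq_one_div, div_div, div_le_div_iff₀ (by positivity)
          (by positivity)]
        have f3 : l ^ 4 * (1 + (x - m.re) ^ 2) ≤ 2 * (1 + x ^ 2) := by nlinarith [pow_pos hl0 4]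
        nlinarith
      · have : log⁺ |x - m.re|⁻¹ = 0 := by
          rw [Real.posLog_eq_zero_iff, abs_inv, abs_abs]
          exact inv_le_one_of_one_le₀ (not_le.1 hc).le
        simp [this]
    have e3 := mul_le_mul_of_nonneg_left e1 (cau_pos x).le
    linarith
  rw [integral_neg, integral_add integrable_cau_log2.integrableOn h7.integrableOn] at h4
  have h8 : ∫ x in {x : ℝ | l ^ 2 < |x|}, 2 / l ^ 4 * (cau (x - m.re) * log⁺ |x - m.re|⁻¹) ≤
      1 / l := by
    refine (setIntegral_le_integral h7 (ae_of_all _ fun x => ?_)).trans ?_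
    · have := cau_pos (x - m.re)
      have : 0 ≤ log⁺ |x - m.re|⁻¹ := Real.posLog_nonneg
      simp only [Pi.zero_apply]; positivity
    · rw [integral_const_mul, integral_sub_right_eq_self (fun u => cau u * log⁺ |u|⁻¹) m.re]
      have e1 : Real.log 6 ≤ 4 := by
        have := Real.log_le_sub_one_of_pos (x := 2) (by norm_num)
        have := Real.log_le_sub_one_of_pos (x := 3) (by norm_num)
        rw [show (6 : ℝ) = 2 * 3 by norm_num, Real.log_mul (by norm_num) (by norm_num)]
        linarith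
      refine (mul_le_mul_of_nonneg_left (h6.trans e1) (by positivity)).trans ?_
      rw [div_mul_eq_mul_div, div_le_div_iff₀ (by positivity) hl0]
      have : 8 ≤ l ^ 3 := by nlinarith [pow_le_pow_left₀ (by norm_num) hl 3]
      nlinarith
  have := tail_log hl
  have e : 5 / l = 4 / l + 1 / l := by ring
  linarith

end Crest.Agent.N334.Md
end

-- ▼ part N334/Md/Laws

/-!
# Row 334 (helper14): site laws for the engine `T`

* `law0_of_bdd`, `law0_dens`: compactly supported laws with bounded density of the real part.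
* `tcd c τ l`: Cauchy density of width `τ`, cut at `l² τ`; `law_tc`: it is a `Law` with `κ = 10 / l`.
-/

set_option autoImplicit false

open MeasureTheory Complex Set
open scoped ENNReal

namespace Crest.Agent.N334.Md

open T I

/-- the point `a - E - i g` -/
noncomputable def sh (E g a : ℝ) : ℂ := ((a - E : ℝ) : ℂ) - g * Complex.I

/-- law of `a - E - i g`, `a ∼ ν` -/
noncomputable def tl (E g : ℝ) (ν : Measure ℝ) : Measure ℂ := ν.map (sh E g)

@[simp] theorem sh_re (E g a : ℝ) : (sh E g a).re = a - E := by simp [sh]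
@[simp] theorem sh_im (E g a : ℝ) : (sh E g a).im = -g := by simp [sh]
@[fun_prop] theorem measurable_sh (E g : ℝ) : Measurable (sh E g) := by unfold sh; fun_prop

theorem cl_sh (E : ℝ) {g : ℝ} (hg : 0 ≤ g) (a : ℝ) : cl (sh E g a) = sh E g a := by
  apply Complex.ext <;> simp [cl, abs_of_nonneg hg]

theorem measurable_cl' : Measurable cl := by
  have : cl = fun z : ℂ => (z.re : ℂ) + ((-|z.im| : ℝ) : ℂ) * Complex.I := by
    funext z; apply Complex.ext <;> simp [cl]
  rw [this]; fun_prop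

instance (E g : ℝ) (ν : Measure ℝ) [IsProbabilityMeasure ν] : IsProbabilityMeasure (tl E g ν) :=
  Measure.isProbabilityMeasure_map (measurable_sh E g).aemeasurable

theorem tl_mono (E g : ℝ) {ν ν' : Measure ℝ} (h : ν ≤ ν') : tl E g ν ≤ tl E g ν' :=
  Measure.map_mono h (measurable_sh E g)

theorem tl_smul (E g : ℝ) (c : ℝ≥0∞) (ν : Measure ℝ) : tl E g (c • ν) = c • tl E g ν :=
  Measure.map_smul _ _ _

theorem tl_restrict (E g c l : ℝ) :
    tl E g (volume.restrict (Icc (c - l) (c + l))) = seg (c - E) l g := by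
  have h := (measurePreserving_sub_right volume E).restrict_preimage
    (s := Icc (c - E - l) (c - E + l)) measurableSet_Icc
  have e : (fun a => a - E) ⁻¹' Icc (c - E - l) (c - E + l) = Icc (c - l) (c + l) := by
    ext a; simp only [mem_preimage, mem_Icc]; constructor <;> rintro ⟨h1, h2⟩ <;> constructor <;>
      linarith
  rw [e] at h
  rw [seg, ← h.map_eq, Measure.map_map (by fun_prop) (by fun_prop)]
  rfl

theorem law0_of_bdd {μ : Measure ℂ} [IsProbabilityMeasure μ] {r : ℂ} {Λ T D : ℝ}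
    (hT : ∀ᵐ z ∂μ, ‖cl z - cl r‖ ≤ T)
    (hD : ∀ a l : ℝ, 0 ≤ l → μ {z | |z.re - a| ≤ l} ≤ ENNReal.ofReal (D * l))
    (h1 : 100 ≤ Λ) (h2 : Λ⁻¹ ≤ |r.im|) (h3 : ‖r‖ ≤ Λ) (h4 : (1 + T ^ 2) * D ≤ Λ) (h5 : T ≤ Λ) :
    Law0 μ r Λ where
  prob := inferInstance
  big := h1
  sig := h2
  nr := h3
  u2 a l hl := by
    calc _ ≤ ∫⁻ _ in {z : ℂ | |z.re - a| ≤ l}, ENNReal.ofReal (1 + T ^ 2) ∂μ := by
          refine lintegral_mono_ae ?_
          filter_upwards [ae_restrict_of_ae hT] with z hz
          exact ENNReal.ofReal_le_ofReal (by gcongr)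
      _ ≤ ENNReal.ofReal (1 + T ^ 2) * ENNReal.ofReal (D * l) := by
          rw [setLIntegral_const]; gcongr; exact hD a l hl
      _ ≤ _ := by
          rw [← ENNReal.ofReal_mul (by positivity), ← mul_assoc]
          exact ENNReal.ofReal_le_ofReal (mul_le_mul_of_nonneg_right h4 hl)
  u3 s hs := by
    by_cases h : T ≤ s
    · rw [measure_mono_null (t := {z | ¬‖cl z - cl r‖ ≤ T}) (fun z hz => by
        simp only [mem_setOf_eq, not_le] at hz ⊢; linarith) (ae_iff.1 hT)]
      exact zero_le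
    · refine prob_le_one.trans ?_
      rw [← ENNReal.ofReal_one]
      exact ENNReal.ofReal_le_ofReal ((one_le_div hs).2 (by linarith))

theorem dens_le_vol {f : ℝ → ℝ} {D : ℝ} (h : ∀ a, f a ≤ D) :
    dens f ≤ ENNReal.ofReal D • (volume : Measure ℝ) := by
  refine (dens_mono h).trans (le_of_eq ?_)
  rw [dens, withDensity_const]

theorem dens_le_restrict {f : ℝ → ℝ} {D c l : ℝ} (h : ∀ a, f a ≤ D)
    (h' : ∀ a, 0 < f a → |a - c| ≤ l) :
    dens f ≤ ENNReal.ofReal D • volume.restrict (Icc (c - l) (c + l)) := by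
  rw [← withDensity_const, ← withDensity_indicator measurableSet_Icc]
  refine withDensity_mono (ae_of_all _ fun a => ?_)
  by_cases ha : a ∈ Icc (c - l) (c + l)
  · rw [indicator_of_mem ha]; exact ENNReal.ofReal_le_ofReal (h a)
  · rw [indicator_of_notMem ha]
    refine le_of_eq (ENNReal.ofReal_eq_zero.2 (not_lt.1 fun h0 => ha ?_))
    have := abs_le.1 (h' a h0)
    constructor <;> linarith

theorem restrict_le_dens {f : ℝ → ℝ} {D c l : ℝ} (h : ∀ a, |a - c| ≤ l → D ≤ f a) :
    ENNReal.ofReal D • volume.restrict (Icc (c - l) (c + l)) ≤ dens f := by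
  rw [← withDensity_const, ← withDensity_indicator measurableSet_Icc]
  refine withDensity_mono (ae_of_all _ fun a => ?_)
  by_cases ha : a ∈ Icc (c - l) (c + l)
  · rw [indicator_of_mem ha]
    exact ENNReal.ofReal_le_ofReal (h a (abs_le.2 ⟨by linarith [ha.1], by linarith [ha.2]⟩))
  · rw [indicator_of_notMem ha]; exact zero_le

theorem norm_sh_sub (E g σ a c : ℝ) : ‖sh E g a - sh E σ c‖ ≤ |a - c| + |g - σ| := by
  have := Complex.norm_le_abs_re_add_abs_im (sh E g a - sh E σ c)
  simp only [sub_re, sh_re, sub_im, sh_im] at this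
  rwa [show a - E - (c - E) = a - c by ring, show -g - -σ = -(g - σ) by ring, abs_neg] at this

theorem tl_small {ν : Measure ℝ} {D : ℝ} (hD0 : 0 ≤ D) (hD : ν ≤ ENNReal.ofReal D • volume)
    (E g a l : ℝ) : tl E g ν {z | |z.re - a| ≤ l} ≤ ENNReal.ofReal (2 * D * l) := by
  rw [tl, Measure.map_apply (measurable_sh E g) (measurableSet_le (by fun_prop) measurable_const)]
  have e : sh E g ⁻¹' {z | |z.re - a| ≤ l} = Icc (a + E - l) (a + E + l) := by
    ext x; simp only [mem_preimage, mem_setOf_eq, sh_re, mem_Icc, abs_le]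
    constructor <;> rintro ⟨h1, h2⟩ <;> constructor <;> linarith
  rw [e]
  refine (hD _).trans (le_of_eq ?_)
  rw [Measure.smul_apply, Real.volume_Icc, smul_eq_mul, ← ENNReal.ofReal_mul hD0]
  congr 1; ring

/-- a compactly supported law with bounded density -/
theorem law0_tl {ν : Measure ℝ} [IsProbabilityMeasure ν] {D c b E g σ T Λ : ℝ} (hD0 : 0 ≤ D)
    (hD : ν ≤ ENNReal.ofReal D • volume) (hb : ∀ᵐ a ∂ν, |a - c| ≤ b) (hg : 0 ≤ g) (hσ : 0 ≤ σ)
    (hT : b + |g - σ| ≤ T) (h1 : 100 ≤ Λ) (h2 : Λ⁻¹ ≤ σ) (h3 : |c - E| + σ ≤ Λ)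
    (h4 : (1 + T ^ 2) * (2 * D) ≤ Λ) (h5 : T ≤ Λ) : Law0 (tl E g ν) (sh E σ c) Λ := by
  refine law0_of_bdd (T := T) (D := 2 * D) ?_ (fun a l _ => tl_small hD0 hD E g a l) h1
    (by simpa [abs_of_nonneg hσ] using h2) ?_ h4 h5
  · refine (ae_map_iff (measurable_sh E g).aemeasurable
      (measurableSet_le (measurable_cl'.sub_const _).norm measurable_const)).2 ?_
    filter_upwards [hb] with a ha
    rw [cl_sh E hg, cl_sh E hσ]
    linarith [norm_sh_sub E g σ a c]
  · have := Complex.norm_le_abs_re_add_abs_im (sh E σ c)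
    simp only [sh_re, sh_im, abs_neg, abs_of_nonneg hσ] at this
    linarith

/-! ### the truncated Cauchy law -/

/-- mass of the window -/
noncomputable def Zc (l : ℝ) : ℝ := ∫ x in {x : ℝ | |x| ≤ l ^ 2}, cau x

/-- Cauchy density with centre `c` and width `τ`, cut at distance `l² τ` -/
noncomputable def tcd (c τ l a : ℝ) : ℝ :=
  {x : ℝ | |x| ≤ l ^ 2}.indicator cau ((a - c) / τ) / (τ * Zc l)

theorem measurableSet_win (L : ℝ) : MeasurableSet {x : ℝ | |x| ≤ L} :=
  measurableSet_le (by fun_prop) measurable_const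

theorem Zc_le (l : ℝ) : Zc l ≤ 1 := by
  rw [← integral_cau]
  exact setIntegral_le_integral integrable_cau (ae_of_all _ fun x => (cau_pos x).le)

theorem le_Zc {l : ℝ} (hl : 8 ≤ l) : 1 / 2 ≤ Zc l := by
  have h1 := integral_add_compl (measurableSet_tail (l ^ 2)) integrable_cau
  rw [compl_tail, integral_cau] at h1
  have h2 := tail_mass (l := l) (by linarith)
  have h3 : 4 / l ≤ 1 / 2 := by rw [div_le_iff₀ (by linarith)]; linarith
  unfold Zc; linarith

theorem measurable_tcd (c τ l : ℝ) : Measurable (tcd c τ l) :=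
  ((continuous_cau.measurable.indicator (measurableSet_win _)).comp (by fun_prop)).div_const _

variable {c τ l : ℝ}

theorem tcd_nonneg (hτ : 0 < τ) (hl : 8 ≤ l) (a : ℝ) : 0 ≤ tcd c τ l a :=
  div_nonneg (indicator_nonneg (fun x _ => (cau_pos x).le) _)
    (mul_nonneg hτ.le (by linarith [le_Zc hl]))

theorem tcd_le (hτ : 0 < τ) (hl : 8 ≤ l) (a : ℝ) : tcd c τ l a ≤ τ⁻¹ := by
  have h1 := le_Zc hl
  have h2 : {x : ℝ | |x| ≤ l ^ 2}.indicator cau ((a - c) / τ) ≤ 1 / 2 := by
    refine indicator_le' (g := fun _ => 1 / 2) (fun x _ => ?_) (fun x _ => by norm_num) _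
    unfold cau
    rw [inv_eq_one_div]
    exact one_div_le_one_div_of_le two_pos (by nlinarith [Real.pi_gt_three, sq_nonneg x])
  rw [tcd, div_le_iff₀ (by positivity), ← mul_assoc, inv_mul_cancel₀ hτ.ne']
  linarith

theorem tcd_supp (hτ : 0 < τ) {a : ℝ} (h : 0 < tcd c τ l a) : |a - c| ≤ l ^ 2 * τ := by
  by_contra hc
  rw [tcd, indicator_of_notMem, zero_div] at h
  · exact lt_irrefl _ h
  · simp only [mem_setOf_eq, abs_div, abs_of_pos hτ, div_le_iff₀ hτ]; exact hc

theorem le_tcd (hτ : 0 < τ) (hl : 8 ≤ l) {a : ℝ} (h : |a - c| ≤ l ^ 2 * τ) :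
    (5 * l ^ 4 * τ)⁻¹ ≤ tcd c τ l a := by
  have h1 := le_Zc hl
  have h2 := Zc_le l
  have hm : |(a - c) / τ| ≤ l ^ 2 := by rw [abs_div, abs_of_pos hτ, div_le_iff₀ hτ]; exact h
  have hl0 : 0 < l := by linarith
  rw [tcd, indicator_of_mem (by exact hm), le_div_iff₀ (by positivity)]
  have h3 : ((a - c) / τ) ^ 2 ≤ l ^ 4 := by
    rw [← sq_abs]; nlinarith [abs_nonneg ((a - c) / τ)]
  have h4 : (5 * l ^ 4)⁻¹ ≤ cau ((a - c) / τ) := by
    refine inv_anti₀ (by positivity) ?_
    have : 8 ^ 4 ≤ l ^ 4 := pow_le_pow_left₀ (by norm_num) hl 4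
    nlinarith [Real.pi_le_four, Real.pi_pos]
  have h5 : (5 * l ^ 4 * τ)⁻¹ * (τ * Zc l) = (5 * l ^ 4)⁻¹ * Zc l := by field_simp
  rw [h5]
  exact (mul_le_of_le_one_right (by positivity) h2).trans h4

theorem integral_tcd_mul (hτ : 0 < τ) (F : ℝ → ℝ) : ∫ a, tcd c τ l a * F a =
    (Zc l)⁻¹ * ∫ x in {x : ℝ | |x| ≤ l ^ 2}, cau x * F (c + τ * x) := by
  set H : ℝ → ℝ := fun x => {x : ℝ | |x| ≤ l ^ 2}.indicator (fun x => cau x * F (c + τ * x)) x
  have e : ∀ a, tcd c τ l a * F a = (τ * Zc l)⁻¹ * H ((a - c) / τ) := fun a => by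
    simp only [H, tcd, indicator]
    split_ifs
    · rw [mul_div_cancel₀ _ hτ.ne', add_sub_cancel]; ring
    · simp
  simp_rw [e]
  rw [integral_const_mul, integral_sub_right_eq_self (fun a => H (a / τ)) c,
    Measure.integral_comp_div, integral_indicator (measurableSet_win _), abs_of_pos hτ, smul_eq_mul]
  field_simp

theorem lintegral_tcd (hτ : 0 < τ) (hl : 8 ≤ l) : ∫⁻ a, ENNReal.ofReal (tcd c τ l a) = 1 := by
  have h1 := integral_tcd_mul (c := c) (l := l) hτ fun _ => 1
  simp only [mul_one] at h1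
  have h2 : ∫ a, tcd c τ l a = 1 := by
    rw [h1]; exact inv_mul_cancel₀ (by linarith [le_Zc hl] : 0 < Zc l).ne'
  rw [← ofReal_integral_eq_lintegral_ofReal (Integrable.of_integral_ne_zero (by rw [h2]; simp))
    (ae_of_all _ (tcd_nonneg hτ hl)), h2, ENNReal.ofReal_one]

theorem isProb_tc (hτ : 0 < τ) (hl : 8 ≤ l) : IsProbabilityMeasure (dens (tcd c τ l)) :=
  isProb_dens (lintegral_tcd hτ hl)

theorem integral_tc (hτ : 0 < τ) (hl : 8 ≤ l) (E g : ℝ) {F : ℂ → ℝ} (hF : Measurable F) :
    ∫ z, F z ∂tl E g (dens (tcd c τ l)) =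
      (Zc l)⁻¹ * ∫ x in {x : ℝ | |x| ≤ l ^ 2}, cau x * F (sh E g (c + τ * x)) := by
  rw [tl, integral_map (measurable_sh E g).aemeasurable hF.aestronglyMeasurable, dens,
    integral_withDensity_eq_integral_toReal_smul (measurable_tcd c τ l).ennreal_ofReal
      (ae_of_all _ fun _ => ENNReal.ofReal_lt_top),
    ← integral_tcd_mul hτ fun a => F (sh E g a)]
  refine integral_congr_ae (ae_of_all _ fun a => ?_)
  simp only [ENNReal.toReal_ofReal (tcd_nonneg hτ hl a), smul_eq_mul]

theorem law0_tc (hτ : 0 < τ) (hl : 8 ≤ l) {E g Λ : ℝ} (hg : 0 ≤ g) (hw : l ^ 2 * τ ≤ 1)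
    (h1 : 100 ≤ Λ) (h2 : 10 / τ ≤ Λ) (h3 : |c - E| + (g + τ) ≤ Λ) :
    Law0 (tl E g (dens (tcd c τ l))) (sh E (g + τ) c) Λ := by
  have := isProb_tc (c := c) hτ hl
  have hτ1 : τ ≤ 1 := by nlinarith
  refine law0_tl (D := τ⁻¹) (b := l ^ 2 * τ) (T := 2) (by positivity)
    (dens_le_vol (tcd_le hτ hl)) (ae_dens (measurable_tcd c τ l) fun a => tcd_supp hτ) hg
    (by linarith) ?_ h1 ?_ h3 ?_ (by linarith)
  · rw [show g - (g + τ) = -τ by ring, abs_neg, abs_of_pos hτ]; linarith
  · rw [inv_le_comm₀ (by linarith) (by linarith)]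
    refine le_trans (inv_anti₀ hτ (by linarith)) (le_trans ?_ h2)
    rw [div_eq_mul_inv]; nlinarith [inv_pos.2 hτ]
  · rw [div_eq_mul_inv] at h2; linarith

/-- the truncated Cauchy law is almost a harmonic measure -/
theorem law_tc (hτ : 0 < τ) (hl : 8 ≤ l) {E g Λ : ℝ} (hg : 0 ≤ g) (hw : l ^ 2 * τ ≤ 1)
    (h1 : 100 ≤ Λ) (h2 : 10 / τ ≤ Λ) (h3 : |c - E| + (g + τ) ≤ Λ) :
    Law (tl E g (dens (tcd c τ l))) (sh E (g + τ) c) Λ (10 / l) where
  toLaw0 := law0_tc hτ hl hg hw h1 h2 h3
  la b := by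
    have hZ := le_Zc hl
    have hl0 : 0 < l := by linarith
    rw [integral_tc hτ hl E g (F := fun z => Real.log ‖1 + (cl z - cl (sh E (g + τ) c)) * b‖)
      (Real.measurable_log.comp (((measurable_cl'.sub_const _).mul_const _).const_add _).norm)]
    have e : ∀ x : ℝ, 1 + (cl (sh E g (c + τ * x)) - cl (sh E (g + τ) c)) * b =
        (1 + Complex.I * (τ * b)) + τ * b * x := fun x => by
      rw [cl_sh E hg, cl_sh E (by linarith)]; unfold sh; push_cast; ring
    simp only [e]
    have hne : 1 + Complex.I * (τ * b) ≠ 0 ∨ τ * b ≠ 0 := by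
      by_cases h : (τ : ℂ) * b = 0
      · left; rw [h]; simp
      · exact Or.inr h
    have h4 := win_log_ge (l := l) (by linarith) hne
    set N := max ‖1 + Complex.I * (τ * b) + Complex.I * (τ * b)‖
      ‖1 + Complex.I * (τ * b) - Complex.I * (τ * b)‖ with hN
    have hN1 : 0 ≤ Real.log N := Real.log_nonneg (by rw [hN]; simp)
    simp_rw [mul_sub] at h4
    rw [integral_sub (cau_log hne).1.integrableOn (integrable_cau.mul_const _).integrableOn,
      integral_mul_const] at h4
    have h5 : 0 ≤ Zc l * Real.log N := by positivity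
    rw [← div_eq_inv_mul, le_div_iff₀ (by linarith)]
    have h6 : 4 / l ≤ 10 / l * Zc l := by
      have : 0 < l⁻¹ := inv_pos.2 hl0
      rw [div_eq_mul_inv, div_eq_mul_inv]; nlinarith
    unfold Zc at h5 h6 ⊢
    linarith
  lb m hm := by
    have hZ := le_Zc hl
    have hl0 : 0 < l := by linarith
    have hτ' : (τ : ℂ) ≠ 0 := by exact_mod_cast hτ.ne'
    rw [integral_tc hτ hl E g (F := fun z => Real.log ‖(cl z - m) / (cl (sh E (g + τ) c) - m)‖)
      (Real.measurable_log.comp ((measurable_cl'.sub_const _).div_const _).norm)]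
    set m' : ℂ := (m - sh E g c) / τ with hm'
    have him : 0 < m'.im := by
      rw [hm', Complex.div_ofReal_im]; simp only [sub_im, sh_im]
      exact div_pos (by linarith) hτ
    have e : ∀ x : ℝ, Real.log ‖(cl (sh E g (c + τ * x)) - m) / (cl (sh E (g + τ) c) - m)‖ =
        Real.log ‖-m' + 1 * x‖ - Real.log ‖m' + Complex.I‖ := fun x => by
      have e1 : cl (sh E g (c + τ * x)) - m = τ * (-m' + 1 * x) := by
        rw [cl_sh E hg, hm']; unfold sh; push_cast; field_simp; ring
      have e2 : cl (sh E (g + τ) c) - m = τ * -(m' + Complex.I) := by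
        rw [cl_sh E (by linarith), hm']; unfold sh; push_cast; field_simp; ring
      have n1 : -m' + 1 * x ≠ 0 := fun h => by
        have := congrArg Complex.im h; simp at this; linarith
      have n2 : m' + Complex.I ≠ 0 := fun h => by
        have := congrArg Complex.im h; simp at this; linarith
      rw [e1, e2, mul_div_mul_left _ _ hτ', norm_div, norm_neg,
        Real.log_div (norm_ne_zero_iff.2 n1) (norm_ne_zero_iff.2 n2)]
    simp only [e]
    have h4 := win_log_le (l := l) (by linarith) him.le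
    rw [← div_eq_inv_mul, div_le_iff₀ (by linarith)]
    have h6 : 5 / l ≤ 10 / l * Zc l := by
      have : 0 < l⁻¹ := inv_pos.2 hl0
      rw [div_eq_mul_inv, div_eq_mul_inv]; nlinarith
    linarith
  kle := by
    have h4 : 10 / l ≤ 2 := by rw [div_le_iff₀ (by linarith)]; linarith
    have h5 : 1 ≤ Real.log Λ := by
      rw [Real.le_log_iff_exp_le (by linarith)]; linarith [Real.exp_one_lt_d9]
    linarith

theorem le_of_win {h : ℝ} (hτ : 0 < τ) (hl : 8 ≤ l) (hh : |c| + l ^ 2 * τ ≤ h) : τ ≤ h := by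
  have : 1 ≤ l ^ 2 := by nlinarith
  nlinarith [abs_nonneg c]

/-- the label datum whose window law is the truncated Cauchy law -/
noncomputable def tcSite {h : ℝ} (hτ : 0 < τ) (hl : 8 ≤ l) (hh : |c| + l ^ 2 * τ ≤ h) :
    Site h where
  z := τ / (4 * h)
  wd := tcd c τ l
  meas := measurable_tcd c τ l
  nonneg := tcd_nonneg hτ hl
  mass := lintegral_tcd hτ hl
  z_nonneg := by
    have : 0 < h := hτ.trans_le (le_of_win hτ hl hh)
    positivity
  z_le := by
    have : τ ≤ h := le_of_win hτ hl hh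
    rw [div_le_iff₀ (by linarith)]; linarith
  le a := by
    have h0 : 0 < h := hτ.trans_le (le_of_win hτ hl hh)
    rcases (tcd_nonneg (c := c) hτ hl a).eq_or_lt with e | e
    · rw [← e, mul_zero]; exact div_nonneg (ud_nonneg h0 a) two_pos.le
    · have e1 := tcd_supp hτ e
      have e2 : |a| ≤ h := by
        have := abs_add_le (a - c) c
        rw [sub_add_cancel] at this; linarith
      rw [ud, if_pos e2]
      refine (mul_le_mul_of_nonneg_left (tcd_le hτ hl a) (by positivity)).trans (le_of_eq ?_)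
      field_simp; norm_num

end Crest.Agent.N334.Md
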