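import Mathlib
import Crest.Agent.N334.T.Defs
import Crest.Agent.N334.I.Tor
import Crest.Agent.N334.Md.Laws
import Crest.Agent.N334.G.Law
import Crest.Agent.N334.I.Geo
import Crest.Agent.N334.T.Log

-- ▼ part N334/Md/Obs1
section

/-!
# Row 334 (helper14): one-dimensional lemmas for the observability lemma OBS (note 279)

`wr`: Wronskian lemma for a nowhere vanishing decaying solution `a`;
`scal`: finitely supported solutions of the free recurrence with one defect.
-/

set_option autoImplicit false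

namespace Crest.Agent.N334.Md

/-- an even, nowhere vanishing sequence that decays like `r ^ |n|` -/
structure Dec (a : ℤ → ℝ) (r c : ℝ) : Prop where
  r_pos : 0 < r
  r_le : r ≤ 1
  c_pos : 0 < c
  even : ∀ n, a (-n) = a n
  zero : a 0 = 1
  ub : ∀ n : ℕ, |a n| ≤ r ^ n
  lb : ∀ n : ℕ, c * r ^ n ≤ |a n|

/-- the potential for which `a` is a null vector -/
noncomputable def al (a : ℤ → ℝ) (n : ℤ) : ℝ := (a (n + 1) + a (n - 1)) / a n

variable {a : ℤ → ℝ} {r c : ℝ}

theorem Dec.pos (D : Dec a r c) (n : ℕ) : 0 < |a n| :=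
  lt_of_lt_of_le (mul_pos D.c_pos (pow_pos D.r_pos n)) (D.lb n)

theorem Dec.natAbs (D : Dec a r c) (n : ℤ) : a n = a (n.natAbs : ℕ) := by
  rcases Int.natAbs_eq n with h | h
  · rw [← h]
  · conv_lhs => rw [h]
    exact D.even _

theorem Dec.ne (D : Dec a r c) (n : ℤ) : a n ≠ 0 := by
  rw [D.natAbs n]; exact abs_pos.1 (D.pos _)

theorem Dec.le_one (D : Dec a r c) (n : ℤ) : |a n| ≤ 1 := by
  rw [D.natAbs n]; exact (D.ub _).trans (pow_le_one₀ D.r_pos.le D.r_le)

theorem Dec.c_le (D : Dec a r c) : c ≤ 1 := by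
  have := D.lb 0
  simpa [D.zero] using this

theorem Dec.al_neg (D : Dec a r c) (n : ℤ) : al a (-n) = al a n := by
  unfold al
  rw [show -n + 1 = -(n - 1) by ring, show -n - 1 = -(n + 1) by ring, D.even, D.even, D.even,
    add_comm]

theorem Dec.al_mul (D : Dec a r c) (n : ℤ) : al a n * a n = a (n + 1) + a (n - 1) := by
  unfold al; field_simp [D.ne n]

theorem wr_half (D : Dec a r c) (ψ : ℤ → ℂ) (N : ℕ) (F : ℝ) (hF0 : 0 ≤ F)
    (hF : ∀ n : ℕ, 1 ≤ n → n ≤ N → ‖ψ (n + 1) + ψ (n - 1) - al a n * ψ n‖ ≤ F)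
    (hW : (a N : ℂ) * ψ (N + 1) = a (N + 1) * ψ N) :
    ∀ n : ℕ, n ≤ N → ‖ψ n - ψ 0 * a n‖ ≤ N ^ 2 * F / c ^ 2 := by
  have hr := D.r_pos
  have hc := D.c_pos
  set W : ℕ → ℂ := fun n => (a n : ℂ) * ψ (n + 1) - a (n + 1) * ψ n with hWdef
  have h1 : ∀ j n : ℕ, n + j = N → ‖W n‖ ≤ j * F * r ^ (n + 1) := by
    intro j
    induction j with
    | zero =>
      intro n hn
      have : n = N := by simpa using hn
      subst this
      simp [hWdef, hW]
    | succ j ih =>
      intro n hn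
      have h2 := ih (n + 1) (by omega)
      have h3 := hF (n + 1) (by omega) (by omega)
      have h4 : ((al a ((n + 1 : ℕ) : ℤ) : ℝ) : ℂ) * (a ((n + 1 : ℕ) : ℤ) : ℂ) =
          a (((n + 1 : ℕ) : ℤ) + 1) + a (((n + 1 : ℕ) : ℤ) - 1) := by
        exact_mod_cast D.al_mul _
      have h5 : W n = W (n + 1) - (a ((n + 1 : ℕ) : ℤ) : ℂ) *
          (ψ (((n + 1 : ℕ) : ℤ) + 1) + ψ (((n + 1 : ℕ) : ℤ) - 1) -
            al a ((n + 1 : ℕ) : ℤ) * ψ ((n + 1 : ℕ) : ℤ)) := by
        simp only [hWdef]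
        push_cast at h4 ⊢
        simp only [add_sub_cancel_right] at h4 ⊢
        linear_combination (-ψ (n + 1)) * h4
      rw [h5]
      refine (norm_sub_le _ _).trans ?_
      rw [norm_mul, Complex.norm_real, Real.norm_eq_abs]
      have h6 := D.ub (n + 1)
      have h7 : r ^ (n + 1 + 1) ≤ r ^ (n + 1) := pow_le_pow_of_le_one hr.le D.r_le (by omega)
      have h8 : |a ((n + 1 : ℕ) : ℤ)| * ‖ψ (((n + 1 : ℕ) : ℤ) + 1) + ψ (((n + 1 : ℕ) : ℤ) - 1) -
            al a ((n + 1 : ℕ) : ℤ) * ψ ((n + 1 : ℕ) : ℤ)‖ ≤ r ^ (n + 1) * F :=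
        mul_le_mul h6 h3 (norm_nonneg _) (by positivity)
      have h9 : (j : ℝ) * F * r ^ (n + 1 + 1) ≤ j * F * r ^ (n + 1) :=
        mul_le_mul_of_nonneg_left h7 (by positivity)
      push_cast at *
      nlinarith
  have h2 : ∀ n : ℕ, n ≤ N → ‖ψ n - ψ 0 * a n‖ ≤ |a n| * (n * (N * F / (c ^ 2 * r ^ n))) := by
    intro n
    induction n with
    | zero => intro _; simp [D.zero]
    | succ n ih =>
      intro hn
      have h3 := ih (by omega)
      have h4 := h1 (N - n) n (by omega)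
      have h5 : ((N - n : ℕ) : ℝ) ≤ N := by exact_mod_cast Nat.sub_le N n
      have hp := D.pos n
      have hp' := D.pos (n + 1)
      have hid : (a n : ℂ) * (ψ ((n + 1 : ℕ) : ℤ) - ψ 0 * a ((n + 1 : ℕ) : ℤ)) =
          a ((n + 1 : ℕ) : ℤ) * (ψ n - ψ 0 * a n) + W n := by
        simp only [hWdef]; push_cast; ring
      have h6 : |a n| * ‖ψ ((n + 1 : ℕ) : ℤ) - ψ 0 * a ((n + 1 : ℕ) : ℤ)‖ ≤
          |a ((n + 1 : ℕ) : ℤ)| * ‖ψ n - ψ 0 * a n‖ + ‖W n‖ := by
        have := congrArg norm hid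
        rw [norm_mul, Complex.norm_real, Real.norm_eq_abs] at this
        rw [this]
        refine (norm_add_le _ _).trans ?_
        rw [norm_mul, Complex.norm_real, Real.norm_eq_abs]
      set X := N * F / (c ^ 2 * r ^ n) with hX
      have hX0 : 0 ≤ X := by positivity
      have hX1 : X ≤ N * F / (c ^ 2 * r ^ (n + 1)) := by
        apply div_le_div_of_nonneg_left (by positivity) (by positivity)
        exact mul_le_mul_of_nonneg_left (pow_le_pow_of_le_one hr.le D.r_le (by omega))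
          (by positivity)
      have h7 : ‖W n‖ ≤ |a n| * (|a ((n + 1 : ℕ) : ℤ)| * X) := by
        have e1 : (N : ℝ) * F * r ^ (n + 1) = (c * r ^ n) * ((c * r ^ (n + 1)) * X) := by
          rw [hX]; field_simp
        have e2 : (c * r ^ n) * ((c * r ^ (n + 1)) * X) ≤ |a n| * (|a ((n + 1 : ℕ) : ℤ)| * X) :=
          mul_le_mul (D.lb n) (mul_le_mul_of_nonneg_right (D.lb (n + 1)) hX0) (by positivity)
            hp.le
        have e3 : ((N - n : ℕ) : ℝ) * F * r ^ (n + 1) ≤ N * F * r ^ (n + 1) := by gcongr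
        linarith
      have h8 : |a n| * ‖ψ ((n + 1 : ℕ) : ℤ) - ψ 0 * a ((n + 1 : ℕ) : ℤ)‖ ≤
          |a n| * (|a ((n + 1 : ℕ) : ℤ)| * ((n + 1) * X)) := by
        have := mul_le_mul_of_nonneg_left h3 hp'.le
        nlinarith
      have h9 := le_of_mul_le_mul_left h8 hp
      refine h9.trans ?_
      push_cast
      gcongr
  intro n hn
  refine (h2 n hn).trans ?_
  have h3 : |a n| * (n * (N * F / (c ^ 2 * r ^ n))) ≤ r ^ n * (N * (N * F / (c ^ 2 * r ^ n))) := by
    have : (n : ℝ) ≤ N := by exact_mod_cast hn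
    gcongr
    exact D.ub n
  refine h3.trans (le_of_eq ?_)
  field_simp

/-- the Wronskian lemma -/
theorem wr (D : Dec a r c) (ψ : ℤ → ℂ) (N : ℕ) (F : ℝ) (hF0 : 0 ≤ F)
    (hF : ∀ n : ℤ, |n| ≤ N → ‖ψ (n + 1) + ψ (n - 1) - al a n * ψ n‖ ≤ F)
    (hW : (a N : ℂ) * ψ (N + 1) = a (N + 1) * ψ N)
    (hW' : (a N : ℂ) * ψ (-(N + 1)) = a (N + 1) * ψ (-N)) :
    ∀ n : ℤ, |n| ≤ N → ‖ψ n - ψ 0 * a n‖ ≤ N ^ 2 * F / c ^ 2 := by
  intro n hn
  have hn' : n.natAbs ≤ N := by rw [Int.abs_eq_natAbs] at hn; exact_mod_cast hn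
  rcases Int.natAbs_eq n with h | h
  · rw [h]
    exact wr_half D ψ N F hF0 (fun m _ hm => hF m (by rw [Nat.abs_cast]; exact_mod_cast hm)) hW _ hn'
  · have := wr_half D (fun m => ψ (-m)) N F hF0 (fun m _ hm => by
      have := hF (-m) (by rw [abs_neg, Nat.abs_cast]; exact_mod_cast hm)
      rw [D.al_neg, show -(m : ℤ) + 1 = -((m : ℤ) - 1) by ring,
        show -(m : ℤ) - 1 = -((m : ℤ) + 1) by ring, add_comm] at this
      exact this) hW' _ hn'
    rw [h, D.even]
    simpa using this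

theorem scal_half (ρ : ℂ) (hρ : 1 ≤ ‖ρ‖) (ψ : ℤ → ℂ) (R : ℕ) (G : ℝ) (hG0 : 0 ≤ G)
    (hs : ∀ m : ℕ, R < m → ψ m = 0)
    (hG : ∀ m : ℕ, 1 ≤ m → ‖ψ (m + 1) + ψ (m - 1) - (ρ + ρ⁻¹) * ψ m‖ ≤ G) :
    ‖ψ 0 - ρ * ψ 1‖ ≤ (R + 1) * G ∧ (∀ m : ℕ, ‖ψ m‖ ≤ ‖ψ 0‖ + (R + 1) ^ 2 * G) ∧
      (‖ρ‖ = 1 → ‖ψ 0‖ ≤ (R + 1) ^ 2 * G) := by
  have hρ0 : ρ ≠ 0 := by rintro rfl; norm_num at hρ
  have hinv : ‖ρ⁻¹‖ ≤ 1 := by rw [norm_inv]; exact inv_le_one_of_one_le₀ hρ
  set d : ℕ → ℂ := fun m => ψ m - ρ * ψ (m + 1) with hd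
  have h1 : ∀ j m : ℕ, R + 1 ≤ m + j → ‖d m‖ ≤ j * G := by
    intro j
    induction j with
    | zero =>
      intro m hm
      have e1 := hs m (by omega)
      have e2 := hs (m + 1) (by omega)
      push_cast at e2
      simp [hd, e1, e2]
    | succ j ih =>
      intro m hm
      have e1 := ih (m + 1) (by omega)
      have e2 := hG (m + 1) (by omega)
      have e3 : d m = ρ⁻¹ * d (m + 1) + (ψ (((m + 1 : ℕ) : ℤ) + 1) + ψ (((m + 1 : ℕ) : ℤ) - 1) -
          (ρ + ρ⁻¹) * ψ ((m + 1 : ℕ) : ℤ)) := by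
        simp only [hd]; push_cast; simp only [add_sub_cancel_right]; field_simp; ring
      rw [e3]
      refine (norm_add_le _ _).trans ?_
      rw [norm_mul]
      have := mul_le_mul hinv e1 (norm_nonneg _) zero_le_one
      push_cast at *
      linarith
  have h2 : ∀ m, ‖d m‖ ≤ (R + 1) * G := fun m => by
    have := h1 (R + 1) m (by omega); push_cast at this; exact this
  have h3 : ∀ m : ℕ, ‖ψ m‖ ≤ ‖ψ 0‖ + m * ((R + 1) * G) := by
    intro m
    induction m with
    | zero => simp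
    | succ m ih =>
      have e : ψ ((m + 1 : ℕ) : ℤ) = ρ⁻¹ * (ψ m - d m) := by
        simp only [hd]; push_cast; field_simp; ring
      rw [e, norm_mul]
      have e1 := mul_le_mul hinv (norm_sub_le (ψ m) (d m)) (norm_nonneg _) zero_le_one
      have e2 := h2 m
      push_cast
      linarith
  refine ⟨by simpa [hd] using h2 0, fun m => ?_, fun h1ρ => ?_⟩
  · by_cases hm : R < m
    · rw [hs m hm, norm_zero]; positivity
    · have e : (m : ℝ) ≤ R + 1 := by
        have : (m : ℝ) ≤ R := by exact_mod_cast not_lt.1 hm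
        linarith
      have := h3 m
      have e2 : (m : ℝ) * ((R + 1) * G) ≤ (R + 1) * ((R + 1) * G) := by gcongr
      nlinarith
  · have h4 : ∀ j m : ℕ, R + 1 ≤ m + j → ‖ψ m‖ ≤ j * ((R + 1) * G) := by
      intro j
      induction j with
      | zero => intro m hm; rw [hs m (by omega)]; simp
      | succ j ih =>
        intro m hm
        have e1 := ih (m + 1) (by omega)
        have e : ψ m = d m + ρ * ψ ((m + 1 : ℕ) : ℤ) := by simp only [hd]; push_cast; ring
        rw [e]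
        refine (norm_add_le _ _).trans ?_
        rw [norm_mul, h1ρ, one_mul]
        have := h2 m
        push_cast at *
        linarith
    have := h4 (R + 1) 0 (by omega)
    push_cast at this
    nlinarith

theorem real_gap (x y g : ℝ) (hx : 1 ≤ |x|) (hy : 1 ≤ |y|) (h1 : g ≤ |y + y⁻¹ - (x + x⁻¹)|)
    (h2 : g ≤ |y - y⁻¹|) : g ≤ |y - y⁻¹ - (x - x⁻¹)| := by
  have hx0 : x ≠ 0 := by rintro rfl; norm_num at hx
  have hy0 : y ≠ 0 := by rintro rfl; norm_num at hy
  by_cases hxy : 0 < x * y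
  · have e1 : y + y⁻¹ - (x + x⁻¹) = (y - x) * (1 - (x * y)⁻¹) := by field_simp; ring
    have e2 : y - y⁻¹ - (x - x⁻¹) = (y - x) * (1 + (x * y)⁻¹) := by field_simp; ring
    rw [e1, abs_mul] at h1
    rw [e2, abs_mul]
    refine h1.trans (mul_le_mul_of_nonneg_left ?_ (abs_nonneg _))
    have := inv_pos.2 hxy
    rw [abs_of_pos (by linarith : 0 < 1 + (x * y)⁻¹), abs_le]
    constructor <;> linarith
  · refine h2.trans ?_
    have key : ∀ t : ℝ, 1 ≤ t → 0 ≤ t - t⁻¹ := fun t ht => by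
      have := inv_le_one_of_one_le₀ ht; linarith
    rcases le_abs'.1 hx with hx | hx <;> rcases le_abs'.1 hy with hy | hy
    · exact absurd (by nlinarith) hxy
    · have e1 := key (-x) (by linarith)
      have e2 := key y hy
      rw [inv_neg] at e1
      rw [abs_of_nonneg e2, abs_of_nonneg (by linarith)]; linarith
    · have e1 := key (-y) (by linarith)
      have e2 := key x hx
      rw [inv_neg] at e1
      rw [abs_of_nonpos (by linarith), abs_of_nonpos (by linarith)]; linarith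
    · exact absurd (by nlinarith) hxy

theorem exists_rho (τ : ℂ) : ∃ ρ : ℂ, 1 ≤ ‖ρ‖ ∧ ρ + ρ⁻¹ = τ := by
  obtain ⟨z, hz⟩ := IsAlgClosed.exists_pow_nat_eq (τ ^ 2 - 4) (by norm_num : 0 < 2)
  have hm : (τ + z) / 2 * ((τ - z) / 2) = 1 := by linear_combination (-1 / 4 : ℂ) * hz
  by_cases h : 1 ≤ ‖(τ + z) / 2‖
  · exact ⟨_, h, by rw [inv_eq_of_mul_eq_one_right hm]; ring⟩
  · refine ⟨(τ - z) / 2, ?_, by rw [inv_eq_of_mul_eq_one_left hm]; ring⟩
    have h1 := congrArg norm hm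
    rw [norm_mul, norm_one] at h1
    have h2 := norm_nonneg ((τ + z) / 2)
    have h3 := norm_nonneg ((τ - z) / 2)
    by_contra h4
    rw [not_le] at h h4
    nlinarith

/-- finitely supported solutions of the free recurrence with one defect at `0` -/
theorem scal (y lam g : ℝ) (hy : 1 ≤ |y|) (hg : 0 < g) (hg1 : g ≤ 1) (hl : g ≤ |lam|)
    (hs : g ≤ |y - y⁻¹|) (β : ℤ → ℝ) (hβ : ∀ m, m ≠ 0 → β m = y + y⁻¹) (hβ0 : β 0 = 2 * y⁻¹)
    (ψ : ℤ → ℂ) (R : ℕ) (G : ℝ) (hG0 : 0 ≤ G) (hsupp : ∀ m : ℤ, (R : ℤ) < |m| → ψ m = 0)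
    (hG : ∀ m, ‖ψ (m + 1) + ψ (m - 1) - β m * ψ m + lam * ψ m‖ ≤ G) (m : ℤ) :
    ‖ψ m‖ ≤ 4 * (R + 1) ^ 2 * G / g := by
  obtain ⟨ρ, hρ, hτ⟩ := exists_rho ((y + y⁻¹ - lam : ℝ) : ℂ)
  have hρ0 : ρ ≠ 0 := by rintro rfl; norm_num at hρ
  have A := scal_half ρ hρ ψ R G hG0
    (fun m hm => hsupp m (by rw [Nat.abs_cast]; exact_mod_cast hm)) (fun m hm => by
      have := hG m
      rw [hβ m (by omega)] at this
      rw [hτ]
      convert this using 2
      push_cast; ring)
  have B := scal_half ρ hρ (fun m => ψ (-m)) R G hG0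
    (fun m hm => hsupp _ (by rw [abs_neg, Nat.abs_cast]; exact_mod_cast hm)) (fun m hm => by
      have := hG (-m)
      rw [hβ _ (by omega), show -(m : ℤ) + 1 = -((m : ℤ) - 1) by ring,
        show -(m : ℤ) - 1 = -((m : ℤ) + 1) by ring] at this
      rw [hτ]
      convert this using 2
      push_cast; ring)
  simp only [neg_zero] at B
  have hR : (1 : ℝ) ≤ R + 1 := by have := Nat.cast_nonneg (α := ℝ) R; linarith
  have hX : (R + 1 : ℝ) * G ≤ (R + 1) ^ 2 * G := by
    apply mul_le_mul_of_nonneg_right _ hG0; nlinarith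
  have hX' : G ≤ (R + 1) * G := by nlinarith
  have h0 : g * ‖ψ 0‖ ≤ 3 * ((R + 1) ^ 2 * G) := by
    rcases hρ.eq_or_lt with h1 | h1
    · have := A.2.2 h1.symm
      have := norm_nonneg (ψ 0)
      nlinarith
    · have him : ρ.im = 0 := by
        have e1 := congrArg Complex.im hτ
        rw [Complex.add_im, Complex.inv_im, Complex.ofReal_im, Complex.normSq_eq_norm_sq] at e1
        have e2 : 1 < ‖ρ‖ ^ 2 := by nlinarith
        have e3 : ρ.im * (‖ρ‖ ^ 2 - 1) = 0 := by field_simp at e1; linarith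
        rcases mul_eq_zero.1 e3 with e | e
        · exact e
        · linarith
      obtain ⟨x, rfl⟩ : ∃ x : ℝ, ρ = x := ⟨ρ.re, by apply Complex.ext <;> simp [him]⟩
      have hx : 1 ≤ |x| := by simpa using hρ
      have hτ' : x + x⁻¹ = y + y⁻¹ - lam := by exact_mod_cast hτ
      have hgap := real_gap x y g hx hy (by rw [hτ']; simpa using hl) hs
      have hinv : ‖(x : ℂ)⁻¹‖ ≤ 1 := by rw [norm_inv]; exact inv_le_one_of_one_le₀ hρ
      have e0 := hG 0
      rw [hβ0] at e0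
      have hlam : (lam : ℂ) = (y : ℂ) + (y : ℂ)⁻¹ - ((x : ℂ) + (x : ℂ)⁻¹) := by
        rw [hτ]; push_cast; ring
      have e : ((y - y⁻¹ - (x - x⁻¹) : ℝ) : ℂ) * ψ 0 =
          (ψ (0 + 1) + ψ (0 - 1) - ((2 * y⁻¹ : ℝ) : ℂ) * ψ 0 + lam * ψ 0) +
            (x : ℂ)⁻¹ * ((ψ 0 - x * ψ 1) + (ψ 0 - x * ψ (-1))) := by
        rw [hlam]; push_cast; field_simp; ring
      have e1 := congrArg norm e
      rw [norm_mul, Complex.norm_real, Real.norm_eq_abs] at e1
      have e2 := norm_add_le (ψ (0 + 1) + ψ (0 - 1) - ((2 * y⁻¹ : ℝ) : ℂ) * ψ 0 + lam * ψ 0)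
        ((x : ℂ)⁻¹ * ((ψ 0 - x * ψ 1) + (ψ 0 - x * ψ (-1))))
      rw [norm_mul] at e2
      have e3 := mul_le_mul hinv (norm_add_le (ψ 0 - x * ψ 1) (ψ 0 - x * ψ (-1))) (norm_nonneg _)
        zero_le_one
      have e4 := mul_le_mul_of_nonneg_right hgap (norm_nonneg (ψ 0))
      have := A.1
      have := B.1
      linarith
  have hm : ‖ψ m‖ ≤ ‖ψ 0‖ + (R + 1) ^ 2 * G := by
    rcases Int.natAbs_eq m with h | h
    · rw [h]; exact A.2.1 _
    · rw [h]; exact B.2.1 _
  rw [le_div_iff₀ hg]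
  have : 0 ≤ (R + 1 : ℝ) ^ 2 * G := by positivity
  nlinarith

end Crest.Agent.N334.Md
end

-- ▼ part N334/Md/Obs2
section

/-!
# Row 334 (helper14): the observability lemma OBS (note 279) on `ℤ × ℤ`

`obs`: a function supported in the box `[-R,R]²` that almost solves the separable equation
`L φ = 0` is almost a multiple of the mode `a(n) b(m)`.
-/

set_option autoImplicit false

open Finset

namespace Crest.Agent.N334.Md

theorem exists_eig (I : Finset ℤ) (J : ℤ → ℤ → ℝ) (hJ : ∀ n m, J n m = J m n) :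
    ∃ (v : I → ℤ → ℝ) (lam : I → ℝ),
      (∀ i, ∀ n ∈ I, ∑ m ∈ I, J n m * v i m = lam i * v i n) ∧
      (∀ n ∈ I, ∀ m ∈ I, ∑ i, v i n * v i m = if n = m then 1 else 0) := by
  classical
  let M : Matrix I I ℝ := Matrix.of fun n m => J n m
  have hM : M.IsHermitian := by
    ext n m; simp [M, Matrix.conjTranspose_apply, hJ n m]
  refine ⟨fun i n => if h : n ∈ I then hM.eigenvectorBasis i ⟨n, h⟩ else 0, hM.eigenvalues,
    fun i n hn => ?_, fun n hn m hm => ?_⟩
  · have := congrFun (hM.mulVec_eigenvectorBasis i) ⟨n, hn⟩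
    simp only [Matrix.mulVec, dotProduct, Pi.smul_apply, smul_eq_mul] at this
    simp only [dif_pos hn]
    rw [← this, ← Finset.sum_coe_sort I]
    refine Finset.sum_congr rfl fun m _ => ?_
    rw [dif_pos m.2]
    rfl
  · have h1 := (Matrix.mem_unitaryGroup_iff.1 hM.eigenvectorUnitary.2)
    have h2 := congrFun (congrFun h1 ⟨n, hn⟩) ⟨m, hm⟩
    simp only [Matrix.mul_apply, Matrix.star_apply, Matrix.IsHermitian.eigenvectorUnitary_apply,
      star_trivial, Matrix.one_apply, Subtype.mk.injEq] at h2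
    simp only [dif_pos hn, dif_pos hm]
    exact h2

variable {a b : ℤ → ℝ} {r r' c : ℝ}

/-- potential on `[-N,N]` with the boundary condition that makes `a` a null vector -/
noncomputable def al' (a : ℤ → ℝ) (N : ℕ) (n : ℤ) : ℝ :=
  ((if n + 1 ∈ Icc (-(N : ℤ)) N then a (n + 1) else 0) +
    (if n - 1 ∈ Icc (-(N : ℤ)) N then a (n - 1) else 0)) / a n

noncomputable def Jk (a : ℤ → ℝ) (N : ℕ) (n m : ℤ) : ℝ :=
  (if m = n + 1 then 1 else 0) + (if m = n - 1 then 1 else 0) - if m = n then al' a N n else 0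

theorem Jk_symm (a : ℤ → ℝ) (N : ℕ) (n m : ℤ) : Jk a N n m = Jk a N m n := by
  unfold Jk
  have e1 : (m = n + 1) = (n = m - 1) := propext ⟨fun h => by omega, fun h => by omega⟩
  have e2 : (m = n - 1) = (n = m + 1) := propext ⟨fun h => by omega, fun h => by omega⟩
  simp only [e1, e2]
  by_cases h : m = n
  · subst h; simp
  · rw [if_neg h, if_neg (Ne.symm h)]; ring

theorem Jk_sum (a : ℤ → ℝ) (N : ℕ) (f : ℤ → ℂ) {n : ℤ} (hn : n ∈ Icc (-(N : ℤ)) N) :
    ∑ m ∈ Icc (-(N : ℤ)) N, (Jk a N n m : ℂ) * f m =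
      (if n + 1 ∈ Icc (-(N : ℤ)) N then f (n + 1) else 0) +
        (if n - 1 ∈ Icc (-(N : ℤ)) N then f (n - 1) else 0) - al' a N n * f n := by
  simp only [Jk, apply_ite ((↑) : ℝ → ℂ), Complex.ofReal_sub, Complex.ofReal_add, sub_mul, add_mul,
    ite_mul, Complex.ofReal_one, Complex.ofReal_zero, one_mul, zero_mul, Finset.sum_sub_distrib,
    Finset.sum_add_distrib, Finset.sum_ite_eq', if_pos hn]

theorem Jk_null (D : Dec a r c) (N : ℕ) {n : ℤ} (hn : n ∈ Icc (-(N : ℤ)) N) :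
    ∑ m ∈ Icc (-(N : ℤ)) N, (Jk a N n m : ℂ) * (a m : ℂ) = 0 := by
  rw [Jk_sum a N (fun m => (a m : ℂ)) hn]
  have h : (a n : ℂ) ≠ 0 := by exact_mod_cast D.ne n
  unfold al'
  push_cast [apply_ite ((↑) : ℝ → ℂ)]
  field_simp
  ring

/-- spectral gap at `0` -/
theorem gap (D : Dec a r c) (N : ℕ) (hN : 1 ≤ N) (v : ℤ → ℝ) (lam : ℝ)
    (hv : ∀ n ∈ Icc (-(N : ℤ)) N, ∑ m ∈ Icc (-(N : ℤ)) N, Jk a N n m * v m = lam * v n) :
    c ^ 2 / (4 * N ^ 3) ≤ |lam| ∨ ∀ n ∈ Icc (-(N : ℤ)) N, lam * v n = 0 ∧ v n = v 0 * a n := by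
  have hc := D.c_pos
  have hN' : (1 : ℝ) ≤ N := by exact_mod_cast hN
  have h0 : (0 : ℤ) ∈ Icc (-(N : ℤ)) N := by simp
  obtain ⟨n0, hn0, hmax⟩ := Finset.exists_max_image (Icc (-(N : ℤ)) N) (fun n => |v n|) ⟨0, h0⟩
  set ψ : ℤ → ℂ := fun n => if n ∈ Icc (-(N : ℤ)) N then (v n : ℂ) else
    if 0 < n then (a n : ℂ) / a N * v N else (a n : ℂ) / a N * v (-N) with hψ
  have haN : (a N : ℂ) ≠ 0 := by exact_mod_cast D.ne N
  have hin : ∀ n ∈ Icc (-(N : ℤ)) N, ψ n = v n := fun n hn => by simp only [hψ, if_pos hn]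
  have hup : ψ (N + 1) = (a (N + 1) : ℂ) / a N * v N := by
    simp only [hψ]
    rw [if_neg (by simp), if_pos (by omega)]
  have hdn : ψ (-(N + 1)) = (a (N + 1) : ℂ) / a N * v (-N) := by
    simp only [hψ]
    rw [if_neg (by simp), if_neg (by omega), D.even]
  have heq : ∀ n ∈ Icc (-(N : ℤ)) N, ψ (n + 1) + ψ (n - 1) - al a n * ψ n = lam * v n := by
    intro n hn
    have h1 : ∑ m ∈ Icc (-(N : ℤ)) N, (Jk a N n m : ℂ) * (v m : ℂ) = lam * v n := by
      exact_mod_cast hv n hn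
    rw [Jk_sum a N (fun m => (v m : ℂ)) hn] at h1
    have han : (a n : ℂ) ≠ 0 := by exact_mod_cast D.ne n
    rw [← h1, hin n hn]
    unfold al al'
    have hn' := Finset.mem_Icc.1 hn
    by_cases e1 : n + 1 ∈ Icc (-(N : ℤ)) N <;> by_cases e2 : n - 1 ∈ Icc (-(N : ℤ)) N
    · rw [hin _ e1, hin _ e2]; simp only [if_pos e1, if_pos e2]
    · have : n = -N := by rw [Finset.mem_Icc] at e2; omega
      subst this
      rw [hin _ e1, show -(N : ℤ) - 1 = -(N + 1) by ring, hdn]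
      rw [show -(N : ℤ) - 1 = -(N + 1) by ring] at e2
      simp only [if_pos e1, if_neg e2, D.even]
      push_cast; field_simp; ring
    · have : n = N := by rw [Finset.mem_Icc] at e1; omega
      subst this
      rw [hin _ e2, hup]
      simp only [if_neg e1, if_pos e2]
      push_cast; field_simp; ring
    · rw [Finset.mem_Icc] at e1 e2; omega
  have hw := wr D ψ N (|lam| * |v n0|) (by positivity) (fun n hn => by
      have hn' : n ∈ Icc (-(N : ℤ)) N := Finset.mem_Icc.2 (abs_le.1 hn)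
      rw [heq n hn', norm_mul, Complex.norm_real, Complex.norm_real]
      exact mul_le_mul_of_nonneg_left (hmax n hn') (abs_nonneg _))
    (by rw [hup, hin N (by simp)]; field_simp)
    (by rw [hdn, hin (-N) (by simp)]; field_simp)
  have hw' : ∀ n ∈ Icc (-(N : ℤ)) N, |v n - v 0 * a n| ≤ N ^ 2 * (|lam| * |v n0|) / c ^ 2 := by
    intro n hn
    have := hw n (abs_le.2 (Finset.mem_Icc.1 hn))
    rw [hin n hn, hin 0 h0] at this
    rw [← Real.norm_eq_abs, ← Complex.norm_real]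
    push_cast
    exact this
  by_cases hl : lam = 0
  · refine Or.inr fun n hn => ⟨by simp [hl], ?_⟩
    have := hw' n hn
    simp only [hl, abs_zero, zero_mul, mul_zero, zero_div, abs_nonpos_iff] at this
    linarith
  by_cases hm : v n0 = 0
  · refine Or.inr fun n hn => ?_
    have e : ∀ n ∈ Icc (-(N : ℤ)) N, v n = 0 := fun n hn => by
      have := hmax n hn
      simpa [hm] using this
    simp [e n hn, e 0 h0]
  left
  have horth : ∑ n ∈ Icc (-(N : ℤ)) N, a n * v n = 0 := by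
    have h1 : lam * ∑ n ∈ Icc (-(N : ℤ)) N, a n * v n = 0 := by
      rw [Finset.mul_sum]
      have : ∀ n ∈ Icc (-(N : ℤ)) N, lam * (a n * v n) =
          ∑ m ∈ Icc (-(N : ℤ)) N, Jk a N m n * a n * v m := fun n hn => by
        rw [mul_left_comm, ← hv n hn, Finset.mul_sum]
        exact Finset.sum_congr rfl fun m _ => by rw [Jk_symm]; ring
      rw [Finset.sum_congr rfl this, Finset.sum_comm]
      refine Finset.sum_eq_zero fun m hm => ?_
      rw [← Finset.sum_mul]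
      have : ∑ n ∈ Icc (-(N : ℤ)) N, Jk a N m n * a n = 0 := by exact_mod_cast Jk_null D N hm
      rw [this, zero_mul]
    exact (mul_eq_zero.1 h1).resolve_left hl
  set X := N ^ 2 * (|lam| * |v n0|) / c ^ 2 with hX
  have hX0 : 0 ≤ X := by positivity
  have h1 : v 0 * ∑ n ∈ Icc (-(N : ℤ)) N, a n ^ 2 =
      -∑ n ∈ Icc (-(N : ℤ)) N, a n * (v n - v 0 * a n) := by
    simp only [mul_sub, Finset.sum_sub_distrib, horth, Finset.mul_sum]
    rw [zero_sub, neg_neg]
    exact Finset.sum_congr rfl fun n _ => by ring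
  have h2 : 1 ≤ ∑ n ∈ Icc (-(N : ℤ)) N, a n ^ 2 := by
    have := Finset.single_le_sum (f := fun n => a n ^ 2) (fun n _ => sq_nonneg _) h0
    simpa [D.zero] using this
  have h3 : |∑ n ∈ Icc (-(N : ℤ)) N, a n * (v n - v 0 * a n)| ≤ (2 * N + 1) * X := by
    refine (Finset.abs_sum_le_sum_abs _ _).trans ?_
    refine (Finset.sum_le_card_nsmul _ _ X fun n hn => ?_).trans ?_
    · rw [abs_mul]
      exact (mul_le_mul (D.le_one n) (hw' n hn) (abs_nonneg _) zero_le_one).trans (by simp)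
    · rw [Int.card_Icc, nsmul_eq_mul, show (N : ℤ) + 1 - -N = ((2 * N + 1 : ℕ) : ℤ) by omega,
        Int.toNat_natCast]
      push_cast; rfl
  have h4 : |v 0| ≤ (2 * N + 1) * X := by
    have := congrArg abs h1
    rw [abs_mul, abs_neg, abs_of_pos (by linarith : 0 < ∑ n ∈ Icc (-(N : ℤ)) N, a n ^ 2)] at this
    nlinarith [abs_nonneg (v 0)]
  have h5 : |v n0| ≤ (2 * N + 2) * X := by
    have e1 := hw' n0 hn0
    have e2 : |v n0| ≤ |v n0 - v 0 * a n0| + |v 0 * a n0| := by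
      simpa using abs_add_le (v n0 - v 0 * a n0) (v 0 * a n0)
    rw [abs_mul] at e2
    have e3 := mul_le_mul_of_nonneg_left (D.le_one n0) (abs_nonneg (v 0))
    linarith
  have h6 : 0 < |v n0| := abs_pos.2 hm
  have h7 : |v n0| * c ^ 2 ≤ |v n0| * (|lam| * (4 * N ^ 3)) := by
    have e1 : (2 * N + 2 : ℝ) * X ≤ 4 * N * X := by nlinarith
    have e2 : 4 * N * X * c ^ 2 = |v n0| * (|lam| * (4 * N ^ 3)) := by rw [hX]; field_simp
    nlinarith [sq_nonneg c]
  rw [div_le_iff₀ (by positivity)]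
  exact le_of_mul_le_mul_left h7 h6

/-- **OBS** -/
theorem obs (Da : Dec a r c) (Db : Dec b r' 1) (y s : ℝ) (hy : 1 ≤ |y|) (hs0 : 0 < s) (hs1 : s ≤ 1)
    (hs : s ≤ |y - y⁻¹|) (hβ : ∀ m, m ≠ 0 → al b m = y + y⁻¹) (hβ0 : al b 0 = 2 * y⁻¹)
    (φ : ℤ → ℤ → ℂ) (R : ℕ) (G : ℝ) (hG0 : 0 ≤ G)
    (hsupp : ∀ n m : ℤ, (R : ℤ) < |n| ∨ (R : ℤ) < |m| → φ n m = 0)
    (hG : ∀ n m, ‖φ (n + 1) m + φ (n - 1) m + φ n (m + 1) + φ n (m - 1) -
      (al a n + al b m : ℝ) * φ n m‖ ≤ G) (n m : ℤ) (hn : |n| ≤ R + 1) (hm : |m| ≤ R + 1) :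
    ‖φ n m - φ 0 0 * (a n * b m : ℝ)‖ ≤ 288 * (R + 1) ^ 7 * G / (s * c ^ 2) := by
  classical
  have hc := Da.c_pos
  have hc1 := Da.c_le
  set N := R + 1 with hN
  have hNR : (N : ℝ) = R + 1 := by rw [hN]; push_cast; rfl
  have hNZ : (N : ℤ) = R + 1 := by rw [hN]; push_cast; rfl
  have hN1 : (1 : ℝ) ≤ N := by exact_mod_cast (by omega : 1 ≤ N)
  set I := Icc (-(N : ℤ)) N with hI
  have hcard : (I.card : ℝ) = 2 * N + 1 := by
    rw [hI, Int.card_Icc, show (N : ℤ) + 1 - -N = ((2 * N + 1 : ℕ) : ℤ) by omega,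
      Int.toNat_natCast]
    push_cast; rfl
  obtain ⟨v, lam, hv, hcomp⟩ := exists_eig I (Jk a N) (Jk_symm a N)
  have hv1 : ∀ i, ∀ n ∈ I, |v i n| ≤ 1 := fun i n hn => by
    have h1 := hcomp n hn n hn
    rw [if_pos rfl] at h1
    have h2 := Finset.single_le_sum (f := fun i => v i n * v i n)
      (fun i _ => mul_self_nonneg _) (Finset.mem_univ i)
    rw [h1] at h2
    exact abs_le_one_iff_mul_self_le_one.2 h2
  set P : I → ℤ → ℂ := fun i m => ∑ n ∈ I, (v i n : ℂ) * φ n m with hP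
  have hrec : ∀ n ∈ I, ∀ m, φ n m = ∑ i, (v i n : ℂ) * P i m := by
    intro n hn m
    simp only [hP, Finset.mul_sum]
    rw [Finset.sum_comm]
    have : ∀ k ∈ I, ∑ i, (v i n : ℂ) * (v i k * φ k m) = if n = k then φ k m else 0 := by
      intro k hk
      have h1 : ∑ i, (v i n : ℂ) * v i k = if n = k then 1 else 0 := by
        have := hcomp n hn k hk
        split_ifs at this ⊢ <;> exact_mod_cast this
      simp only [← mul_assoc]
      rw [← Finset.sum_mul, h1, ite_mul, one_mul, zero_mul]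
    rw [Finset.sum_congr rfl this, Finset.sum_ite_eq, if_pos hn]
  have hJφ : ∀ n ∈ I, ∀ m, ∑ k ∈ I, (Jk a N n k : ℂ) * φ k m =
      φ (n + 1) m + φ (n - 1) m - al a n * φ n m := by
    intro n hn m
    rw [hI, Jk_sum a N (fun k => φ k m) hn]
    have hn' := Finset.mem_Icc.1 hn
    have z : ∀ k : ℤ, (N : ℤ) ≤ |k| → φ k m = 0 := fun k hk => hsupp k m (Or.inl (by omega))
    by_cases e1 : n + 1 ∈ Icc (-(N : ℤ)) N <;> by_cases e2 : n - 1 ∈ Icc (-(N : ℤ)) N
    · simp only [al, al', if_pos e1, if_pos e2]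
    · rw [if_pos e1, if_neg e2]
      rw [Finset.mem_Icc] at e2
      rw [z n (le_abs.2 (by omega)), z (n - 1) (le_abs.2 (by omega))]; simp
    · rw [if_neg e1, if_pos e2]
      rw [Finset.mem_Icc] at e1
      rw [z n (le_abs.2 (by omega)), z (n + 1) (le_abs.2 (by omega))]; simp
    · rw [Finset.mem_Icc] at e1 e2; omega
  have hPeq : ∀ i m, ‖P i (m + 1) + P i (m - 1) - al b m * P i m + lam i * P i m‖ ≤
      (2 * N + 1) * G := by
    intro i m
    have h1 : (lam i : ℂ) * P i m =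
        ∑ n ∈ I, (v i n : ℂ) * (φ (n + 1) m + φ (n - 1) m - al a n * φ n m) := by
      have h0 : ∑ n ∈ I, (v i n : ℂ) * (φ (n + 1) m + φ (n - 1) m - al a n * φ n m) =
          ∑ n ∈ I, (v i n : ℂ) * ∑ k ∈ I, (Jk a N n k : ℂ) * φ k m :=
        Finset.sum_congr rfl fun n hn => by rw [hJφ n hn m]
      rw [h0]
      simp only [hP, Finset.mul_sum]
      rw [Finset.sum_comm]
      refine Finset.sum_congr rfl fun k hk => ?_
      have : ∑ n ∈ I, (Jk a N k n : ℂ) * v i n = lam i * v i k := by exact_mod_cast hv i k hk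
      rw [← mul_assoc, ← this, Finset.sum_mul]
      exact Finset.sum_congr rfl fun n _ => by rw [Jk_symm a N k n]; ring
    have h2 : P i (m + 1) + P i (m - 1) - al b m * P i m + lam i * P i m =
        ∑ n ∈ I, (v i n : ℂ) * (φ (n + 1) m + φ (n - 1) m + φ n (m + 1) + φ n (m - 1) -
          (al a n + al b m : ℝ) * φ n m) := by
      rw [h1]
      simp only [hP, Finset.mul_sum, ← Finset.sum_add_distrib, ← Finset.sum_sub_distrib]
      exact Finset.sum_congr rfl fun n _ => by push_cast; ring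
    rw [h2, ← hcard]
    refine (norm_sum_le _ _).trans ((Finset.sum_le_card_nsmul _ _ G fun n hn => ?_).trans ?_)
    · rw [norm_mul, Complex.norm_real, Real.norm_eq_abs]
      exact (mul_le_mul (hv1 i n hn) (hG n m) (norm_nonneg _) zero_le_one).trans (by simp)
    · rw [nsmul_eq_mul]
  have hPs : ∀ i (m : ℤ), (R : ℤ) < |m| → P i m = 0 := fun i m hm =>
    Finset.sum_eq_zero fun n _ => by rw [hsupp n m (Or.inr hm), mul_zero]
  set g := s * c ^ 2 / (4 * N ^ 3) with hg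
  have hN3 : (1 : ℝ) ≤ 4 * N ^ 3 := by nlinarith [one_le_pow₀ hN1 (n := 3)]
  have hc2 : c ^ 2 ≤ 1 := pow_le_one₀ hc.le hc1
  have hg0 : 0 < g := by positivity
  have hgs : g ≤ s := by
    rw [hg, div_le_iff₀ (by positivity)]; nlinarith
  have hgc : g ≤ c ^ 2 / (4 * N ^ 3) := by
    rw [hg]; gcongr; nlinarith [sq_nonneg c]
  set Y := 4 * (N : ℝ) ^ 2 * ((2 * N + 1) * G) / g with hY
  have hY0 : 0 ≤ Y := by positivity
  have key : ∀ i, ∃ κ : ℂ, ∀ n ∈ I, ∀ m : ℤ, |m| ≤ N →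
      ‖(v i n : ℂ) * P i m - κ * (a n * b m : ℝ)‖ ≤ Y := by
    intro i
    rcases gap Da N (by omega) (v i) (lam i) (hv i) with h | h
    · refine ⟨0, fun n hn m _ => ?_⟩
      have := scal y (lam i) g hy hg0 (hgs.trans hs1) (hgc.trans h) (hgs.trans hs) (al b) hβ hβ0
        (P i) R _ (by positivity) (hPs i) (hPeq i) m
      rw [zero_mul, sub_zero, norm_mul, Complex.norm_real, Real.norm_eq_abs, hY, hNR]
      rw [hNR] at this
      exact (mul_le_mul (hv1 i n hn) this (norm_nonneg _) zero_le_one).trans (by simp)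
    · refine ⟨v i 0 * P i 0, fun n hn m hm => ?_⟩
      have hl : ∀ m, (lam i : ℂ) * P i m = 0 := fun m => by
        simp only [hP, Finset.mul_sum]
        refine Finset.sum_eq_zero fun k hk => ?_
        have : (lam i : ℂ) * v i k = 0 := by exact_mod_cast (h k hk).1
        rw [← mul_assoc, this, zero_mul]
      have hw := wr Db (P i) N ((2 * N + 1) * G) (by positivity) (fun m _ => by
          have := hPeq i m
          rwa [hl m, add_zero] at this)
        (by rw [hPs i N (lt_abs.2 (by omega)), hPs i (N + 1) (lt_abs.2 (by omega))]; simp)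
        (by rw [hPs i (-N) (lt_abs.2 (by omega)), hPs i (-(N + 1)) (lt_abs.2 (by omega))]; simp)
        m hm
      have e : (v i n : ℂ) * P i m - v i 0 * P i 0 * (a n * b m : ℝ) =
          v i n * (P i m - P i 0 * b m) := by
        have : (v i n : ℂ) = v i 0 * a n := by exact_mod_cast (h n hn).2
        rw [this]; push_cast; ring
      rw [e, norm_mul, Complex.norm_real, Real.norm_eq_abs]
      refine (mul_le_mul (hv1 i n hn) hw (norm_nonneg _) zero_le_one).trans ?_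
      rw [one_mul, one_pow, div_one, hY, le_div_iff₀ hg0]
      have : 0 ≤ (N : ℝ) ^ 2 * ((2 * N + 1) * G) := by positivity
      nlinarith
  choose κ hκ using key
  have main : ∀ n ∈ I, ∀ m : ℤ, |m| ≤ N →
      ‖φ n m - (∑ i, κ i) * (a n * b m : ℝ)‖ ≤ (2 * N + 1) * Y := by
    intro n hn m hm
    rw [hrec n hn m, Finset.sum_mul, ← Finset.sum_sub_distrib, ← hcard]
    refine (norm_sum_le _ _).trans ((Finset.sum_le_card_nsmul _ _ Y fun i _ =>
      hκ i n hn m hm).trans ?_)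
    simp
  have m0 := main 0 (by simp [hI]) 0 (by simp)
  have m1 := main n (Finset.mem_Icc.2 (abs_le.1 (by rw [hNZ]; exact hn))) m (by rw [hNZ]; exact hm)
  rw [Da.zero, Db.zero, mul_one, Complex.ofReal_one, mul_one] at m0
  have e : φ n m - φ 0 0 * (a n * b m : ℝ) = (φ n m - (∑ i, κ i) * (a n * b m : ℝ)) -
      (φ 0 0 - ∑ i, κ i) * (a n * b m : ℝ) := by ring
  rw [e]
  refine (norm_sub_le _ _).trans ?_
  rw [norm_mul, Complex.norm_real, Real.norm_eq_abs, abs_mul]
  have e1 : |a n| * |b m| ≤ 1 :=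
    (mul_le_mul (Da.le_one n) (Db.le_one m) (abs_nonneg _) zero_le_one).trans (by simp)
  have e2 := mul_le_mul m0 e1 (by positivity) (by positivity)
  have e3 : (2 * N + 1) * Y = 16 * N ^ 5 * (2 * N + 1) ^ 2 * (G / (s * c ^ 2)) := by
    rw [hY, hg]; field_simp; ring
  have e4 : (2 * N + 1 : ℝ) ^ 2 ≤ 9 * N ^ 2 := by nlinarith
  have e5 : 16 * (N : ℝ) ^ 5 * (2 * N + 1) ^ 2 * (G / (s * c ^ 2)) ≤
      16 * N ^ 5 * (9 * N ^ 2) * (G / (s * c ^ 2)) := by gcongr
  rw [← hNR]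
  have e6 : 288 * (N : ℝ) ^ 7 * G / (s * c ^ 2) =
      2 * (16 * N ^ 5 * (9 * N ^ 2) * (G / (s * c ^ 2))) := by ring
  rw [e6]
  linarith

end Crest.Agent.N334.Md
end

-- ▼ part N334/Md/Mode
section

/-!
# Row 334 (helper14): the separable mode `u(n,m) = r^(|n|+|m|) cos(p n) (±1)^m`

`exists_mode`: for every `|E| < 4 + h` there is a mode whose potential `E' - pot` stays in
`[-h+μ, h-μ]` for all `E'` near `E`.  `Mode.obs_cut`: OBS in the diamond `|n|+|m| ≤ R`.
-/

set_option autoImplicit false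

namespace Crest.Agent.N334.Md

/-- a separable decaying mode -/
structure Mode where
  a : ℤ → ℝ
  b : ℤ → ℝ
  r : ℝ
  c : ℝ
  y : ℝ
  s : ℝ
  P : ℝ
  Da : Dec a r c
  Db : Dec b r 1
  r_lt : r < 1
  hy : 1 ≤ |y|
  hs0 : 0 < s
  hs1 : s ≤ 1
  hs : s ≤ |y - y⁻¹|
  hβ : ∀ m, m ≠ 0 → al b m = y + y⁻¹
  hβ0 : al b 0 = 2 * y⁻¹
  hP : ∀ n m, |al a n + al b m| ≤ P

namespace Mode

variable (M : Mode)

/-- the mode -/
def u (n m : ℤ) : ℝ := M.a n * M.b m

/-- `(A u) / u` -/
noncomputable def pot (n m : ℤ) : ℝ := al M.a n + al M.b m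

/-- the constant of OBS -/
noncomputable def K : ℝ := 288 * (M.P + 4) / (M.s * M.c ^ 2)

theorem r_pos : 0 < M.r := M.Da.r_pos
theorem c_pos : 0 < M.c := M.Da.c_pos
theorem c_le : M.c ≤ 1 := M.Da.c_le
theorem P_nonneg : 0 ≤ M.P := (abs_nonneg _).trans (M.hP 0 0)
theorem pot_le (n m : ℤ) : |M.pot n m| ≤ M.P := M.hP n m

theorem u_zero : M.u 0 0 = 1 := by simp [u, M.Da.zero, M.Db.zero]

theorem u_le (n m : ℤ) : |M.u n m| ≤ M.r ^ (n.natAbs + m.natAbs) := by
  rw [u, abs_mul, pow_add, M.Da.natAbs n, M.Db.natAbs m]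
  exact mul_le_mul (M.Da.ub _) (M.Db.ub _) (abs_nonneg _) (pow_pos M.r_pos _).le

theorem le_u (n m : ℤ) : M.c * M.r ^ (n.natAbs + m.natAbs) ≤ |M.u n m| := by
  rw [u, abs_mul, pow_add, M.Da.natAbs n, M.Db.natAbs m, ← mul_assoc]
  have := M.Db.lb m.natAbs
  rw [one_mul] at this
  exact mul_le_mul (M.Da.lb _) this (pow_pos M.r_pos _).le (abs_nonneg _)

theorem harm (n m : ℤ) :
    M.u (n + 1) m + M.u (n - 1) m + M.u n (m + 1) + M.u n (m - 1) = M.pot n m * M.u n m := by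
  have h1 := M.Da.al_mul n
  have h2 := M.Db.al_mul m
  unfold u pot
  linear_combination (-M.b m) * h1 - M.a n * h2


end Mode

/-- `r^|n| cos (p n)` -/
noncomputable def md (r p : ℝ) (n : ℤ) : ℝ := r ^ n.natAbs * Real.cos (p * n)

theorem md_dec {r p c : ℝ} (hr : 0 < r) (hr1 : r ≤ 1) (hc : 0 < c)
    (h : ∀ n : ℕ, c ≤ |Real.cos (p * n)|) : Dec (md r p) r c where
  r_pos := hr
  r_le := hr1
  c_pos := hc
  even n := by simp [md]
  zero := by simp [md]
  ub n := by
    simp only [md, Int.natAbs_natCast, abs_mul, abs_of_pos (pow_pos hr n)]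
    exact mul_le_of_le_one_right (pow_pos hr n).le (Real.abs_cos_le_one _)
  lb n := by
    simp only [md, Int.natAbs_natCast, abs_mul, abs_of_pos (pow_pos hr n), Int.cast_natCast]
    rw [mul_comm]
    exact mul_le_mul_of_nonneg_left (h n) (pow_pos hr n).le

theorem md_al_zero (r p : ℝ) : al (md r p) 0 = 2 * r * Real.cos p := by
  simp [al, md]; ring

theorem md_al_succ {r p : ℝ} (hr : 0 < r) (n : ℕ) : al (md r p) ((n + 1 : ℕ) : ℤ) =
    (r * Real.cos (p * (n + 1) + p) + r⁻¹ * Real.cos (p * (n + 1) - p)) /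
      Real.cos (p * (n + 1)) := by
  unfold al md
  rw [show ((n + 1 : ℕ) : ℤ) + 1 = ((n + 2 : ℕ) : ℤ) by push_cast; ring,
    show ((n + 1 : ℕ) : ℤ) - 1 = (n : ℤ) by push_cast; ring]
  simp only [Int.natAbs_natCast, Int.cast_natCast]
  push_cast
  rw [show p * (n + 2) = p * (n + 1) + p by ring, show p * n = p * (n + 1) - p by ring]
  by_cases h : Real.cos (p * (n + 1)) = 0
  · simp [h]
  · field_simp; ring

theorem md_al_near {r p c : ℝ} (hr : 0 < r) (hr1 : r ≤ 1) (hc : 0 < c)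
    (h : ∀ n : ℕ, c ≤ |Real.cos (p * n)|) (n : ℤ) :
    |al (md r p) n - 2 * Real.cos p| ≤ (r⁻¹ - r) / c := by
  have D := md_dec hr hr1 hc h
  have hc1 := D.c_le
  have hi : 1 ≤ r⁻¹ := one_le_inv₀ hr |>.2 hr1
  have key : ∀ n : ℕ, |al (md r p) n - 2 * Real.cos p| ≤ (r⁻¹ - r) / c := by
    intro n
    cases n with
    | zero =>
      rw [Nat.cast_zero, md_al_zero, le_div_iff₀ hc,
        show 2 * r * Real.cos p - 2 * Real.cos p = -(2 * (1 - r)) * Real.cos p by ring, abs_mul,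
        abs_neg, abs_of_nonneg (by linarith)]
      have e1 := Real.abs_cos_le_one p
      have e2 : 2 * (1 - r) ≤ r⁻¹ - r := by
        have : r * r⁻¹ = 1 := mul_inv_cancel₀ hr.ne'
        nlinarith
      have e3 : |Real.cos p| * c ≤ 1 := mul_le_one₀ e1 hc.le hc1
      nlinarith
    | succ n =>
      have e0 := h (n + 1)
      push_cast at e0
      have e1 : Real.cos (p * (n + 1)) ≠ 0 := abs_pos.1 (hc.trans_le e0)
      have e2 : al (md r p) ((n + 1 : ℕ) : ℤ) - 2 * Real.cos p =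
          (-(1 - r) * Real.cos (p * (n + 1) + p) + (r⁻¹ - 1) * Real.cos (p * (n + 1) - p)) /
            Real.cos (p * (n + 1)) := by
        rw [md_al_succ hr, Real.cos_add, Real.cos_sub]; field_simp; ring
      rw [e2, abs_div]
      refine div_le_div₀ (by linarith) ((abs_add_le _ _).trans ?_) hc e0
      rw [abs_mul, abs_mul, abs_neg, abs_of_nonneg (by linarith : 0 ≤ 1 - r),
        abs_of_nonneg (by linarith : 0 ≤ r⁻¹ - 1)]
      have := Real.abs_cos_le_one (p * (n + 1) + p)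
      have := Real.abs_cos_le_one (p * (n + 1) - p)
      nlinarith
  rcases Int.natAbs_eq n with e | e
  · rw [e]; exact key _
  · rw [e, D.al_neg]; exact key _

/-- rational momenta with odd denominator have no small cosines -/
theorem exists_p (t ε : ℝ) (ht : |t| ≤ 2) (hε : 0 < ε) :
    ∃ p c : ℝ, 0 < c ∧ |2 * Real.cos p - t| ≤ ε ∧ ∀ n : ℕ, c ≤ |Real.cos (p * n)| := by
  have hπ := Real.pi_pos
  obtain ⟨k, hk⟩ := exists_nat_gt (4 * Real.pi / ε)
  set q : ℕ := 2 * k + 1 with hq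
  have hq0 : (0 : ℝ) < q := by positivity
  set p0 := Real.arccos (t / 2) with hp0
  have hcos : Real.cos p0 = t / 2 :=
    Real.cos_arccos (by linarith [(abs_le.1 ht).1]) (by linarith [(abs_le.1 ht).2])
  set j : ℤ := ⌊p0 * q / (2 * Real.pi)⌋ with hj
  set p : ℝ := 2 * Real.pi * j / q with hp
  have hne : ∀ n : ℕ, Real.cos (p * n) ≠ 0 := by
    intro n h
    obtain ⟨l, hl⟩ := Real.cos_eq_zero_iff.1 h
    have : (4 * (j * n) : ℝ) = (2 * l + 1) * (2 * k + 1) := by
      rw [hp, hq] at hl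
      push_cast at hl
      field_simp at hl
      linarith
    have h2 : (4 * (j * n) : ℤ) = (2 * l + 1) * (2 * k + 1) := by exact_mod_cast this
    have h3 : (2 * l + 1) * (2 * (k : ℤ) + 1) = 2 * (2 * l * k + l + k) + 1 := by ring
    omega
  obtain ⟨n0, -, hmin⟩ := Finset.exists_min_image (Finset.range q)
    (fun n : ℕ => |Real.cos (p * n)|) ⟨0, by simp [hq]⟩
  refine ⟨p, |Real.cos (p * n0)|, abs_pos.2 (hne n0), ?_, fun n => ?_⟩
  · have e1 : |Real.cos p - Real.cos p0| ≤ |p - p0| := Real.abs_cos_sub_cos_le p p0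
    have e2 : |p - p0| ≤ 2 * Real.pi / q := by
      have f1 := Int.floor_le (p0 * q / (2 * Real.pi))
      have f2 := Int.lt_floor_add_one (p0 * q / (2 * Real.pi))
      rw [← hj] at f1 f2
      rw [le_div_iff₀ (by positivity)] at f1
      rw [div_lt_iff₀ (by positivity)] at f2
      have : p - p0 = (2 * Real.pi * j - p0 * q) / q := by rw [hp]; field_simp
      rw [this, abs_div, abs_of_pos hq0]
      gcongr
      rw [abs_le]; constructor <;> nlinarith
    have e3 : 2 * Real.pi / q ≤ ε / 2 := by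
      rw [div_lt_iff₀ hε] at hk
      rw [div_le_iff₀ hq0, hq]; push_cast
      nlinarith [Nat.cast_nonneg (α := ℝ) k]
    rw [show 2 * Real.cos p - t = 2 * (Real.cos p - Real.cos p0) by rw [hcos]; ring, abs_mul]
    norm_num
    linarith
  · have e : p * n = p * (n % q : ℕ) + (j * (n / q : ℕ) : ℤ) * (2 * Real.pi) := by
      have : (n : ℝ) = (n % q : ℕ) + q * (n / q : ℕ) := by exact_mod_cast (Nat.mod_add_div n q).symm
      generalize n % q = x at this ⊢
      generalize n / q = z at this ⊢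
      rw [this, hp]; push_cast; field_simp
    rw [e, Real.cos_add_int_mul_two_pi]
    exact hmin _ (Finset.mem_range.2 (Nat.mod_lt _ (by omega)))

theorem exists_mode {h E : ℝ} (hh : 0 < h) (hE : |E| < 4 + h) :
    ∃ (M : Mode) (μ : ℝ), 0 < μ ∧
      ∀ (E' : ℝ) (n m : ℤ), |E' - E| ≤ μ → |E' - M.pot n m| ≤ h - μ := by
  obtain ⟨p2, σ, t, hσ, hσ', h2, ht, htE⟩ : ∃ p2 σ t : ℝ, Real.cos p2 = σ ∧ σ * σ = 1 ∧
      (∀ x, Real.cos (x + p2) = σ * Real.cos x ∧ Real.cos (x - p2) = σ * Real.cos x) ∧ |t| ≤ 2 ∧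
      |E - 2 * σ - t| < h := by
    have := abs_lt.1 hE
    by_cases h0 : 0 ≤ E
    · refine ⟨0, 1, min (E - 2) 2, by simp, by simp, by simp, ?_, ?_⟩
      · rw [abs_le]; exact ⟨le_min (by linarith) (by norm_num), min_le_right _ _⟩
      · rcases le_total (E - 2) 2 with e | e
        · rw [min_eq_left e]; simpa using hh
        · rw [min_eq_right e, abs_lt]; constructor <;> linarith
    · refine ⟨Real.pi, -1, max (E + 2) (-2), by simp, by simp, by simp, ?_, ?_⟩
      · rw [abs_le]; exact ⟨le_max_right _ _, max_le (by linarith) (by norm_num)⟩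
      · rcases le_total (E + 2) (-2) with e | e
        · rw [max_eq_right e, abs_lt]; constructor <;> linarith
        · rw [max_eq_left e]; simpa using hh
  set μ := (h - |E - 2 * σ - t|) / 5 with hμ
  have hμ0 : 0 < μ := by rw [hμ]; linarith
  obtain ⟨p, c, hc, hp, hcp⟩ := exists_p t μ ht hμ0
  have hc1 : c ≤ 1 := (hcp 0).trans (Real.abs_cos_le_one _)
  have hσ1 : |σ| = 1 := by
    rcases mul_self_eq_one_iff.1 hσ' with e | e <;> simp [e]
  have hσ0 : σ ≠ 0 := by rintro rfl; simp at hσ'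
  have hb : ∀ n : ℕ, 1 ≤ |Real.cos (p2 * n)| := by
    intro n
    induction n with
    | zero => simp
    | succ n ih =>
      push_cast
      rw [mul_add, mul_one, (h2 _).1, abs_mul, hσ1, one_mul]; exact ih
  set e := min (μ * c / 3) (1 / 2) with he
  have he0 : 0 < e := lt_min (by positivity) (by norm_num)
  have he1 : e ≤ 1 / 2 := min_le_right _ _
  have he2 : e ≤ μ * c / 3 := min_le_left _ _
  set r := 1 - e with hr
  have hr0 : 0 < r := by linarith
  have hr1 : r ≤ 1 := by linarith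
  have hri : r * r⁻¹ = 1 := mul_inv_cancel₀ hr0.ne'
  have hi : 1 ≤ r⁻¹ := one_le_inv₀ hr0 |>.2 hr1
  have hi2 : r⁻¹ ≤ 2 := by nlinarith
  have hd : r⁻¹ - r ≤ μ * c := by nlinarith
  have hA := md_al_near hr0 hr1 hc hcp
  have hB := md_al_near hr0 hr1 one_pos hb
  have hA' : (r⁻¹ - r) / c ≤ μ := by rw [div_le_iff₀ hc]; exact hd
  have hB' : (r⁻¹ - r) / 1 ≤ μ := by rw [div_one]; nlinarith
  have hpot : ∀ (E' : ℝ) (n m : ℤ), |E' - E| ≤ μ →
      |E' - (al (md r p) n + al (md r p2) m)| ≤ h - μ := by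
    intro E' n m hE'
    have f1 := abs_le.1 ((hA n).trans hA')
    have f2 := abs_le.1 ((hB m).trans hB')
    have f3 := abs_le.1 hp
    have f4 := abs_le.1 hE'
    have f5 := le_abs_self (E - 2 * σ - t)
    have f6 := neg_abs_le (E - 2 * σ - t)
    rw [hσ] at f2
    rw [abs_le]; constructor <;> linarith
  have hyi : (σ * r⁻¹)⁻¹ = σ * r := by
    apply inv_eq_of_mul_eq_one_right; linear_combination r * r⁻¹ * hσ' + hri
  have hsucc : ∀ n : ℕ, al (md r p2) ((n + 1 : ℕ) : ℤ) = σ * r⁻¹ + σ * r := by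
    intro n
    have := hb (n + 1)
    push_cast at this
    have e1 : Real.cos (p2 * (n + 1)) ≠ 0 := abs_pos.1 (one_pos.trans_le this)
    rw [md_al_succ hr0, (h2 _).1, (h2 _).2]; field_simp; ring
  refine ⟨⟨md r p, md r p2, r, c, σ * r⁻¹, e, |E| + h, md_dec hr0 hr1 hc hcp,
    md_dec hr0 hr1 one_pos hb, by linarith, ?_, he0, by linarith, ?_, ?_, ?_, ?_⟩, μ, hμ0, hpot⟩
  · rw [abs_mul, hσ1, one_mul, abs_of_pos (by positivity)]; exact hi
  · rw [hyi, ← mul_sub, abs_mul, hσ1, one_mul, abs_of_nonneg (by linarith)]; linarith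
  · intro m hm
    rw [hyi]
    obtain ⟨n, hn⟩ : ∃ n : ℕ, m.natAbs = n + 1 := ⟨m.natAbs - 1, by omega⟩
    rcases Int.natAbs_eq m with e | e
    · rw [e, hn]; exact hsucc n
    · rw [e, (md_dec hr0 hr1 one_pos hb).al_neg, hn]; exact hsucc n
  · rw [hyi, md_al_zero, hσ]; ring
  · intro n m
    have f1 := abs_le.1 (hpot E n m (by simpa using hμ0.le))
    have f2 := le_abs_self E
    have f3 := neg_abs_le E
    rw [abs_le]; constructor <;> linarith

end Crest.Agent.N334.Md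
end

-- ▼ part N334/Md/Chart
section

/-!
# Row 334 (helper14): the torus as a graph for the engine `T`; the mode on the torus
-/

set_option autoImplicit false

open Finset

namespace Crest.Agent.N334.Md

open I

variable {M : ℕ} [NeZero M]

theorem mem_nbr_tor {x y : Tor M} : y ∈ T.nbr (tgraph M) x ↔ d1 x y = 1 := by
  simp [T.nbr, tgraph_adj]

theorem deg_tor : T.Deg (tgraph M) := fun x => by
  refine le_trans (le_of_eq ?_) (degree_le x)
  rw [← SimpleGraph.card_neighborFinset_eq_degree]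
  congr 1
  ext y; simp [T.nbr]

theorem ball_tor (x : Tor M) (n : ℕ) : T.ball (tgraph M) x n = ball x n := by
  induction n with
  | zero =>
    rw [show T.ball (tgraph M) x 0 = {x} from rfl]
    ext y; simp [d1_eq_zero]
  | succ n ih =>
    rw [show T.ball (tgraph M) x (n + 1) =
      T.ball (tgraph M) x n ∪ (T.ball (tgraph M) x n).biUnion (T.nbr (tgraph M)) from rfl]
    ext y
    simp only [ih, mem_union, mem_biUnion, mem_ball, mem_nbr_tor]
    constructor
    · rintro (h | ⟨v, h1, h2⟩)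
      · omega
      · have := d1_triangle y v x
        rw [d1_comm y v] at this; omega
    · intro h
      rcases h.eq_or_lt with h | h
      · obtain ⟨v, h1, h2⟩ := exists_step h
        exact Or.inr ⟨v, h2.le, by rw [d1_comm]; exact h1⟩
      · left; omega

theorem sum_nbr_tor (hM : 3 ≤ M) (x : Tor M) (f : Tor M → ℂ) :
    ∑ n ∈ T.nbr (tgraph M) x, f n = ∑ j, (f (x + Pi.single j 1) + f (x - Pi.single j 1)) := by
  rw [← sum_tadj_mul, T.nbr, sum_filter]
  refine sum_congr rfl fun y _ => ?_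
  rw [tadj_eq_ite hM]
  by_cases h : (tgraph M).Adj x y <;> simp [h]

/-- the chart around `y` -/
def ch (y : Tor M) (n m : ℤ) : Tor M := shift y ![n, m]

omit [NeZero M] in
theorem ch_off (y x : Tor M) : ch y (off y x 0) (off y x 1) = x := by
  have : ![off y x 0, off y x 1] = off y x := by funext j; fin_cases j <;> rfl
  rw [ch, this, shift_off]

omit [NeZero M] in
theorem ch_zero (y : Tor M) : ch y 0 0 = y := by
  have := ch_off y y
  simpa using this

omit [NeZero M] in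
theorem d1_off (y x : Tor M) : (d1 x y : ℤ) = |off y x 0| + |off y x 1| := n1_cast _

theorem off_ch (y : Tor M) {n m : ℤ} (h : 2 * (|n| + |m|) < M) : off y (ch y n m) = ![n, m] := by
  refine off_shift' y ?_
  have := n1_cast ![n, m]
  simp only [Matrix.cons_val_zero, Matrix.cons_val_one] at this
  omega

theorem d1_ch (y : Tor M) {n m : ℤ} (h : 2 * (|n| + |m|) < M) :
    (d1 (ch y n m) y : ℤ) = |n| + |m| := by
  rw [d1_off, off_ch y h]; simp

theorem sum_nbr_ch (hM : 3 ≤ M) (y : Tor M) (n m : ℤ) (f : Tor M → ℂ) :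
    ∑ x ∈ T.nbr (tgraph M) (ch y n m), f x =
      f (ch y (n + 1) m) + f (ch y (n - 1) m) + f (ch y n (m + 1)) + f (ch y n (m - 1)) := by
  rw [sum_nbr_tor hM, Fin.sum_univ_two]
  simp only [ch, ← shift_add_single, ← shift_sub_single]
  have e1 : ![n, m] + Pi.single 0 1 = ![n + 1, m] := by funext j; fin_cases j <;> simp
  have e2 : ![n, m] - Pi.single 0 1 = ![n - 1, m] := by funext j; fin_cases j <;> simp
  have e3 : ![n, m] + Pi.single 1 1 = ![n, m + 1] := by funext j; fin_cases j <;> simp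
  have e4 : ![n, m] - Pi.single 1 1 = ![n, m - 1] := by funext j; fin_cases j <;> simp
  rw [e1, e2, e3, e4]; ring

theorem exists_toward (y : Tor M) (k : ℕ) : ∀ (i : ℕ) (z : Tor M), d1 z y = k + i →
    ∃ x, d1 x y = k ∧ d1 z x = i := by
  intro i
  induction i with
  | zero => exact fun z h => ⟨z, h, d1_self z⟩
  | succ i ih =>
    intro z h
    obtain ⟨v, h1, h2⟩ := exists_step (n := k + i) h
    obtain ⟨x, h3, h4⟩ := ih v h2
    have e1 := d1_triangle z v x
    have e2 := d1_triangle z x y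
    rw [tgraph_adj] at h1
    exact ⟨x, h3, by omega⟩

/-- the invariant of the recursion for a radial walk -/
theorem inv_radial {y z x : Tor M} {ρ : ℕ} (hz : d1 z y ≤ ρ) (hx : d1 z x + d1 x y ≤ ρ) :
    T.Inv (tgraph M) (ball y ρ) z x (d1 z x) := by
  obtain ⟨p, hp⟩ := exists_walk z x
  refine ⟨mem_ball.2 hz, p, hp.le, fun q hq => ?_⟩
  have h1 := d1_add_of_mem_support p hq
  have h2 := d1_triangle q x y
  simp only [ball_tor]
  refine ⟨fun hne => ball_subset ?_, ?_⟩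
  · have : d1 z q ≠ 0 := fun h => hne (d1_eq_zero.1 h).symm
    omega
  · by_cases h : d1 z q ≤ 1
    · exact (ball_subset (by rw [d1_comm]; omega)).trans subset_union_right
    · exact (ball_subset (by omega)).trans subset_union_left

/-- the mode on the torus, cut at radius `R` -/
noncomputable def ut (Mo : Mode) (R : ℕ) (y x : Tor M) : ℂ :=
  if d1 x y ≤ R then (Mo.u (off y x 0) (off y x 1) : ℝ) else 0

theorem ut_ch (Mo : Mode) (R : ℕ) (y : Tor M) {n m : ℤ} (h : 2 * (|n| + |m|) < M) :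
    ut Mo R y (ch y n m) = if |n| + |m| ≤ R then (Mo.u n m : ℂ) else 0 := by
  have := d1_ch y h
  unfold ut
  rw [off_ch y h]
  refine if_congr (by omega) rfl rfl

omit [NeZero M] in
theorem norm_ut_le (Mo : Mode) (R : ℕ) (y x : Tor M) : ‖ut Mo R y x‖ ≤ Mo.r ^ d1 x y := by
  unfold ut
  split_ifs
  · rw [Complex.norm_real, Real.norm_eq_abs, d1, n1_eq]; exact Mo.u_le _ _
  · rw [norm_zero]; exact (pow_pos Mo.r_pos _).le

omit [NeZero M] in
theorem le_norm_ut (Mo : Mode) {R : ℕ} {y x : Tor M} (h : d1 x y ≤ R) :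
    Mo.c * Mo.r ^ d1 x y ≤ ‖ut Mo R y x‖ := by
  unfold ut
  rw [if_pos h, Complex.norm_real, Real.norm_eq_abs, d1, n1_eq]; exact Mo.le_u _ _

theorem abs_step (n : ℤ) : (|n + 1| ≤ |n| + 1 ∧ |n| ≤ |n + 1| + 1) ∧
    |n - 1| ≤ |n| + 1 ∧ |n| ≤ |n - 1| + 1 := by
  refine ⟨⟨?_, ?_⟩, ?_, ?_⟩ <;> (simp only [abs]; omega)

theorem Mode.norm_u_le (Mo : Mode) {n m : ℤ} {R : ℕ} (h : R ≤ |n| + |m|) :
    ‖(Mo.u n m : ℂ)‖ ≤ Mo.r ^ R := by
  rw [Complex.norm_real, Real.norm_eq_abs]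
  refine (Mo.u_le n m).trans (pow_le_pow_of_le_one Mo.r_pos.le Mo.r_lt.le ?_)
  rw [Int.abs_eq_natAbs, Int.abs_eq_natAbs] at h
  omega

/-- the residual of the cut mode -/
theorem lst_ut (Mo : Mode) {R : ℕ} (hM : 2 * (R + 2) < M) (y : Tor M) {r : Tor M → ℂ} {x : Tor M}
    (hx : d1 x y ≤ R + 1) (hr : (r x).re = -Mo.pot (off y x 0) (off y x 1)) :
    (d1 x y < R → T.Lst (tgraph M) r (ut Mo R y) x = 0) ∧
      ‖T.Lst (tgraph M) r (ut Mo R y) x‖ ≤ 4 * Mo.r ^ R := by
  have hd := d1_off y x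
  have hx' := ch_off y x
  unfold T.Lst
  rw [hr]
  generalize off y x 0 = n at *
  generalize off y x 1 = m at *
  subst hx'
  have a1 := abs_step n
  have a2 := abs_step m
  have hh : (Mo.u (n + 1) m : ℂ) + Mo.u (n - 1) m + Mo.u n (m + 1) + Mo.u n (m - 1) =
      Mo.pot n m * Mo.u n m := by exact_mod_cast Mo.harm n m
  rw [sum_nbr_ch (by omega), ut_ch Mo R y (by omega), ut_ch Mo R y (by omega),
    ut_ch Mo R y (by omega), ut_ch Mo R y (by omega), ut_ch Mo R y (by omega)]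
  have hr0 := (pow_pos Mo.r_pos R).le
  have n4 : ∀ a b c d : ℂ, ‖a‖ ≤ Mo.r ^ R → ‖b‖ ≤ Mo.r ^ R → ‖c‖ ≤ Mo.r ^ R → ‖d‖ ≤ Mo.r ^ R →
      ‖a + b + c + d‖ ≤ 4 * Mo.r ^ R := fun a b c d h1 h2 h3 h4 => by
    linarith [norm_add_le (a + b + c) d, norm_add_le (a + b) c, norm_add_le a b]
  refine ⟨fun h => ?_, ?_⟩
  · rw [if_pos (by omega), if_pos (by omega), if_pos (by omega), if_pos (by omega),
      if_pos (by omega), hh]
    push_cast; ring
  · by_cases h : |n| + |m| ≤ R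
    · have k : ∀ n m : ℤ, ‖(if |n| + |m| ≤ R then (Mo.u n m : ℂ) else 0) - Mo.u n m‖ ≤
          Mo.r ^ R := fun n m => by
        split_ifs with h'
        · simpa using hr0
        · rw [zero_sub, norm_neg]; exact Mo.norm_u_le (by omega)
      rw [if_pos h]
      refine le_trans (le_of_eq ?_) (n4 _ _ _ _ (k (n + 1) m) (k (n - 1) m) (k n (m + 1))
        (k n (m - 1)))
      congr 1
      push_cast
      linear_combination hh
    · have k : ∀ n m : ℤ, R ≤ |n| + |m| → ‖if |n| + |m| ≤ R then (Mo.u n m : ℂ) else 0‖ ≤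
          Mo.r ^ R := fun n m h => by
        split_ifs with h'
        · exact Mo.norm_u_le h
        · simpa using hr0
      rw [if_neg h, mul_zero, zero_add]
      exact n4 _ _ _ _ (k _ _ (by omega)) (k _ _ (by omega)) (k _ _ (by omega)) (k _ _ (by omega))

/-- OBS on the torus -/
theorem obs_tor (Mo : Mode) {R : ℕ} (hM : 2 * (R + 2) < M) (y : Tor M) {r : Tor M → ℂ}
    (hr : ∀ x, d1 x y ≤ R + 1 → (r x).re = -Mo.pot (off y x 0) (off y x 1)) (f : Tor M → ℂ)
    (g : ℝ) (hf : ∀ x, R < d1 x y → f x = 0)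
    (hg : ∀ x, d1 x y ≤ R + 1 → ‖T.Lst (tgraph M) r f x‖ ≤ g) {x : Tor M} (hx : d1 x y ≤ R) :
    ‖f x - f y * ut Mo R y x‖ ≤ 288 * (R + 1) ^ 7 / (Mo.s * Mo.c ^ 2) * g := by
  have hg0 : 0 ≤ g := (norm_nonneg _).trans (hg y (by simp))
  set φ : ℤ → ℤ → ℂ := fun n m => if |n| + |m| ≤ R then f (ch y n m) else 0 with hφ
  have hφ' : ∀ n m : ℤ, |n| + |m| ≤ R + 2 → φ n m = f (ch y n m) := fun n m h => by
    simp only [hφ]
    split_ifs with h'
    · rfl
    · have := d1_ch y (n := n) (m := m) (by omega)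
      exact (hf _ (by omega)).symm
  have hd := d1_off y x
  have h0 := abs_nonneg (off y x 0)
  have h1 := abs_nonneg (off y x 1)
  have := obs Mo.Da Mo.Db Mo.y Mo.s Mo.hy Mo.hs0 Mo.hs1 Mo.hs Mo.hβ Mo.hβ0 φ R g hg0
    (fun n m h => by
      have := abs_nonneg n; have := abs_nonneg m
      simp only [hφ]; rw [if_neg (by omega)])
    (fun n m => by
      have a1 := abs_step n
      have a2 := abs_step m
      by_cases h : |n| + |m| ≤ R + 1
      · have e1 := d1_ch y (n := n) (m := m) (by omega)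
        have e2 := hg (ch y n m) (by omega)
        rw [T.Lst, hr _ (by omega), off_ch y (by omega), sum_nbr_ch (by omega)] at e2
        rw [hφ' _ _ (by omega), hφ' _ _ (by omega), hφ' _ _ (by omega), hφ' _ _ (by omega),
          hφ' _ _ (by omega)]
        refine le_trans (le_of_eq ?_) e2
        congr 1
        simp only [Mode.pot, Matrix.cons_val_zero, Matrix.cons_val_one]
        push_cast; ring
      · simp only [hφ]
        rw [if_neg (by omega), if_neg (by omega), if_neg (by omega), if_neg (by omega),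
          if_neg (by omega)]
        simpa using hg0) (off y x 0) (off y x 1) (by omega) (by omega)
  rw [hφ' _ _ (by omega), hφ' 0 0 (by simp; omega), ch_off, ch_zero] at this
  rw [ut, if_pos hx]
  exact this.trans (le_of_eq (by ring))

end Crest.Agent.N334.Md
end

-- ▼ part N334/Md/Block
section

/-!
# Row 334 (helper14): a trapping block on the torus

`Par`: the parameters of one class of blocks; `Par.block`: the hypotheses `T.Block`.
-/

set_option autoImplicit false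

open Finset MeasureTheory

namespace Crest.Agent.N334.Md

open I

/-- parameters of a class of blocks: mode radius `R`, block radius `R + 1` -/
structure Par where
  Mo : Mode
  w0 : ℝ
  l : ℝ
  P : ℝ
  b : ℝ
  R : ℕ
  j : ℕ
  w0_pos : 0 < w0
  w0_le : w0 ≤ 1
  hl : 8 ≤ l
  big : 1000 ≤ P
  card : (2 * (R + 1 : ℝ) + 1) ^ 2 ≤ P
  lP : 5 * l ^ 2 ≤ P
  wP : P⁻¹ ≤ w0
  obsP : 288 * (R + 1 : ℝ) ^ 7 / (Mo.s * Mo.c ^ 2) ≤ P
  bP : 2 * P⁻¹ ≤ b
  b1 : b ≤ 1
  sP : 8 / w0 * Mo.r ^ R ≤ (P ^ 12)⁻¹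
  R1 : 1 ≤ R
  jR : j ≤ R
  hj : P ^ 6 * (8 / w0) * Mo.r ^ j ≤ Mo.c

namespace Par

variable (p : Par)

/-- the small parameter -/
noncomputable def δ : ℝ := 8 / p.w0 * p.Mo.r ^ p.R
noncomputable def s : ℝ := √√p.δ
/-- window at distance `d` from the centre -/
noncomputable def win (d : ℕ) : ℝ := min p.w0 (p.δ ^ 2 / (16 * p.Mo.r ^ (2 * d)))
/-- Cauchy width at distance `d` from the centre -/
noncomputable def τ (d : ℕ) : ℝ := p.win d / p.l ^ 2
/-- Cauchy width of the auxiliary law at the centre -/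
noncomputable def τy : ℝ := p.P ^ 4 * p.δ ^ 2
/-- centre of the window at offset `v` -/
noncomputable def cen (E : ℝ) (v : Fin 2 → ℤ) : ℝ := E - p.Mo.pot (v 0) (v 1)

theorem P_pos : 0 < p.P := by linarith [p.big]
theorem l_pos : 0 < p.l := by linarith [p.hl]
theorem b_pos : 0 < p.b := by have := inv_pos.2 p.P_pos; linarith [p.bP]
theorem δ_pos : 0 < p.δ := by have := p.w0_pos; have := p.Mo.r_pos; unfold δ; positivity
theorem δ_le : p.δ ≤ (p.P ^ 12)⁻¹ := p.sP
theorem δ_le_inv : p.δ ≤ p.P⁻¹ :=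
  p.δ_le.trans (inv_anti₀ p.P_pos (le_self_pow₀ (by linarith [p.big]) (by norm_num)))
theorem inv_P_le : p.P⁻¹ ≤ 1 / 1000 := by
  rw [one_div]; exact inv_anti₀ (by norm_num) p.big
theorem s_pos : 0 < p.s := Real.sqrt_pos.2 (Real.sqrt_pos.2 p.δ_pos)
theorem s_four : p.s ^ 4 = p.δ := by
  rw [show 4 = 2 * 2 from rfl, pow_mul, s, Real.sq_sqrt (Real.sqrt_nonneg _),
    Real.sq_sqrt p.δ_pos.le]
theorem s_eight : p.s ^ 8 = p.δ ^ 2 := by rw [← p.s_four, ← pow_mul]
theorem s_le : p.s ≤ (p.P ^ 3)⁻¹ := by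
  have := p.P_pos
  refine (pow_le_pow_iff_left₀ p.s_pos.le (by positivity) (by norm_num : 4 ≠ 0)).1 ?_
  rw [p.s_four, inv_pow, ← pow_mul]; exact p.δ_le
theorem win_pos (d : ℕ) : 0 < p.win d := by
  have := p.δ_pos; have := p.Mo.r_pos
  exact lt_min p.w0_pos (by positivity)
theorem win_le (d : ℕ) : p.win d ≤ p.w0 := min_le_left _ _
theorem win_le_one (d : ℕ) : p.win d ≤ 1 := (p.win_le d).trans p.w0_le
theorem τ_pos (d : ℕ) : 0 < p.τ d := div_pos (p.win_pos d) (pow_pos p.l_pos 2)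
theorem sq_mul_τ (d : ℕ) : p.l ^ 2 * p.τ d = p.win d := by
  have := p.l_pos; unfold τ; field_simp
theorem τy_pos : 0 < p.τy := mul_pos (pow_pos p.P_pos 4) (pow_pos p.δ_pos 2)

theorem le_win (d : ℕ) : p.δ ^ 2 / 16 ≤ p.win d := by
  have h1 := p.δ_pos
  have h2 := p.δ_le_inv
  have h3 := p.inv_P_le
  have h4 := p.Mo.r_pos
  refine le_min (by nlinarith [p.wP]) (div_le_div_of_nonneg_left (by positivity) (by positivity) ?_)
  have := pow_le_one₀ (n := 2 * d) h4.le p.Mo.r_lt.le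
  linarith

theorem win_eq {d : ℕ} (hd : p.R ≤ d) : p.win d = p.w0 := by
  have h4 := p.Mo.r_pos
  have h5 := p.w0_pos
  have h6 := p.w0_le
  refine min_eq_left ?_
  rw [le_div_iff₀ (by positivity), δ, mul_pow, ← pow_mul, mul_comm p.R 2]
  have e1 : p.Mo.r ^ (2 * d) ≤ p.Mo.r ^ (2 * p.R) :=
    pow_le_pow_of_le_one h4.le p.Mo.r_lt.le (by omega)
  have e2 : 8 ≤ 8 / p.w0 := by rw [le_div_iff₀ h5]; linarith
  have e3 : p.w0 * 16 ≤ (8 / p.w0) ^ 2 := by nlinarith
  rw [← mul_assoc]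
  exact mul_le_mul e3 e1 (by positivity) (by positivity)

theorem win_mul (d : ℕ) : p.win d * (p.Mo.r ^ d) ^ 2 ≤ p.δ ^ 2 / 16 := by
  have h4 := p.Mo.r_pos
  have : p.win d ≤ p.δ ^ 2 / (16 * p.Mo.r ^ (2 * d)) := min_le_right _ _
  rw [le_div_iff₀ (by positivity), mul_comm 2 d, pow_mul] at this
  linarith

theorem sq_mul_τy : p.l ^ 2 * p.τy ≤ p.P⁻¹ := by
  have h0 := p.P_pos
  have h1 : p.δ ^ 2 ≤ ((p.P ^ 12)⁻¹) ^ 2 := pow_le_pow_left₀ p.δ_pos.le p.δ_le 2
  have h2 : p.l ^ 2 ≤ p.P := by nlinarith [p.lP, sq_nonneg p.l]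
  have h3 : p.l ^ 2 * p.τy ≤ p.P * (p.P ^ 4 * ((p.P ^ 12)⁻¹) ^ 2) := by unfold τy; gcongr
  refine h3.trans ?_
  rw [show p.P * (p.P ^ 4 * ((p.P ^ 12)⁻¹) ^ 2) = (p.P ^ 19)⁻¹ by field_simp]
  exact inv_anti₀ h0 (le_self_pow₀ (by linarith [p.big]) (by norm_num))

theorem le_lawD {a0 a : ℝ} (h : |a - a0| ≤ p.P⁻¹) : 1 / 8 ≤ G.lawD a0 p.b a := by
  have h0 := p.b_pos
  have h1 := p.bP
  have h2 := p.b1
  refine le_trans ?_ (G.lawD_two_sided h0 (by linarith)).1
  rw [le_div_iff₀ (by positivity)]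
  have : (p.b / 2) ^ 2 ≤ (p.b - |a - a0|) ^ 2 := pow_le_pow_left₀ (by positivity) (by linarith) 2
  nlinarith [pow_pos h0 2]

variable {M : ℕ} [NeZero M]

/-- the outer layer -/
def layer (y : Tor M) : Finset (Tor M) := univ.filter fun x => d1 x y = p.R + 1

theorem mem_layer {y x : Tor M} : x ∈ p.layer y ↔ d1 x y = p.R + 1 := by simp [layer]

theorem mem_inner {y x : Tor M} : x ∈ ball y (p.R + 1) \ p.layer y ↔ d1 x y ≤ p.R := by
  rw [mem_sdiff, mem_ball, mem_layer]; omega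

theorem block (hM : 2 * (p.R + 2) < M) (E : T.Env (Tor M)) (hG : E.G = tgraph M) (y : Tor M)
    {En γ lam : ℝ} (hη : E.η ≤ p.δ ^ 2 / 16) (hγ : 0 ≤ γ) (hγ' : γ + E.η ≤ p.δ ^ 2)
    (hx : ∀ x, x ≠ y → d1 x y ≤ p.R + 1 →
      E.μ x = tl En 0 (dens (tcd (p.cen En (off y x)) (p.τ (d1 x y)) p.l)) ∧
      E.r x = sh En (0 + p.τ (d1 x y)) (p.cen En (off y x)))
    (hy : E.μ y = tl En γ (dens (tcd (p.cen En 0) p.τy p.l)) ∧
      E.r y = sh En (γ + p.τy) (p.cen En 0))
    (hgr : ∀ x, d1 x y = p.R - p.j → E.Grow x lam) :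
    T.Block E (tl En γ (G.law (p.cen En 0) p.b)) (ball y (p.R + 1)) (p.layer y) y
      (ut p.Mo p.R y) (fun x => p.win (d1 x y)) p.b γ p.P p.s lam (p.j + 1) := by
  have hP := p.P_pos
  have hl := p.l_pos
  have hR := p.R1
  have hre : ∀ x, d1 x y ≤ p.R + 1 → (E.r x).re = -p.Mo.pot (off y x 0) (off y x 1) := by
    intro x h
    by_cases e : x = y
    · rw [e, hy.2]; simp [cen]
    · rw [(hx x e h).2]; simp [cen]
  have hx' : ∀ x ∈ (ball y (p.R + 1)).erase y, x ≠ y ∧ d1 x y ≤ p.R + 1 := fun x h =>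
    ⟨(mem_erase.1 h).1, mem_ball.1 (mem_erase.1 h).2⟩
  have hseg : ∀ x ∈ (ball y (p.R + 1)).erase y, T.seg (E.r x).re (p.win (d1 x y)) 0 =
      tl En 0 (volume.restrict (Set.Icc (p.cen En (off y x) - p.win (d1 x y))
        (p.cen En (off y x) + p.win (d1 x y)))) := fun x h => by
    rw [tl_restrict, (hx x (hx' x h).1 (hx' x h).2).2, sh_re]
  exact {
    big := p.big
    s0 := p.s_pos
    s1 := p.s_le
    yB := self_mem_ball _ _
    yZ := by simp [mem_layer]
    ZB := fun x h => mem_ball.2 (p.mem_layer.1 h).le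
    Zne := ⟨ch y (p.R + 1) 0, p.mem_layer.2 (by
      have e : |(p.R : ℤ) + 1| = p.R + 1 := abs_of_nonneg (by omega)
      have := d1_ch y (n := p.R + 1) (m := 0) (by rw [e]; simp; omega)
      rw [e] at this; simp at this; omega)⟩
    yfar := fun z hz h => by
      rw [hG, mem_nbr_tor, d1_comm] at h
      rw [mem_layer] at hz; omega
    inner := fun x h n hn => by
      rw [hG, mem_nbr_tor, d1_comm] at hn
      have := d1_triangle n x y
      rw [mem_inner] at h
      exact mem_ball.2 (by omega)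
    card := le_trans (by exact_mod_cast card_ball_le y (p.R + 1)) p.card
    uy := by simp [ut, p.Mo.u_zero]
    usupp := fun x h => if_neg fun h' => h (p.mem_inner.2 h')
    chiy := by rw [hG]; exact (lst_ut p.Mo hM y (by simp) (hre y (by simp))).1 (by simp; omega)
    win0 := fun x _ => ⟨hη.trans (p.le_win _), (p.win_le_one _).trans (by linarith [p.big])⟩
    sig := fun x h => by
      rw [(hx x (hx' x h).1 (hx' x h).2).2, sh_im, zero_add, abs_neg, abs_of_pos (p.τ_pos _), τ]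
      have := p.win_pos (d1 x y)
      exact ⟨div_le_div_of_nonneg_left this.le (by positivity) (by nlinarith [p.lP]),
        div_le_self this.le (by nlinarith [p.hl])⟩
    chi := fun x h => by
      obtain ⟨h1, h2⟩ := lst_ut p.Mo hM y (hx' x h).2 (hre x (hx' x h).2)
      rw [hG, p.s_eight]
      have hw := p.win_pos (d1 x y)
      have e1 : ‖T.Lst (tgraph M) E.r (ut p.Mo p.R y) x‖ ^ 2 ≤ p.δ ^ 2 * p.win (d1 x y) / 4 := by
        by_cases e : d1 x y < p.R
        · rw [h1 e]; simp; positivity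
        · rw [p.win_eq (not_lt.1 e)]
          have f1 : 4 * p.Mo.r ^ p.R = p.δ * p.w0 / 2 := by
            have := p.w0_pos; unfold δ; field_simp; ring
          have f2 := pow_le_pow_left₀ (norm_nonneg _) (h2.trans f1.le) 2
          have f3 : p.w0 * p.w0 ≤ p.w0 := by nlinarith [p.w0_pos, p.w0_le]
          nlinarith [sq_nonneg p.δ]
      have e2 : (2 * p.win (d1 x y) * ‖ut p.Mo p.R y x‖) ^ 2 ≤ p.δ ^ 2 * p.win (d1 x y) / 4 := by
        have f1 := pow_le_pow_left₀ (norm_nonneg _) (norm_ut_le p.Mo p.R y x) 2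
        have f2 := p.win_mul (d1 x y)
        have f3 := mul_le_mul_of_nonneg_left f1 hw.le
        nlinarith
      nlinarith [sq_nonneg (‖T.Lst (tgraph M) E.r (ut p.Mo p.R y) x‖ -
        2 * p.win (d1 x y) * ‖ut p.Mo p.R y x‖)]
    lo := fun x h => by
      rw [hseg x h, (hx x (hx' x h).1 (hx' x h).2).1, ← tl_smul]
      refine tl_mono _ _ (restrict_le_dens fun a ha => le_trans ?_
        (le_tcd (p.τ_pos _) p.hl (by rwa [sq_mul_τ])))
      have := p.win_pos (d1 x y)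
      have := p.τ_pos (d1 x y)
      refine inv_anti₀ (by positivity) ?_
      rw [show 5 * p.l ^ 4 * p.τ (d1 x y) = 5 * p.l ^ 2 * (p.l ^ 2 * p.τ (d1 x y)) by ring, sq_mul_τ]
      exact mul_le_mul_of_nonneg_right p.lP (by positivity)
    hi := fun x h => by
      rw [hseg x h, (hx x (hx' x h).1 (hx' x h).2).1, ← tl_smul]
      refine tl_mono _ _ (dens_le_restrict (fun a => (tcd_le (p.τ_pos _) p.hl a).trans ?_)
        fun a ha => by rw [← sq_mul_τ]; exact tcd_supp (p.τ_pos _) ha)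
      rw [τ, inv_div]
      exact div_le_div_of_nonneg_right (by nlinarith [p.lP]) (p.win_pos _).le
    wide := fun z hz x _ h => by
      rw [mem_layer] at hz
      rw [p.win_eq]
      · exact p.wP
      · rcases h with h | h
        · rw [h]; omega
        · rw [hG, mem_nbr_tor] at h
          have := d1_triangle z x y
          omega
    obs := fun f g h1 h2 => ⟨f y, fun x h => by
      rw [hG] at h2
      have hg0 : 0 ≤ g := (norm_nonneg _).trans (h2 y (self_mem_ball _ _))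
      exact (obs_tor p.Mo hM y hre f g (fun x h => h1 x fun h' => by
        rw [mem_inner] at h'; omega) (fun x h => h2 x (mem_ball.2 h)) (p.mem_inner.1 h)).trans
        (mul_le_mul_of_nonneg_right p.obsP hg0)⟩
    h0 := by have := inv_pos.2 hP; linarith [p.bP]
    h1 := by linarith [p.b1, p.big]
    γ0 := hγ
    γ1 := by rw [p.s_eight]; exact hγ'
    ry := by
      rw [hy.2, sh_im, abs_neg, p.s_eight, abs_of_pos (by linarith [p.τy_pos])]; rfl
    νp := by have := G.law_prob (p.cen En 0) p.b_pos; infer_instance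
    νlo := by
      rw [hy.2, sh_re, ← tl_restrict, ← tl_smul]
      exact tl_mono _ _ (restrict_le_dens (f := G.lawD (p.cen En 0) p.b) fun a ha =>
        le_trans (by linarith [p.inv_P_le]) (p.le_lawD ha))
    sub := by
      rw [hy.1, p.s_eight, ← tl_smul]
      have hτ := p.τy_pos
      refine tl_mono _ _ (le_trans (dens_mono fun a => ?_) (dens_smul
        (G.continuous_lawD (p.cen En 0) p.b).measurable (div_nonneg hP.le hτ.le)).le)
      rcases (tcd_nonneg (c := p.cen En 0) hτ p.hl a).eq_or_lt with e | e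
      · rw [← e]; exact mul_nonneg (div_nonneg hP.le hτ.le) (G.lawD_nonneg _ p.b_pos a)
      · have e1 := p.le_lawD ((tcd_supp hτ e).trans p.sq_mul_τy)
        refine (tcd_le hτ p.hl a).trans ?_
        rw [div_eq_mul_inv, mul_right_comm]
        exact le_mul_of_one_le_left (by positivity) (by nlinarith [p.big])
    tgt := fun z hz => by
      rw [mem_layer] at hz
      have := p.jR
      obtain ⟨x, h1, h2⟩ := exists_toward y (p.R - p.j) (p.j + 1) z (by omega)
      refine ⟨x, p.mem_inner.2 (by omega), le_trans ?_ (le_norm_ut p.Mo (by omega)), ?_, hgr x h1⟩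
      · rw [p.s_four, δ, h1, show p.R = p.j + (p.R - p.j) by omega, pow_add, ← mul_assoc,
          ← mul_assoc, Nat.add_sub_cancel_left]
        exact mul_le_mul_of_nonneg_right p.hj (pow_pos p.Mo.r_pos _).le
      · rw [hG, ← h2]; exact inv_radial (by omega) (by omega) }

end Par

end Crest.Agent.N334.Md
end

-- ▼ part N334/Md/Env

/-!
# Row 334 (helper14): the concrete environments on the torus

`Sys`: geometry, two classes of blocks and the ledger constants `D, A, k`.  `Sys.lab`: the labels.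
`Sys.Fam l μ`: window sites carry the truncated Cauchy laws, all other sites regular laws (`Reg`).
`Sys.env`: the environment; `Sys.home`: the same with the auxiliary law at a centre.
The badness is `Λ x = exp (A + 2 k dep x)` with the `1`-Lipschitz depth `dep`.
-/

set_option autoImplicit false

open Finset MeasureTheory Function
open scoped ENNReal

namespace Crest.Agent.N334.Md

open I

theorem law0_mono {μ : Measure ℂ} {r : ℂ} {Λ Λ' : ℝ} (h : T.Law0 μ r Λ) (hΛ : Λ ≤ Λ') :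
    T.Law0 μ r Λ' where
  prob := h.prob
  big := h.big.trans hΛ
  sig := (inv_anti₀ (by linarith [h.big]) hΛ).trans h.sig
  nr := h.nr.trans hΛ
  u2 a l hl := (h.u2 a l hl).trans (ENNReal.ofReal_le_ofReal (by gcongr))
  u3 s hs := (h.u3 s hs).trans (ENNReal.ofReal_le_ofReal (by gcongr))

theorem norm_cl' (z : ℂ) : ‖T.cl z‖ = ‖z‖ := by
  simp [T.cl, Complex.norm_def, Complex.normSq_apply]

/-- change of the reference point -/
theorem u2_shift {μ : Measure ℂ} {r r' : ℂ} {Λ L : ℝ} (h : T.Law0 μ r Λ) (hr : ‖r'‖ ≤ L)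
    (hΛ : Λ ≤ L) : T.U2 μ r' (10 * L ^ 3) := fun a l hl => by
  have h1 := h.big
  have h2 : ‖T.cl r - T.cl r'‖ ≤ 2 * L := by
    have := norm_sub_le (T.cl r) (T.cl r')
    rw [norm_cl', norm_cl'] at this
    linarith [h.nr]
  have hL : 100 ≤ L := h1.trans hΛ
  refine le_trans (lintegral_mono (g := fun z => ENNReal.ofReal (10 * L ^ 2) *
    ENNReal.ofReal (1 + ‖T.cl z - T.cl r‖ ^ 2)) fun z => ?_) ?_
  · beta_reduce
    rw [← ENNReal.ofReal_mul (by positivity)]
    refine ENNReal.ofReal_le_ofReal ?_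
    have e : ‖T.cl z - T.cl r'‖ ≤ ‖T.cl z - T.cl r‖ + 2 * L :=
      (norm_sub_le_norm_sub_add_norm_sub _ (T.cl r) _).trans (by linarith)
    have e2 := pow_le_pow_left₀ (norm_nonneg _) e 2
    have e3 : 1 ≤ L ^ 2 := by nlinarith
    nlinarith [sq_nonneg (‖T.cl z - T.cl r‖ - 2 * L), sq_nonneg ‖T.cl z - T.cl r‖]
  · rw [lintegral_const_mul' _ _ ENNReal.ofReal_ne_top]
    refine (mul_le_mul_right (h.u2 a l hl) _).trans ?_
    rw [← ENNReal.ofReal_mul (by positivity)]
    refine ENNReal.ofReal_le_ofReal ?_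
    calc 10 * L ^ 2 * (Λ * l) ≤ 10 * L ^ 2 * (L * l) := by gcongr
      _ = _ := by ring

/-- regular laws: potential in `[-h, h]` with density at most `D`, damping at most `h + 1` -/
structure Reg (En h D : ℝ) (μ : Measure ℂ) : Prop where
  prob : IsProbabilityMeasure μ
  supp : ∀ᵐ z ∂μ, |z.re + En| ≤ h ∧ |z.im| ≤ h + 1
  den : ∀ a l : ℝ, μ {z | |z.re - a| ≤ l} ≤ ENNReal.ofReal (2 * D * l)

theorem measurableSet_supp (En h : ℝ) : MeasurableSet {z : ℂ | |z.re + En| ≤ h ∧ |z.im| ≤ h + 1} :=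
  (measurableSet_le (f := fun z : ℂ => |z.re + En|) (by fun_prop) measurable_const).inter
    (measurableSet_le (f := fun z : ℂ => |z.im|) (by fun_prop) measurable_const)

theorem ae_tl {En h γ : ℝ} {ν : Measure ℝ} (hs : ∀ᵐ a ∂ν, |a| ≤ h) (h0 : 0 ≤ γ) (h1 : γ ≤ h + 1) :
    ∀ᵐ z ∂tl En γ ν, |z.re + En| ≤ h ∧ |z.im| ≤ h + 1 := by
  refine (ae_map_iff (measurable_sh En γ).aemeasurable (measurableSet_supp En h)).2 ?_
  filter_upwards [hs] with a ha
  simpa [abs_of_nonneg h0, h1] using ha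

theorem reg_tl {En h D γ : ℝ} {ν : Measure ℝ} [IsProbabilityMeasure ν] (hD0 : 0 ≤ D)
    (hD : ν ≤ ENNReal.ofReal D • volume) (hs : ∀ᵐ a ∂ν, |a| ≤ h) (h0 : 0 ≤ γ)
    (h1 : γ ≤ h + 1) : Reg En h D (tl En γ ν) :=
  ⟨inferInstance, ae_tl hs h0 h1, fun a l => tl_small hD0 hD En γ a l⟩


theorem Reg.law0 {En h D Λ : ℝ} {μ : Measure ℂ} (hμ : Reg En h D μ) (hh : 0 ≤ h) (hD : 0 ≤ D)
    (hΛ : (1 + (2 * h + 1) ^ 2) * (2 * D) + (|En| + 2 * h + 100) ≤ Λ) : T.Law0 μ (sh En 1 0) Λ := by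
  have := hμ.prob
  have h1 : 0 ≤ (1 + (2 * h + 1) ^ 2) * (2 * D) := by positivity
  have h2 := abs_nonneg En
  refine law0_of_bdd (T := 2 * h + 1) (D := 2 * D) ?_ (fun a l _ => hμ.den a l) (by linarith) ?_ ?_
    (by linarith) (by linarith)
  · filter_upwards [hμ.supp] with z hz
    rw [show 2 * h + 1 = h + (h + 1) by ring]
    refine (Complex.norm_le_abs_re_add_abs_im _).trans (add_le_add ?_ ?_)
    · simpa [T.cl] using hz.1
    · have := abs_nonneg z.im
      simp only [T.cl, Complex.sub_im, sh_im, abs_neg, abs_one]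
      rw [abs_le]; constructor <;> linarith [hz.2]
  · simpa using inv_le_one_of_one_le₀ (by linarith : 1 ≤ Λ)
  · refine (Complex.norm_le_abs_re_add_abs_im _).trans ?_
    simp only [sh_re, sh_im, zero_sub, abs_neg, abs_one]; linarith

/-- ledger of one class of blocks -/
structure Led (p : Par) (h En D A k : ℝ) : Prop where
  win : ∀ v, |p.cen En v| + p.w0 ≤ h
  port : |p.cen En 0| + p.b ≤ h
  hD : p.b⁻¹ ≤ D
  hA : 10 * p.l ^ 2 / p.w0 ≤ Real.exp A
  hP : p.Mo.P + 2 ≤ Real.exp A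
  hk : p.Mo.r⁻¹ ≤ Real.exp k
  hκ : 10 * (2 * (p.R + 1 : ℝ) + 1) ^ 2 ≤ p.l

namespace Par

variable (p : Par)

/-- the window law at offset `v` -/
noncomputable def tc (En : ℝ) (v : Fin 2 → ℤ) : Measure ℂ :=
  tl En 0 (dens (tcd (p.cen En v) (p.τ (n1 v)) p.l))

/-- the auxiliary law at the centre -/
noncomputable def aux (En γ : ℝ) : Measure ℂ := tl En γ (dens (tcd (p.cen En 0) p.τy p.l))

/-- the true law of an active centre -/
noncomputable def act (En γ : ℝ) : Measure ℂ := tl En γ (G.law (p.cen En 0) p.b)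

instance (En γ : ℝ) : IsProbabilityMeasure (p.act En γ) := by
  have := G.law_prob (p.cen En 0) p.b_pos
  unfold act; infer_instance

end Par

namespace Led

variable {p : Par} {h En D A k : ℝ} (L : Led p h En D A k)
include L

theorem h_pos : 0 < h := by linarith [L.port, abs_nonneg (p.cen En 0), p.b_pos]
theorem D_nonneg : 0 ≤ D := (inv_pos.2 p.b_pos).le.trans L.hD
theorem k_nonneg : 0 ≤ k := Real.one_le_exp_iff.1
  (((one_le_inv₀ p.Mo.r_pos).2 p.Mo.r_lt.le).trans L.hk)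
theorem big : 100 ≤ Real.exp A := by
  refine le_trans ?_ L.hA
  rw [le_div_iff₀ p.w0_pos]; nlinarith [p.hl, p.w0_le]
theorem A_nonneg : 0 ≤ A := Real.one_le_exp_iff.1 (by linarith [L.big])

/-- the port datum -/
noncomputable def portSite : Site h where
  z := p.b / (4 * h)
  wd := G.lawD (p.cen En 0) p.b
  meas := (G.continuous_lawD _ _).measurable
  nonneg := G.lawD_nonneg _ p.b_pos
  mass := by
    have := (G.law_prob (p.cen En 0) p.b_pos).measure_univ
    rwa [G.law, withDensity_apply _ MeasurableSet.univ, Measure.restrict_univ] at this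
  z_nonneg := by have := p.b_pos; have := L.h_pos; positivity
  z_le := by
    have := L.h_pos
    rw [div_le_iff₀ (by linarith)]; linarith [L.port, abs_nonneg (p.cen En 0)]
  le a := by
    have h0 := L.h_pos
    have h1 := p.b_pos
    rcases le_total p.b |a - p.cen En 0| with e | e
    · rw [G.lawD_zero h1 e, mul_zero]; exact div_nonneg (ud_nonneg h0 a) two_pos.le
    · have e2 : |a| ≤ h := by
        have := abs_add_le (a - p.cen En 0) (p.cen En 0)
        rw [sub_add_cancel] at this; linarith [L.port]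
      rw [ud, if_pos e2]
      refine (mul_le_mul_of_nonneg_left (G.lawD_le _ h1 a) (by positivity)).trans (le_of_eq ?_)
      field_simp; norm_num

/-- label data of a block -/
noncomputable def site (v : Fin 2 → ℤ) : Site h :=
  if v = 0 then L.portSite else
    tcSite (c := p.cen En v) (p.τ_pos (n1 v)) p.hl
      (by rw [p.sq_mul_τ]; linarith [L.win v, p.win_le (n1 v)])

theorem site_zero : (L.site 0).wd = G.lawD (p.cen En 0) p.b := by rw [site, if_pos rfl]; rfl

theorem site_wd {v : Fin 2 → ℤ} (hv : v ≠ 0) :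
    (L.site v).wd = tcd (p.cen En v) (p.τ (n1 v)) p.l := by rw [site, if_neg hv]; rfl

theorem le_z (v : Fin 2 → ℤ) : p.δ ^ 2 / (64 * h * p.l ^ 2) ≤ (L.site v).z := by
  have h0 := L.h_pos
  have h1 := p.l_pos
  have key : ∀ t, p.δ ^ 2 / 16 / p.l ^ 2 ≤ t → p.δ ^ 2 / (64 * h * p.l ^ 2) ≤ t / (4 * h) :=
    fun t ht => le_trans (le_of_eq (by field_simp; ring))
      (div_le_div_of_nonneg_right ht (by positivity))
  unfold site
  split_ifs
  · refine key _ ?_
    have e1 : p.δ ^ 2 / 16 / p.l ^ 2 ≤ p.δ ^ 2 / 16 :=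
      div_le_self (by positivity) (by nlinarith [p.hl])
    nlinarith [p.δ_le_inv, p.inv_P_le, p.δ_pos, p.bP]
  · exact key _ (div_le_div_of_nonneg_right (p.le_win _) (by positivity))

theorem reg_act {γ : ℝ} (h0 : 0 ≤ γ) (h1 : γ ≤ h + 1) : Reg En h D (p.act En γ) := by
  have := G.law_prob (p.cen En 0) p.b_pos
  refine reg_tl L.D_nonneg (dens_le_vol (f := G.lawD (p.cen En 0) p.b) fun a =>
    (G.lawD_le _ p.b_pos a).trans (by rw [one_div]; exact L.hD)) ?_ h0 h1
  filter_upwards [G.law_ae (p.cen En 0) p.b_pos] with a ha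
  have := abs_add_le (a - p.cen En 0) (p.cen En 0)
  rw [sub_add_cancel] at this; linarith [L.port]

theorem inv_pow_le (i : ℕ) : (p.Mo.r ^ (2 * i))⁻¹ ≤ Real.exp (2 * k * i) := by
  rw [← inv_pow, show 2 * k * i = ((2 * i : ℕ) : ℝ) * k by push_cast; ring, Real.exp_nat_mul]
  exact pow_le_pow_left₀ (inv_pos.2 p.Mo.r_pos).le L.hk _

theorem le_exp (i : ℕ) : Real.exp A ≤ Real.exp (A + 2 * k * i) := by
  have := L.k_nonneg
  exact Real.exp_le_exp.2 (le_add_of_nonneg_right (by positivity))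

theorem le_δ : p.Mo.r ^ (2 * p.R) * 64 ≤ p.δ ^ 2 := by
  have h5 := p.w0_pos
  have e2 : 8 ≤ 8 / p.w0 := by rw [le_div_iff₀ h5]; linarith [p.w0_le]
  rw [Par.δ, mul_pow, ← pow_mul, mul_comm p.R 2, mul_comm]
  exact mul_le_mul_of_nonneg_right (by nlinarith) (pow_pos p.Mo.r_pos _).le

theorem law_win (v : Fin 2 → ℤ) : T.Law (p.tc En v) (sh En (0 + p.τ (n1 v)) (p.cen En v))
    (Real.exp (A + 2 * k * (p.R - n1 v : ℕ))) (10 / p.l) := by
  have h1 := L.le_exp (p.R - n1 v)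
  have h2 : p.τ (n1 v) ≤ 1 := (div_le_self (p.win_pos _).le (by nlinarith [p.hl])).trans
    (p.win_le_one _)
  refine law_tc (p.τ_pos _) p.hl le_rfl (by rw [p.sq_mul_τ]; exact p.win_le_one _)
    (L.big.trans h1) ?_ ?_
  · have h3 := p.w0_pos
    have h4 := p.Mo.r_pos
    have h5 := p.l_pos
    have e : p.w0 * p.Mo.r ^ (2 * (p.R - n1 v)) ≤ p.win (n1 v) := by
      refine le_min (mul_le_of_le_one_right h3.le (pow_le_one₀ h4.le p.Mo.r_lt.le)) ?_
      rw [le_div_iff₀ (by positivity)]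
      have e1 : p.Mo.r ^ (2 * (p.R - n1 v)) * p.Mo.r ^ (2 * n1 v) ≤ p.Mo.r ^ (2 * p.R) := by
        rw [← pow_add]; exact pow_le_pow_of_le_one h4.le p.Mo.r_lt.le (by omega)
      have e2 := mul_le_of_le_one_left (a := p.w0)
        (b := p.Mo.r ^ (2 * (p.R - n1 v)) * p.Mo.r ^ (2 * n1 v)) (by positivity) p.w0_le
      nlinarith [L.le_δ, pow_pos h4 (2 * p.R)]
    rw [Par.τ, div_div_eq_mul_div, Real.exp_add]
    refine (div_le_div_of_nonneg_left (by positivity) (by positivity) e).trans ?_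
    rw [← div_div, div_eq_mul_inv _ (_ ^ _)]
    exact mul_le_mul L.hA (L.inv_pow_le _) (by positivity) (by positivity)
  · have := p.Mo.pot_le (v 0) (v 1)
    rw [Par.cen, sub_sub_cancel_left, abs_neg]
    linarith [L.hP]

theorem law_aux {γ : ℝ} (h0 : 0 ≤ γ) (h1 : γ ≤ 1) : T.Law (p.aux En γ)
    (sh En (γ + p.τy) (p.cen En 0)) (Real.exp (A + 2 * k * p.R)) (10 / p.l) := by
  have h2 := L.le_exp p.R
  have h3 : p.l ^ 2 * p.τy ≤ 1 := by linarith [p.sq_mul_τy, p.inv_P_le]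
  have h4 := p.τy_pos
  refine law_tc h4 p.hl h0 h3 (L.big.trans h2) ?_ ?_
  · have h5 := p.Mo.r_pos
    have e : p.Mo.r ^ (2 * p.R) ≤ p.τy := by
      have : 1 ≤ p.P ^ 4 := one_le_pow₀ (by linarith [p.big])
      unfold Par.τy
      nlinarith [L.le_δ, pow_pos h5 (2 * p.R)]
    rw [Real.exp_add]
    refine (div_le_div_of_nonneg_left (by positivity) (by positivity) e).trans ?_
    exact mul_le_mul (by linarith [L.big]) (L.inv_pow_le _) (by positivity) (by positivity)
  · have := p.Mo.pot_le 0 0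
    have e : p.τy ≤ 1 := by nlinarith [p.hl]
    simp only [Par.cen, sub_sub_cancel_left, abs_neg, Pi.zero_apply]
    linarith [L.hP]

end Led

end Crest.Agent.N334.Md
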