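import Crest.Agent.N334.T.LC_Mg
import Crest.Agent.N334.Md.Env
import Crest.Agent.N334.Br.X1
import Crest.Agent.N334.Main.Defs

-- ▼ part N334/Br/X2
section

/-!
# Row 334, bridge from the engine `T` to `Sw.BPat`, `Sw.LCat`: the local comparison of two ports (leaf Br-X2)
-/

set_option autoImplicit false

open MeasureTheory Complex Finset Function
open scoped ENNReal

noncomputable section

namespace Crest.Agent.N334.Br

open G I Sw

/-- the loss of the local comparison -/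
def loss (Λ n k lam : ℝ) (ρ : ℕ) : ℝ :=
  Λ ^ 30 * n ^ 3 * Real.exp (2 * k * n + 36 * n * Real.log Λ + 3000 * lam * (ρ + 4004) ^ 2)

namespace X2
variable {L : G.Lat} {E η : ℝ}

lemma KT_step {W : L.Mat → ℝ} {k : ℝ} (h : Temp E η W k) (w : L.X → ℂ) (x : L.X) (z : ℂ) :
    ENNReal.ofReal (W (KT L E η (update w x z))) ≤
      ENNReal.ofReal (Real.exp k) * ENNReal.ofReal (W (KT L E η w)) := by
  rw [← ENNReal.ofReal_mul (Real.exp_pos _).le, KT_update]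
  exact ENNReal.ofReal_le_ofReal (h.2.2 _ _ _)

lemma le_of_eq_off {V : Type} [DecidableEq V] {W : (V → ℂ) → ℝ≥0∞} {k : ℝ}
    (hW : ∀ w x z, W (update w x z) ≤ ENNReal.ofReal (Real.exp k) * W w) (R : Finset V) :
    ∀ w w' : V → ℂ, (∀ x ∉ R, w x = w' x) →
      W w ≤ ENNReal.ofReal (Real.exp (k * R.card)) * W w' := by
  induction R using Finset.induction_on with
  | empty => intro w w' h; simp [show w = w' from funext fun x => h x (notMem_empty x)]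
  | insert x R hx ih =>
    intro w w' h
    have h1 := ih (update w x (w' x)) w' fun v hv => by
      by_cases hvx : v = x
      · simp [hvx]
      · rw [update_of_ne hvx]; exact h v (by simp [hvx, hv])
    have h2 := hW (update w x (w' x)) x (w x)
    rw [update_idem, update_eq_self] at h2
    refine h2.trans ((mul_le_mul_right h1 _).trans_eq ?_)
    rw [← mul_assoc, ← ENNReal.ofReal_mul (Real.exp_pos _).le, ← Real.exp_add,
      card_insert_of_notMem hx]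
    congr 3; push_cast; ring

lemma lint_le {V : Type} [Fintype V] [DecidableEq V] {W : (V → ℂ) → ℝ≥0∞} {k : ℝ}
    (hm : Measurable W) (hW : ∀ w x z, W (update w x z) ≤ ENNReal.ofReal (Real.exp k) * W w)
    (μ μ' : V → Measure ℂ) [∀ x, IsProbabilityMeasure (μ x)] [∀ x, IsProbabilityMeasure (μ' x)]
    (R : Finset V) (h : ∀ x ∉ R, μ x = μ' x) : ∫⁻ w, W w ∂Measure.pi μ ≤
      ENNReal.ofReal (Real.exp (2 * k * R.card)) * ∫⁻ w, W w ∂Measure.pi μ' := by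
  have e : ENNReal.ofReal (Real.exp (2 * k * R.card)) =
      ENNReal.ofReal (Real.exp (k * R.card)) * ENNReal.ofReal (Real.exp (k * R.card)) := by
    rw [← ENNReal.ofReal_mul (Real.exp_pos _).le, ← Real.exp_add]; congr 2; ring
  refine (lintegral_mono fun w => le_of_eq_off hW R w (T.fz 0 R w)
    fun _ hx => (T.fz_notMem hx).symm).trans ?_
  rw [lintegral_const_mul' _ _ ENNReal.ofReal_ne_top, T.lint_fz_congr μ μ' 0 R h hm, e, mul_assoc,
    ← lintegral_const_mul' _ W ENNReal.ofReal_ne_top]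
  exact mul_le_mul_right (lintegral_mono fun w =>
    le_of_eq_off hW R _ w fun _ hx => T.fz_notMem hx) _

lemma real_of {a b d A B : ℝ} (hb : 0 ≤ b) (hd : 0 ≤ d) (hA : 0 ≤ A) (hB : 0 ≤ B)
    (h : ENNReal.ofReal a ≤ ENNReal.ofReal A * ENNReal.ofReal b +
      ENNReal.ofReal B * ENNReal.ofReal d) : a ≤ A * b + B * d := by
  rwa [← ENNReal.ofReal_mul hA, ← ENNReal.ofReal_mul hB,
    ← ENNReal.ofReal_add (by positivity) (by positivity),
    ENNReal.ofReal_le_ofReal_iff (by positivity)] at h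

lemma Ip_lint (hη : 0 < η) (μ : L.X → Measure ℂ) [∀ x, IsProbabilityMeasure (μ x)]
    {F : L.Mat → ℝ} (hF : Nice F) (h0 : ∀ K, IsPort K → 0 ≤ F K) :
    ENNReal.ofReal (Ip L E η μ F) = ∫⁻ w, ENNReal.ofReal (F (Kw L E η w)) ∂Measure.pi μ :=
  ofReal_integral_eq_lintegral_ofReal ((bm_Kw hη hF).integrable _)
    (ae_of_all _ fun _ => h0 _ (port_Kw L E hη _))

lemma exists_cond (m : Measure ℂ) [IsProbabilityMeasure m] (S : Set ℂ) {p : ℝ≥0∞} (hp : m S ≤ p) :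
    ∃ ν : Measure ℂ, IsProbabilityMeasure ν ∧ ν ≪ m ∧ m.restrict S ≤ p • ν := by
  by_cases h : m S = 0
  · exact ⟨m, inferInstance, .rfl, by rw [Measure.restrict_eq_zero.2 h]; exact bot_le⟩
  · refine ⟨ProbabilityTheory.cond m S, ProbabilityTheory.cond_isProbabilityMeasure h,
      ProbabilityTheory.cond_absolutelyContinuous, fun A => ?_⟩
    rw [ProbabilityTheory.cond, smul_smul, Measure.smul_apply, smul_eq_mul]
    refine le_mul_of_one_le_left' ?_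
    rw [← ENNReal.mul_inv_cancel h (measure_ne_top m S)]
    exact mul_le_mul_left hp _

lemma Ip_cond (hη : 0 < η) (μ : L.X → Measure ℂ) [∀ x, IsProbabilityMeasure (μ x)]
    {W : L.Mat → ℝ} (hW : Nice W) (h0 : ∀ K, IsPort K → 0 ≤ W K) (o : L.X) (q : L.P)
    {ν : Measure ℂ} [IsProbabilityMeasure ν] {p : ℝ} (hp : 0 ≤ p)
    (hν : (μ o).restrict {t | 0 < ga η t} ≤ ENNReal.ofReal p • ν) :
    Ip L E η μ (fun K => W K * cc K (o, true) q) ≤
      p * Ip L E η (update μ o ν) fun K => W K * cc K (o, true) q := by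
  have hN := hW.mul (nice_cc (o, true) q)
  have hF : ∀ K, IsPort K → 0 ≤ W K * cc K (o, true) q := fun K hK =>
    mul_nonneg (h0 K hK) (cc_nonneg _ _ _)
  have hm := (hN.meas.comp (measurable_Kw (L := L) (E := E) (η := η))).ennreal_ofReal
  rw [← ENNReal.ofReal_le_ofReal_iff (mul_nonneg hp (Ip_nonneg hη _ hF)), ENNReal.ofReal_mul hp,
    Ip_lint hη _ hN hF, Ip_lint hη _ hN hF]
  refine (lintegral_pi_resample μ o hm).trans_le (le_trans ?_
    (mul_le_mul_right (lintegral_pi_update μ o ν hm).ge _))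
  rw [← lintegral_const_mul' _ _ ENNReal.ofReal_ne_top]
  refine lintegral_mono fun w => ?_
  refine le_trans ?_ ((lintegral_mono' hν le_rfl).trans_eq (lintegral_smul_measure _ _))
  rw [← lintegral_indicator (measurableSet_lt measurable_const (measurable_ga η))]
  refine lintegral_mono fun t => ?_
  by_cases ht : 0 < ga η t
  · rw [Set.indicator_of_mem (show t ∈ {t | 0 < ga η t} from ht)]
  · have h1 : ga η t = 0 := le_antisymm (not_lt.1 ht) (ga_nonneg _ _)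
    simp [cc, Kw, Lat.Km, G.Lat.str, h1]

lemma sum_force_le {V : Type} [Fintype V] [DecidableEq V] {h : ℝ} (lab : Lab V h) (B : Finset V)
    {z : ℝ} (hz0 : 0 ≤ z) (hz : z ≤ ∏ x ∈ B, (lab.site x).z) {F : (V → Bool) → ℝ}
    (hF : ∀ l, 0 ≤ F l) : z * ∑ l, lab.P l * F (Lab.force B l) ≤ ∑ l, lab.P l * F l := by
  have e : ∀ F : (V → Bool) → ℝ, (∀ l, 0 ≤ F l) → ENNReal.ofReal (∑ l, lab.P l * F l) =
      ∑ l, ENNReal.ofReal (lab.P l) * ENNReal.ofReal (F l) := fun F hF => by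
    rw [ENNReal.ofReal_sum_of_nonneg fun l _ => mul_nonneg (lab.P_nonneg l) (hF l)]
    exact sum_congr rfl fun l _ => ENNReal.ofReal_mul (lab.P_nonneg l)
  rw [← ENNReal.ofReal_le_ofReal_iff (sum_nonneg fun l _ => mul_nonneg (lab.P_nonneg l) (hF l)),
    ENNReal.ofReal_mul hz0, e F hF, e _ fun l => hF _]
  refine (mul_le_mul_left (ENNReal.ofReal_le_ofReal hz) _).trans
    ((lab.sum_force B fun l => ENNReal.ofReal (F l)).ge.trans (sum_le_sum fun l _ => ?_))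
  split_ifs <;> simp

end X2

open X2 in
/-- `Ip_eq_lint`, `cc_KT`.  Source outside `R = ball y ρ`: `Env.lc` with the weight
`|Im w x| * W` and `hb_act`, or `W` and `hb_pas` (`η * 100 Λ ≤ 100`); `4 g str |Gr y x|² =
cc (KT w) (y,true) q` a.e. by `hy`.  Source in `R`: `cc ≤ 4` and `∫ W dμ ≤ e^{kn} ∫ W∘fz dμ =
e^{kn} ∫ W∘fz dμ' ≤ e^{2kn} ∫ W dμ'` (`Temp.le_of_eq_off` needs a site `b ∉ R`: repeat its
induction for a weight that is tempered at every site). -/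
theorem x2 {L : G.Lat} {E' : T.Env L.X} (hA : Adj L E'.G) {E : ℝ} (μ μ' : L.X → Measure ℂ)
    [∀ x, IsProbabilityMeasure (μ x)] [∀ x, IsProbabilityMeasure (μ' x)]
    (hμ' : ∀ x, E'.μ x = (μ' x).map (toT E E'.η)) {W : L.Mat → ℝ} {k : ℝ}
    (hW : Temp E E'.η W k) (k0 : 0 ≤ k) (k1 : k ≤ 1) {y o : L.X} {ρ : ℕ} {Λ n lam g : ℝ}
    (hρ : 1 ≤ ρ) (hμ : ∀ x ∉ T.ball E'.G y ρ, μ x = μ' x)
    (ho : T.ball E'.G o 2 ⊆ T.ball E'.G y ρ) (hne : (T.nbr E'.G o).Nonempty)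
    (hu : ∀ x ∈ (T.ball E'.G y ρ).erase o, T.U2 ((μ x).map (toT E E'.η)) (E'.r x) Λ)
    (hγ : ∀ᵐ t ∂μ o, ga E'.η t ≤ Λ) (hΛ : ∀ v ∈ T.ball E'.G y ρ, E'.Λ v ≤ Λ)
    (hn : ((T.ball E'.G y ρ).card : ℝ) ≤ n) (hg : E'.Grow y lam) (hg0 : 0 < g) (hg1 : g ≤ 1)
    (hy : ∀ᵐ t ∂μ' y, ga E'.η t = g) (hη : ∀ x, E'.η * E'.Λ x ≤ 1) (q : L.P) {D : ℕ}
    (hD : q.1 ∉ T.ball E'.G y ρ → q.1 ∉ T.ball E'.G y (ρ + 3 * D))
    (hD0 : q.1 ∈ T.ball E'.G y ρ → D = 0) :
    Ip L E E'.η μ (fun K => W K * cc K (o, true) q) ≤ loss Λ n k lam ρ / g *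
      (Ip L E E'.η μ' (fun K => W K * cc K (y, true) q) +
        Real.exp (-(lam * D ^ 2)) * Ip L E E'.η μ' W) := by
  obtain ⟨x, β⟩ := q
  have hη0 := E'.η0
  have hyR := T.self_mem_ball (G := E'.G) y ρ
  have hΛ0 : 100 ≤ Λ := (E'.law y).big.trans (hΛ y hyR)
  have hn1 : 1 ≤ n := le_trans (by exact_mod_cast card_pos.2 ⟨y, hyR⟩) hn
  have hlog : 0 ≤ Real.log Λ := Real.log_nonneg (by linarith)
  have hlam : 0 ≤ lam := by
    have := hg 0 y (T.self_mem_ball y 0)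
    have := Real.log_nonneg (show 1 ≤ E'.Λ y by linarith [(E'.law y).big])
    simp only [Nat.cast_zero, zero_add, mul_one] at *
    linarith
  have hN : ∀ v, Nice fun K : L.Mat => W K * cc K (v, true) (x, β) := fun v =>
    hW.1.mul (nice_cc _ _)
  have hF : ∀ v (K : L.Mat), IsPort K → 0 ≤ W K * cc K (v, true) (x, β) := fun v K hK =>
    mul_nonneg (hW.2.1 K hK) (cc_nonneg _ _ _)
  have hIy := Ip_nonneg (E := E) hη0 μ' (hF y)
  have hIW := Ip_nonneg (E := E) hη0 μ' hW.2.1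
  have eμ : (fun x => (μ' x).map (toT E E'.η)) = E'.μ := funext fun x => (hμ' x).symm
  have eo := Ip_eq_lint (E := E) hη0 μ (hN o) (hF o)
  have ey := Ip_eq_lint (E := E) hη0 μ' (hN y) (hF y)
  have eW := Ip_eq_lint (E := E) hη0 μ' hW.1 hW.2.1
  rw [eμ] at ey eW
  have hν : ∀ v ∉ T.ball E'.G y ρ, (μ v).map (toT E E'.η) = E'.μ v := fun v hv => by
    rw [hμ v hv, hμ']
  have hT := temp_KT hW k0 k1 x
  have hl1 : ∀ {a : ℕ} {c e : ℝ}, a ≤ 24 → c ≤ 400 → 0 ≤ c →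
      e ≤ 2 * k * n + 36 * n * Real.log Λ + 3000 * lam * (ρ + 4004) ^ 2 →
      c * (Λ ^ a * n ^ 3 * Real.exp e) ≤ loss Λ n k lam ρ := fun {a c e} ha hc hc0 he => by
    have h1 : c * Λ ^ a ≤ Λ ^ 30 := by
      calc c * Λ ^ a ≤ Λ ^ 6 * Λ ^ 24 :=
            mul_le_mul (hc.trans (le_trans (by norm_num) (pow_le_pow_left₀ (by norm_num) hΛ0 6)))
              (pow_le_pow_right₀ (by linarith) ha) (by positivity) (by positivity)
        _ = _ := by ring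
    rw [loss, ← mul_assoc, ← mul_assoc]
    gcongr
  have hl0 : 0 ≤ loss Λ n k lam ρ := by unfold loss; positivity
  have hlg : loss Λ n k lam ρ ≤ loss Λ n k lam ρ / g := le_div_self hl0 hg0 hg1
  by_cases hx : x ∈ T.ball E'.G y ρ
  · obtain rfl := hD0 hx
    have h1 : ENNReal.ofReal (Ip L E E'.η μ fun K => W K * cc K (o, true) (x, β)) ≤
        ENNReal.ofReal 0 * ENNReal.ofReal 0 +
          ENNReal.ofReal (4 * Real.exp (2 * k * (T.ball E'.G y ρ).card)) *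
            ENNReal.ofReal (Ip L E E'.η μ' W) := by
      rw [eo, eW, ENNReal.ofReal_mul (by norm_num), mul_assoc, ENNReal.ofReal_zero, mul_zero, zero_add]
      refine le_trans ?_ (mul_le_mul_right (lint_le hT.1 (KT_step hW) _ _ _ hν) _)
      rw [← lintegral_const_mul' _ _ ENNReal.ofReal_ne_top]
      refine lintegral_mono fun w => ?_
      have hK := port_KT (L := L) (E := E) hη0 w
      rw [← ENNReal.ofReal_mul (by norm_num), mul_comm]
      exact ENNReal.ofReal_le_ofReal (mul_le_mul_of_nonneg_right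
        ((cc_le_dd _ _ _).trans (hK.dd_le _)) (hW.2.1 _ hK))
    have h2 := real_of le_rfl hIW le_rfl (by positivity) h1
    have h3 := hl1 (a := 0) (c := 4) (e := 2 * k * (T.ball E'.G y ρ).card) (by norm_num)
      (by norm_num) (by norm_num) (by
        have : 0 ≤ 36 * n * Real.log Λ := by positivity
        have : 0 ≤ 3000 * lam * ((ρ : ℝ) + 4004) ^ 2 := by positivity
        nlinarith)
    have h4 : 4 * Real.exp (2 * k * (T.ball E'.G y ρ).card) ≤ loss Λ n k lam ρ / g := by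
      refine le_trans ?_ (h3.trans hlg)
      have := one_le_pow₀ (n := 3) hn1
      have := Real.exp_pos (2 * k * (T.ball E'.G y ρ).card)
      nlinarith
    have h5 := mul_le_mul_of_nonneg_right h4 hIW
    have h6 := mul_nonneg (hl0.trans hlg) hIy
    simp only [Nat.cast_zero, ne_eq, OfNat.ofNat_ne_zero, not_false_eq_true, zero_pow, mul_zero,
      neg_zero, Real.exp_zero, one_mul] at *
    linarith
  obtain ⟨W', c, Bb, hc, hT', hB, hcB, hw⟩ : ∃ (W' : (L.X → ℂ) → ℝ≥0∞) (c Bb : ℝ≥0∞), c ≠ ⊤ ∧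
      T.Temp W' x k ∧ E'.HB W' x k (T.ball E'.G y ρ) Bb ∧
      c * Bb ≤ ENNReal.ofReal 400 * ENNReal.ofReal (Ip L E E'.η μ' W) ∧
      ∀ w v, ENNReal.ofReal (W (KT L E E'.η w) * cc (KT L E E'.η w) (v, true) (x, β)) =
        c * (ENNReal.ofReal |(w v).im| * W' w * ENNReal.ofReal (‖T.Gr E'.G E'.η w v x‖ ^ 2)) := by
    have hWp : ∀ w, 0 ≤ W (KT L E E'.η w) := fun w => hW.2.1 _ (port_KT hη0 w)
    rw [eW]
    cases β
    · refine ⟨_, ENNReal.ofReal (4 * E'.η), _, ENNReal.ofReal_ne_top, hT,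
        E'.hb_pas hT (fun w z => KT_step hW w x z) _, ?_, fun w v => ?_⟩
      · rw [← mul_assoc, ← ENNReal.ofReal_mul (by positivity)]
        exact mul_le_mul_left (ENNReal.ofReal_le_ofReal (by nlinarith [hη x])) _
      · rw [cc_KT hA hη0, ← ENNReal.ofReal_mul (abs_nonneg _),
          ← ENNReal.ofReal_mul (mul_nonneg (abs_nonneg _) (hWp w)),
          ← ENNReal.ofReal_mul (by positivity)]
        congr 1; simp only [Bool.false_eq_true, if_false]; ring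
    · refine ⟨_, ENNReal.ofReal 4, _, ENNReal.ofReal_ne_top, (E'.hb_act hT ∅).1,
        (E'.hb_act hT _).2, mul_le_mul_left (ENNReal.ofReal_le_ofReal (by norm_num)) _,
        fun w v => ?_⟩
      rw [cc_KT hA hη0, ← ENNReal.ofReal_mul (abs_nonneg _), ← ENNReal.ofReal_mul (abs_nonneg _),
        ← ENNReal.ofReal_mul (mul_nonneg (abs_nonneg _) (mul_nonneg (abs_nonneg _) (hWp w))),
        ← ENNReal.ofReal_mul (by positivity)]
      congr 1; simp only [if_true]; ring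
  have hab : ∀ (m : Measure ℂ) {P : ℝ → Prop}, MeasurableSet {s | P s} →
      (∀ᵐ t ∂m, P (ga E'.η t)) → ∀ᵐ z ∂m.map (toT E E'.η), P |z.im| := fun m P hP h =>
    (ae_map_iff measurable_toT.aemeasurable ((measurable_im.abs) hP)).2 (by
      exact h.mono fun t ht => by rwa [← abs_toT_im (E := E)] at ht)
  have h1 := E'.lc (fun x => (μ x).map (toT E E'.η)) hT' hρ (hD hx) hν ho hne hu
    (hab _ measurableSet_Iic hγ) hΛ hn hg hB
  have e1 : ENNReal.ofReal (Ip L E E'.η μ fun K => W K * cc K (o, true) (x, β)) =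
      c * T.Rq E'.G E'.η (fun x => (μ x).map (toT E E'.η))
        (fun w => ENNReal.ofReal |(w o).im| * W' w) o x := by
    rw [eo, T.Rq, ← lintegral_const_mul' _ _ hc]; simp only [hw]
  have e2 : c * T.Rq E'.G E'.η E'.μ W' y x = ENNReal.ofReal g⁻¹ *
      ENNReal.ofReal (Ip L E E'.η μ' fun K => W K * cc K (y, true) (x, β)) := by
    rw [ey, T.Rq, ← lintegral_const_mul' _ _ hc, ← lintegral_const_mul' _ _ ENNReal.ofReal_ne_top]
    have h2 : ∀ᵐ z ∂E'.μ y, |z.im| = g := by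
      rw [hμ']; exact hab _ (measurableSet_singleton g) hy
    refine lintegral_congr_ae ((Measure.tendsto_eval_ae_ae.eventually h2).mono fun w h => ?_)
    have h3 : ENNReal.ofReal g⁻¹ * ENNReal.ofReal g = 1 := by
      rw [← ENNReal.ofReal_mul (by positivity), inv_mul_cancel₀ hg0.ne', ENNReal.ofReal_one]
    simp only [hw, show |(w y).im| = g from h]
    calc _ = ENNReal.ofReal g⁻¹ * ENNReal.ofReal g *
          (c * (W' w * ENNReal.ofReal (‖T.Gr E'.G E'.η w y x‖ ^ 2))) := by rw [h3, one_mul]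
      _ = _ := by ring
  have h2 := mul_le_mul_right h1 c
  rw [← e1, mul_add, mul_left_comm, e2, mul_left_comm c, ← mul_assoc,
    ← ENNReal.ofReal_mul (by positivity)] at h2
  have h3 := h2.trans (add_le_add_right (mul_le_mul_right hcB _) _)
  rw [← mul_assoc, ← ENNReal.ofReal_mul (q := 400) (by positivity)] at h3
  refine (real_of hIy hIW (by positivity) (by positivity) h3).trans ?_
  rw [mul_add (loss Λ n k lam ρ / g), ← mul_assoc (loss Λ n k lam ρ / g)]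
  have h4 := hl1 (a := 24) (c := 1) le_rfl (by norm_num) (by norm_num) le_rfl
  have h5 := hl1 (a := 20) (c := 400) (e := 2 * k * n + 30 * lam * (ρ + 4004)) (by norm_num) le_rfl
    (by norm_num) (by
      have : 0 ≤ 36 * n * Real.log Λ := by positivity
      have : 0 ≤ lam * (((ρ : ℝ) + 4004) * (3000 * (ρ + 4004) - 30)) :=
        mul_nonneg hlam (mul_nonneg (by positivity) (by linarith [Nat.cast_nonneg (α := ℝ) ρ]))
      linarith)
  refine add_le_add (mul_le_mul_of_nonneg_right ?_ hIy) (mul_le_mul_of_nonneg_right ?_ hIW)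
  · rw [div_eq_mul_inv]
    exact mul_le_mul_of_nonneg_right (by linarith) (by positivity)
  · rw [sub_eq_add_neg, Real.exp_add]
    linarith [mul_le_mul_of_nonneg_right (h5.trans hlg) (Real.exp_pos (-(lam * D ^ 2))).le]

open X2 in
/-- `Iw_eq`.  If `o` is not active under `lb`, or `μ o {0 < ga} = 0`, then `cc K (o,true) q = 0` a.e.
Else condition `μ o` on `{0 < ga}` (`ProbabilityTheory.cond`; integrate over the site `o` first):
factor `p`, then `x2` with `update (law lb) o cond` and `μ' = law (force (req y) lb)` (`y` is active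
there).  Sum over `lb` with `sum_force`. -/
theorem lcat {L : G.Lat} {h : ℝ} (hh : 0 < h) (lab : Lab L.X h) {G : SimpleGraph L.X} (hA : Adj L G)
    {E η : ℝ} (hη0 : 0 < η) (μ : L.X → Measure ℂ) [∀ x, IsProbabilityMeasure (μ x)]
    {W : L.Mat → ℝ} {k : ℝ} (hW : Temp E η W k) (k0 : 0 ≤ k) (k1 : k ≤ 1) {y o : L.X} {ρ : ℕ}
    {Λ n lam g p z : ℝ} (hρ : 1 ≤ ρ) (hΛ1 : 1 ≤ Λ) (ho : T.ball G o 2 ⊆ T.ball G y ρ)
    (hne : (T.nbr G o).Nonempty) (hn : ((T.ball G y ρ).card : ℝ) ≤ n) (hp0 : 0 ≤ p)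
    (hp : μ o {t | 0 < ga η t} ≤ ENNReal.ofReal p) (hγ : ∀ᵐ t ∂μ o, ga η t ≤ Λ) (hg0 : 0 < g)
    (hg1 : g ≤ 1) (hy : ∀ᵐ t ∂μ y, ga η t = g) (hcan : lab.can y) (hz0 : 0 < z)
    (hz : z ≤ ∏ x ∈ lab.req y, (lab.site x).z)
    (hloc : ∀ lb, ∀ x ∉ T.ball G y ρ,
      lab.law η μ (Lab.force (lab.req y) lb) x = lab.law η μ lb x)
    {D : L.X → ℕ} (hD : ∀ x ∉ T.ball G y ρ, x ∉ T.ball G y (ρ + 3 * D x))
    (hD0 : ∀ x ∈ T.ball G y ρ, D x = 0)
    (henv : ∀ lb, ∃ E' : T.Env L.X, E'.G = G ∧ E'.η = η ∧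
      (∀ x, E'.μ x = (lab.law η μ (Lab.force (lab.req y) lb) x).map (toT E η)) ∧
      (∀ x ∈ T.ball G y ρ, T.U2 ((lab.law η μ lb x).map (toT E η)) (E'.r x) Λ ∧ E'.Λ x ≤ Λ) ∧
      E'.Grow y lam ∧ ∀ x, η * E'.Λ x ≤ 1) :
    LCat lab E η μ W o y (p * (loss Λ n k lam ρ / (g * z))) fun x => Real.exp (-(lam * D x ^ 2)) := by
  intro q
  have hP := lab.isProb_law hh η μ
  have hN : ∀ v, Nice fun K : L.Mat => W K * cc K (v, true) q := fun v => hW.1.mul (nice_cc _ _)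
  have hF : ∀ v (K : L.Mat), IsPort K → 0 ≤ W K * cc K (v, true) q := fun v K hK =>
    mul_nonneg (hW.2.1 K hK) (cc_nonneg _ _ _)
  have hoR := ho (T.self_mem_ball o 2)
  have hl0 : 0 ≤ loss Λ n k lam ρ := by
    have : 0 ≤ n := (Nat.cast_nonneg _).trans hn
    unfold loss; positivity
  set F : (L.X → Bool) → ℝ := fun lb =>
    Ip L E η (lab.law η μ lb) (fun K => W K * cc K (y, true) q) +
      Real.exp (-(lam * D q.1 ^ 2)) * Ip L E η (lab.law η μ lb) W with hFdef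
  have key : ∀ lb, Ip L E η (lab.law η μ lb) (fun K => W K * cc K (o, true) q) ≤
      p * (loss Λ n k lam ρ / g * F (Lab.force (lab.req y) lb)) := fun lb => by
    have h1 : lab.law η μ lb o {t | 0 < ga η t} ≤ ENNReal.ofReal p ∧
        ∀ᵐ t ∂lab.law η μ lb o, ga η t ≤ Λ := by
      by_cases ha : lab.act lb o
      · rw [lab.law_of_act η μ ha]; exact ⟨hp, hγ⟩
      · rw [lab.law_of_not_act η μ ha]
        have h0 := (ae_lift_im η (dens ((lab.site o).den (lb o)))).mono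
          (q := fun t => ga η t = 0) fun t ht => by simp [ga, ht]
        refine ⟨le_trans (le_of_eq ?_) bot_le, h0.mono fun t ht => by linarith⟩
        exact measure_mono_null (fun t (ht : 0 < ga η t) => ht.ne') h0
    obtain ⟨ν, hν1, hν2, hν3⟩ := exists_cond _ _ h1.1
    refine (Ip_cond hη0 _ hW.1 hW.2.1 o q hp0 hν3).trans (mul_le_mul_of_nonneg_left ?_ hp0)
    obtain ⟨E', rfl, rfl, e1, e2, e3, e4⟩ := henv lb
    refine x2 hA _ _ e1 hW k0 k1 hρ (fun x hx => ?_) ho hne (fun x hx => ?_) ?_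
      (fun v hv => (e2 v hv).2) hn e3 hg0 hg1 ?_ e4 q (hD _) (hD0 _)
    · rw [update_of_ne (fun h : x = o => hx (h ▸ hoR)), hloc lb x hx]
    · rw [update_of_ne (ne_of_mem_erase hx)]; exact (e2 x (mem_of_mem_erase hx)).1
    · rw [update_self]; exact hν2.ae_le h1.2
    · rw [lab.law_of_act _ _ ⟨hcan, fun x hx => Lab.force_of_mem lb hx⟩]; exact hy
  have h2 := sum_force_le lab (lab.req y) hz0.le hz (F := F) fun lb =>
    add_nonneg (Ip_nonneg hη0 _ (hF y)) (mul_nonneg (Real.exp_pos _).le (Ip_nonneg hη0 _ hW.2.1))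
  have e : ∑ l, lab.P l * F l = Iw lab E η μ (fun K => W K * cc K (y, true) q) +
      Real.exp (-(lam * D q.1 ^ 2)) * Iw lab E η μ W := by
    rw [Iw_eq hh hη0 lab μ (hN y), Iw_eq hh hη0 lab μ hW.1, mul_sum, ← sum_add_distrib]
    exact sum_congr rfl fun l _ => by simp only [hFdef]; ring
  rw [Iw_eq hh hη0 lab μ (hN o), ← e]
  refine (sum_le_sum fun l _ => mul_le_mul_of_nonneg_left (key l) (lab.P_nonneg l)).trans
    (le_trans (le_of_eq ?_) (mul_le_mul_of_nonneg_left h2 (by positivity)))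
  rw [mul_sum, mul_sum]
  exact sum_congr rfl fun l _ => by field_simp

end Crest.Agent.N334.Br
end
end

-- ▼ part N334/Md/Sys
section

/-!
# Row 334 (helper14): the concrete environments on the torus, part 2

`Sys`: geometry, two classes of blocks and the ledger constants `D, A, k`.  `Sys.lab`: the labels.
`Sys.Fam l μ`: window sites carry the truncated Cauchy laws, all other sites regular laws (`Reg`).
`Sys.env`: the environment; `Sys.home`: the same with the auxiliary law at a centre.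
The badness is `Λ x = exp (A + 2 k dep x)` with the `1`-Lipschitz depth `dep`.
-/

set_option autoImplicit false

open Finset MeasureTheory Function
open scoped ENNReal

namespace Crest.Agent.N334.Md

open I

/-- all the data of the construction at one energy -/
structure Sys where
  g : Geo
  p₁ : Par
  p₂ : Par
  h : ℝ
  En : ℝ
  D : ℝ
  A : ℝ
  k : ℝ
  hr₁ : g.r₁ = p₁.R + 1
  hr₂ : g.r₂ = p₂.R + 1
  L₁ : Led p₁ h En D A k
  L₂ : Led p₂ h En D A k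
  hD : h⁻¹ ≤ D
  hA : (1 + (2 * h + 1) ^ 2) * (2 * D) + (|En| + 2 * h + 100) ≤ Real.exp A

namespace Sys

variable (S : Sys)

theorem h_pos : 0 < S.h := S.L₁.h_pos

/-- parameters of the block of `x` (class 2 if `x` is in no block) -/
def pa (x : Tor S.g.M) : Par := if S.g.blk₁ x then S.p₁ else S.p₂

/-- centre of the block of `x` -/
def ce (x : Tor S.g.M) : Tor S.g.M := if S.g.blk₁ x then S.g.c₁ x else S.g.c₂ x

/-- depth inside the blocks -/
def dep (x : Tor S.g.M) : ℕ := (S.pa x).R - d1 x (S.ce x)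

/-- window sites -/
def W (l : Tor S.g.M → Bool) (x : Tor S.g.M) : Prop :=
  d1 x (S.ce x) ≤ (S.pa x).R + 1 ∧ S.ce x ≠ x ∧ l x = true

instance (l : Tor S.g.M → Bool) (x : Tor S.g.M) : Decidable (S.W l x) :=
  inferInstanceAs (Decidable (_ ∧ _))

/-- the labels -/
noncomputable def lab : Lab (Tor S.g.M) S.h := S.g.lab S.h_pos S.L₁.site S.L₂.site

theorem led (x : Tor S.g.M) : Led (S.pa x) S.h S.En S.D S.A S.k := by
  unfold pa; split_ifs; exacts [S.L₁, S.L₂]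

variable {S}

theorem pa_blk₁ {x : Tor S.g.M} (hx : S.g.blk₁ x) : S.pa x = S.p₁ := if_pos hx
theorem ce_blk₁ {x : Tor S.g.M} (hx : S.g.blk₁ x) : S.ce x = S.g.c₁ x := if_pos hx
theorem pa_not {x : Tor S.g.M} (hx : ¬S.g.blk₁ x) : S.pa x = S.p₂ := if_neg hx
theorem ce_not {x : Tor S.g.M} (hx : ¬S.g.blk₁ x) : S.ce x = S.g.c₂ x := if_neg hx

theorem in_iff {x : Tor S.g.M} :
    d1 x (S.ce x) ≤ (S.pa x).R + 1 ↔ S.g.blk₁ x ∨ S.g.blk₂ x := by
  by_cases h : S.g.blk₁ x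
  · rw [pa_blk₁ h, ce_blk₁ h, ← S.hr₁]; exact iff_of_true h.2 (Or.inl h)
  · rw [pa_not h, ce_not h, ← S.hr₂, or_iff_right h]; rfl

/-- centres -/
theorem ce_eq_iff {y : Tor S.g.M} : S.ce y = y ↔ S.g.ctr₁ y ∨ S.g.ctr₂ y := by
  by_cases h : S.g.blk₁ y
  · rw [ce_blk₁ h]
    exact ⟨fun e => Or.inl ⟨h.1, e⟩, fun e => e.elim (·.2) fun e => absurd h e.blk₂.not_blk₁⟩
  · rw [ce_not h]
    exact ⟨Or.inr, fun e => e.elim (fun e => absurd e.blk₁ h) id⟩

theorem pa_ctr₁ {y : Tor S.g.M} (hy : S.g.ctr₁ y) : S.pa y = S.p₁ := pa_blk₁ hy.blk₁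
theorem pa_ctr₂ {y : Tor S.g.M} (hy : S.g.ctr₂ y) : S.pa y = S.p₂ := pa_not hy.blk₂.not_blk₁

/-- the block of a centre -/
theorem of_ball {x y : Tor S.g.M} (hy : S.ce y = y) (hx : d1 x y ≤ (S.pa y).R + 1) :
    S.ce x = y ∧ S.pa x = S.pa y := by
  rcases ce_eq_iff.1 hy with h | h
  · rw [pa_ctr₁ h, ← S.hr₁, ← mem_ball, h.mem_ball] at hx
    exact ⟨(ce_blk₁ hx.1).trans hx.2, (pa_blk₁ hx.1).trans (pa_ctr₁ h).symm⟩
  · rw [pa_ctr₂ h, ← S.hr₂, ← mem_ball, h.mem_ball] at hx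
    exact ⟨(ce_not hx.1.not_blk₁).trans hx.2, (pa_not hx.1.not_blk₁).trans (pa_ctr₂ h).symm⟩

theorem two_mul_lt (x : Tor S.g.M) : 2 * ((S.pa x).R + 2) < S.g.M := by
  have := S.g.four_b_le; have := S.g.a_le_b; have := S.g.le₁; have := S.g.le₂
  have := S.hr₁; have := S.hr₂
  unfold pa; split_ifs <;> omega

theorem act_ctr {l : Tor S.g.M → Bool} {y : Tor S.g.M} (hy : S.ce y = y) :
    S.lab.act l y ↔ ∀ x ∈ ball y ((S.pa y).R + 1), l x = true := by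
  rcases ce_eq_iff.1 hy with h | h
  · rw [pa_ctr₁ h, ← S.hr₁]; exact Geo.act_ctr₁ _ _ _ l h
  · rw [pa_ctr₂ h, ← S.hr₂]; exact Geo.act_ctr₂ _ _ _ l h

theorem site_in {x : Tor S.g.M} (hx : d1 x (S.ce x) ≤ (S.pa x).R + 1) :
    S.lab.site x = (S.led x).site (off (S.ce x) x) := by
  have key : ∀ (p : Par) (L : Led p S.h S.En S.D S.A S.k) (c : Tor S.g.M), S.pa x = p → S.ce x = c →
      L.site (off c x) = (S.led x).site (off (S.ce x) x) := by
    rintro p L c rfl rfl; rfl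
  rcases in_iff.1 hx with h | h
  · exact (Geo.site_blk₁ _ _ _ h).trans (key _ _ _ (pa_blk₁ h) (ce_blk₁ h))
  · exact (Geo.site_blk₂ _ _ _ h).trans (key _ _ _ (pa_not h.not_blk₁) (ce_not h.not_blk₁))

theorem W.not_act {l : Tor S.g.M → Bool} {x : Tor S.g.M} (hx : S.W l x) : ¬S.lab.act l x := by
  intro h
  rcases Geo.act_cases _ _ _ h with h | h
  · exact (in_iff.1 hx.1).elim h.not_blk₁ h.not_blk₂
  · exact hx.2.1 (ce_eq_iff.2 h)



/-- the depth is `1`-Lipschitz -/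
theorem dep_le (x z : Tor S.g.M) : S.dep x ≤ d1 z x + S.dep z := by
  have h1 := S.hr₁
  have h2 := S.hr₂
  have t := d1_triangle z x
  by_cases hx : S.g.blk₁ x
  · rw [dep, pa_blk₁ hx, ce_blk₁ hx]
    by_cases e : S.g.c₁ z = S.g.c₁ x
    · have := t (S.g.c₁ x)
      by_cases hz : S.g.blk₁ z
      · rw [dep, pa_blk₁ hz, ce_blk₁ hz, e]; omega
      · have : ¬d1 z (S.g.c₁ z) ≤ S.g.r₁ := fun h => hz ⟨by
          rw [← Geo.hole_c₁, e, Geo.hole_c₁]; exact hx.1, h⟩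
        rw [e] at this; omega
    · have := hx.le_d1 e; omega
  · rw [dep, pa_not hx, ce_not hx]
    by_cases hz : S.g.blk₁ z
    · have := Geo.le_d1_of_not_hole x hz.1; omega
    · by_cases e : S.g.c₂ z = S.g.c₂ x
      · have := t (S.g.c₂ x)
        rw [dep, pa_not hz, ce_not hz, e]; omega
      · have := Geo.le_d1_of_c₂_ne e; omega

theorem dep_ctr {y : Tor S.g.M} (hy : S.ce y = y) : S.dep y = (S.pa y).R := by simp [dep, hy]


variable (S)

/-- badness -/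
noncomputable def Λ (x : Tor S.g.M) : ℝ := Real.exp (S.A + 2 * S.k * S.dep x)

/-- references -/
noncomputable def r (l : Tor S.g.M → Bool) (x : Tor S.g.M) : ℂ :=
  if S.W l x then sh S.En (0 + (S.pa x).τ (d1 x (S.ce x))) ((S.pa x).cen S.En (off (S.ce x) x))
  else sh S.En 1 0

/-- losses -/
noncomputable def κ (l : Tor S.g.M → Bool) (x : Tor S.g.M) : ℝ :=
  if S.W l x then 10 / (S.pa x).l else 3 * Real.log (S.Λ x)

/-- admissible families of site laws for the labels `l` -/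
structure Fam (l : Tor S.g.M → Bool) (μ : Tor S.g.M → Measure ℂ) : Prop where
  win : ∀ x, S.W l x → μ x = (S.pa x).tc S.En (off (S.ce x) x)
  gen : ∀ x, ¬S.W l x → Reg S.En S.h S.D (μ x)

open Classical in
/-- site laws given the labels (convention `w = a - E - i γ`); `μ` = laws of the active sites -/
noncomputable def law (μ : Tor S.g.M → Measure ℂ) (l : Tor S.g.M → Bool) (x : Tor S.g.M) :
    Measure ℂ :=
  if S.lab.act l x then μ x else tl S.En 0 (dens ((S.lab.site x).den (l x)))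

theorem reg_of_le {f : ℝ → ℝ} (hm : Measurable f) [IsProbabilityMeasure (dens f)]
    (hf : ∀ a, f a ≤ 2 * ud S.h a) {γ : ℝ} (h0 : 0 ≤ γ) (h1 : γ ≤ S.h + 1) :
    Reg S.En S.h S.D (tl S.En γ (dens f)) := by
  have hh := S.h_pos
  refine reg_tl S.L₁.D_nonneg (dens_le_vol fun a => (hf a).trans ?_)
    (ae_dens hm fun a ha => abs_le_of_ud_pos (by linarith [hf a])) h0 h1
  refine le_trans ?_ S.hD
  rw [show S.h⁻¹ = 2 * (1 / (2 * S.h)) by field_simp]
  linarith [ud_le S.h a hh]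

variable {S} {l l' : Tor S.g.M → Bool} {μ μ' : Tor S.g.M → Measure ℂ}

/-- the closed law of a site -/
theorem closed_win {x : Tor S.g.M} (hx : S.W l x) :
    tl S.En 0 (dens ((S.lab.site x).den (l x))) = (S.pa x).tc S.En (off (S.ce x) x) := by
  have e : off (S.ce x) x ≠ 0 := fun e => hx.2.1 (d1_eq_zero.1 (n1_eq_zero.2 e)).symm
  rw [hx.2.2, site_in hx.1, Site.den, if_pos rfl, Led.site_wd _ e]; rfl

theorem closed_reg {x : Tor S.g.M} (hx : ¬S.W l x) :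
    Reg S.En S.h S.D (tl S.En 0 (dens ((S.lab.site x).den (l x)))) := by
  have := (S.lab.site x).isProb_den S.h_pos (l x)
  have h01 : 0 ≤ S.h + 1 := by linarith [S.h_pos]
  cases hl : l x
  · rw [hl] at this
    exact S.reg_of_le ((S.lab.site x).measurable_den false) (S.lab.site x).rd_le le_rfl h01
  by_cases h1 : d1 x (S.ce x) ≤ (S.pa x).R + 1
  · have e : S.ce x = x := by_contra fun e => hx ⟨h1, e, hl⟩
    rw [site_in h1, e, off_self, Site.den, if_pos rfl, Led.site_zero]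
    exact (S.led x).reg_act le_rfl h01
  · rw [in_iff, not_or] at h1
    have e : S.lab.site x = Site.triv S.h_pos := Geo.site_other _ _ _ h1.1 h1.2
    rw [e, Site.triv_den]
    have := isProb_unif S.h_pos
    exact S.reg_of_le (measurable_ud _) (fun a => by linarith [ud_nonneg S.h_pos a]) le_rfl h01

theorem fam_law (hμ : ∀ x, S.lab.act l x → Reg S.En S.h S.D (μ x)) : S.Fam l (S.law μ l) where
  win x hx := (if_neg hx.not_act).trans (closed_win hx)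
  gen x hx := by
    unfold law; split_ifs with h
    exacts [hμ x h, closed_reg hx]

theorem Fam.update (F : S.Fam l μ) {y : Tor S.g.M} (hy : ¬S.W l y) {ν : Measure ℂ}
    (hν : Reg S.En S.h S.D ν) : S.Fam l (update μ y ν) where
  win x hx := by rw [update_of_ne (by rintro rfl; exact hy hx)]; exact F.win x hx
  gen x hx := by
    by_cases e : x = y
    · rw [e, update_self]; exact hν
    · rw [update_of_ne e]; exact F.gen x hx

theorem Fam.law (F : S.Fam l μ) (x : Tor S.g.M) : T.Law (μ x) (S.r l x) (S.Λ x) (S.κ l x) := by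
  unfold r κ
  split_ifs with h
  · rw [F.win x h]; exact (S.led x).law_win _
  · exact (law0_mono ((F.gen x h).law0 S.h_pos.le S.L₁.D_nonneg S.hA) (S.L₁.le_exp _)).law

theorem Fam.prob (F : S.Fam l μ) (x : Tor S.g.M) : IsProbabilityMeasure (μ x) := (F.law x).prob

/-- the environment -/
noncomputable def Fam.env (F : S.Fam l μ) {η : ℝ} (h0 : 0 < η) (h1 : η ≤ 1) :
    T.Env (Tor S.g.M) where
  G := tgraph S.g.M
  η := η
  μ := μ
  r := S.r l
  Λ := S.Λ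
  κ := S.κ l
  deg := deg_tor
  η0 := h0
  η1 := h1
  law := F.law

/-- the environment with the auxiliary law at the centre `y` -/
noncomputable def Fam.home (F : S.Fam l μ) {η : ℝ} (h0 : 0 < η) (h1 : η ≤ 1) {y : Tor S.g.M}
    (hy : S.ce y = y) {γ : ℝ} (hγ : 0 ≤ γ) (hγ1 : γ ≤ 1) : T.Env (Tor S.g.M) where
  G := tgraph S.g.M
  η := η
  μ := Function.update μ y ((S.pa y).aux S.En γ)
  r := Function.update (S.r l) y (sh S.En (γ + (S.pa y).τy) ((S.pa y).cen S.En 0))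
  Λ := S.Λ
  κ := Function.update (S.κ l) y (10 / (S.pa y).l)
  deg := deg_tor
  η0 := h0
  η1 := h1
  law x := by
    by_cases e : x = y
    · rw [e, update_self, update_self, update_self, Λ, dep_ctr hy]
      exact (S.led y).law_aux hγ hγ1
    · rw [update_of_ne e, update_of_ne e, update_of_ne e]; exact F.law x

theorem Λ_le {x y : Tor S.g.M} {ρ : ℕ} (hx : x ∈ ball y ρ) :
    S.Λ x ≤ Real.exp (S.A + 2 * S.k * (ρ + S.dep y : ℕ)) := by
  have h1 := dep_le x y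
  rw [mem_ball, d1_comm] at hx
  have := S.L₁.k_nonneg
  unfold Λ
  gcongr
  omega

theorem grow {E : T.Env (Tor S.g.M)} (hG : E.G = tgraph S.g.M) (hΛ : E.Λ = S.Λ) (x₀ : Tor S.g.M)
    {lam : ℝ} (hl : S.A + 2 * S.k * (S.dep x₀ + 1) ≤ lam) : E.Grow x₀ lam := fun n x hx => by
  rw [hG, ball_tor] at hx
  have h1 := S.L₁.k_nonneg
  have h2 := S.L₁.A_nonneg
  have h3 : Real.log (S.Λ x) ≤ _ := Real.log_le_log (Real.exp_pos _) (Λ_le hx)
  rw [Real.log_exp] at h3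
  rw [hΛ]
  refine h3.trans (le_trans ?_ (mul_le_mul_of_nonneg_right hl (by positivity)))
  push_cast
  have h4 : (0 : ℝ) ≤ n := Nat.cast_nonneg _
  have h5 : (0 : ℝ) ≤ S.dep x₀ := Nat.cast_nonneg _
  nlinarith [mul_nonneg h2 h4, mul_nonneg (mul_nonneg h1 h4) h5]

/-- the laws of one family against the references of another one -/
theorem Fam.u2 (F : S.Fam l μ) (F' : S.Fam l' μ') (x : Tor S.g.M) {L : ℝ} (hL : S.Λ x ≤ L) :
    T.U2 (μ x) (S.r l' x) (10 * L ^ 3) :=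
  u2_shift (F.law x).toLaw0 ((F'.law x).nr.trans hL) hL

section home

variable (F : S.Fam l μ) {η : ℝ} (h0 : 0 < η) (h1 : η ≤ 1) {y : Tor S.g.M}
  (hy : S.ce y = y) {γ : ℝ} (hγ : 0 ≤ γ) (hγ1 : γ ≤ 1)
  (hl : ∀ x ∈ ball y ((S.pa y).R + 1), l x = true)
include hl

theorem W_of_ball (hy : S.ce y = y) {x : Tor S.g.M} (hx : x ≠ y) (hd : d1 x y ≤ (S.pa y).R + 1) :
    S.W l x := by
  obtain ⟨e1, e2⟩ := of_ball hy hd
  exact ⟨by rwa [e1, e2], by rw [e1]; exact hx.symm, hl x (mem_ball.2 hd)⟩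

theorem Fam.block (hη : η ≤ (S.pa y).δ ^ 2 / 16) (hγ' : γ + η ≤ (S.pa y).δ ^ 2) {lam : ℝ}
    (hlam : S.A + 2 * S.k * ((S.pa y).j + 1) ≤ lam) :
    T.Block (F.home h0 h1 hy hγ hγ1) ((S.pa y).act S.En γ) (ball y ((S.pa y).R + 1))
      ((S.pa y).layer y) y (ut (S.pa y).Mo (S.pa y).R y) (fun x => (S.pa y).win (d1 x y))
      (S.pa y).b γ (S.pa y).P (S.pa y).s lam ((S.pa y).j + 1) := by
  refine (S.pa y).block (two_mul_lt y) _ rfl y hη hγ hγ' (fun x hx hd => ?_)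
    ⟨update_self .., update_self ..⟩ fun x hx => grow rfl rfl x (le_trans (le_of_eq ?_) hlam)
  · have hw := W_of_ball hl hy hx hd
    obtain ⟨e1, e2⟩ := of_ball hy hd
    refine ⟨(update_of_ne hx ..).trans ?_, (update_of_ne hx ..).trans ?_⟩
    · rw [F.win x hw, e1, e2]; rfl
    · rw [r, if_pos hw, e1, e2]
  · obtain ⟨e1, e2⟩ := of_ball (x := x) hy (by omega)
    have := (S.pa y).jR
    rw [dep, e1, e2, hx, show (S.pa y).R - ((S.pa y).R - (S.pa y).j) = (S.pa y).j by omega]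

theorem Fam.sum_κ : ∑ x ∈ ball y ((S.pa y).R + 1), (F.home h0 h1 hy hγ hγ1).κ x ≤ 1 := by
  have e : ∀ x ∈ ball y ((S.pa y).R + 1), (F.home h0 h1 hy hγ hγ1).κ x ≤ 10 / (S.pa y).l := by
    intro x hx
    by_cases e : x = y
    · rw [e]; exact (update_self ..).le
    · refine le_of_eq ((update_of_ne e ..).trans ?_)
      rw [κ, if_pos (W_of_ball hl hy e (mem_ball.1 hx)), (of_ball hy (mem_ball.1 hx)).2]
  refine (sum_le_card_nsmul _ _ _ e).trans ?_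
  have h2 : ((ball y ((S.pa y).R + 1)).card : ℝ) ≤ (2 * ((S.pa y).R + 1 : ℝ) + 1) ^ 2 := by
    exact_mod_cast card_ball_le y ((S.pa y).R + 1)
  rw [nsmul_eq_mul, mul_div_assoc', div_le_one (S.pa y).l_pos]
  linarith [(S.led y).hκ]

end home

/-- probability that a block is complete -/
theorem le_prod_z {y : Tor S.g.M} (hy : S.ce y = y) :
    ((S.pa y).δ ^ 2 / (64 * S.h * (S.pa y).l ^ 2)) ^ (2 * ((S.pa y).R + 1) + 1) ^ 2 ≤
      ∏ x ∈ ball y ((S.pa y).R + 1), (S.lab.site x).z := by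
  have h1 := S.h_pos
  have h2 := (S.pa y).l_pos
  have h3 := ((S.led y).le_z 0).trans ((S.led y).site 0).z_le
  refine (pow_le_pow_of_le_one (by positivity) (by linarith) (card_ball_le y _)).trans ?_
  rw [← prod_const]
  refine prod_le_prod (fun _ _ => by positivity) fun x hx => ?_
  obtain ⟨e1, e2⟩ := of_ball hy (mem_ball.1 hx)
  rw [site_in (by rw [e1, e2]; exact mem_ball.1 hx), ← e2]
  exact (S.led x).le_z _

end Sys

end Crest.Agent.N334.Md
end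

-- ▼ part N334/Br/W1
section

/-!
# Row 334 (helper86): the concrete model; `BPat` and `LCat` with explicit constants
-/

set_option autoImplicit false

open MeasureTheory Finset Function
open scoped ENNReal

noncomputable section

namespace Crest.Agent.N334.Br

open G I Sw Md

section mono

variable {L : G.Lat} {h E η : ℝ} {lab : Lab L.X h} {μ : L.X → Measure ℂ} {W : L.Mat → ℝ}

theorem Iw_nonneg (hη : 0 < η) {F : L.Mat → ℝ} (h0 : ∀ K, IsPort K → 0 ≤ F K) :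
    0 ≤ Iw lab E η μ F := integral_nonneg fun _ => h0 _ (port_Kw L E hη _)

theorem bpat_mono (hη : 0 < η) (hW : ∀ K, IsPort K → 0 ≤ W K) {y : L.X} {a₀ b γ ε α ε' α' : ℝ}
    {k k' : L.X → ℝ} (H : BPat lab E η μ W y a₀ b γ ε α k) (hε : ε ≤ ε')
    (hα : ∀ x, α * k x ≤ α' * k' x) : BPat lab E η μ W y a₀ b γ ε' α' k' := fun q =>
  (H q).trans (add_le_add
    (mul_le_mul_of_nonneg_right hε (Iw_nonneg hη fun K hK => mul_nonneg (hW K hK) (cc_nonneg _ _ _)))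
    (mul_le_mul_of_nonneg_right (hα _) (Iw_nonneg hη hW)))

theorem lcat_mono (hη : 0 < η) (hW : ∀ K, IsPort K → 0 ≤ W K) {o y : L.X} {π π' : ℝ}
    {k k' : L.X → ℝ} (H : LCat lab E η μ W o y π k) (hπ : π ≤ π')
    (hk : ∀ x, π * k x ≤ π' * k' x) : LCat lab E η μ W o y π' k' := fun q => by
  have h1 := mul_le_mul_of_nonneg_right hπ (Iw_nonneg (lab := lab) (E := E) (μ := μ) hη
    (F := fun K => W K * cc K (y, true) q) fun K hK => mul_nonneg (hW K hK) (cc_nonneg _ _ _))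
  have h2 := mul_le_mul_of_nonneg_right (hk q.1) (Iw_nonneg (lab := lab) (E := E) (μ := μ) hη hW)
  have h3 := H q
  nlinarith

end mono

/-- all the data of the model -/
structure Dat where
  N : ℕ
  hN : 1 ≤ N
  a : ℕ
  b : ℕ
  p₁ : Par
  p₂ : Par
  dvd₁ : a ∣ b
  dvd₂ : 4 * b ∣ 2 ^ N
  le₁ : p₁.R + 1 + 8 ≤ a
  le₂ : p₂.R + 1 + 8 ≤ b
  h : ℝ
  En : ℝ
  D : ℝ
  A : ℝ
  k : ℝ
  η : ℝ
  η0 : 0 < η
  η1 : η ≤ 1
  L₁ : Led p₁ h En D A k
  L₂ : Led p₂ h En D A k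
  hMo : p₁.Mo = p₂.Mo
  hb : p₁.b = p₂.b
  hD : h⁻¹ + p₁.b⁻¹ ≤ D
  hA : (1 + (2 * h + 1) ^ 2) * (2 * D) + (|En| + 2 * h + 100) ≤ Real.exp A

theorem gam_le (p : Par) : p.δ ^ 2 / 2 ≤ p.b := by
  have h1 := p.δ_le_inv
  have h2 := p.inv_P_le
  have h3 := p.δ_pos
  have h4 := p.bP
  nlinarith

namespace Dat

variable (d : Dat)

theorem cen_eq : d.p₁.cen d.En 0 = d.p₂.cen d.En 0 := by simp only [Par.cen, d.hMo]

/-- the model of `Main/Defs` -/
def su : Mn.Su where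
  h := d.h
  hh := d.L₁.h_pos
  E := d.En
  η := d.η
  η0 := d.η0
  η1 := d.η1
  N := d.N
  hN := d.hN
  a := d.a
  b := d.b
  r₁ := d.p₁.R + 1
  r₂ := d.p₂.R + 1
  dvd₁ := d.dvd₁
  dvd₂ := d.dvd₂
  le₁ := d.le₁
  le₂ := d.le₂
  B₁ := d.L₁.site
  B₂ := d.L₂.site
  a0 := d.p₂.cen d.En 0
  b0 := d.p₂.b
  b0_pos := d.p₂.b_pos
  b0_le := d.p₂.b1
  wd₁ := by rw [d.L₁.site_zero, d.cen_eq, d.hb]
  wd₂ := d.L₂.site_zero
  supp := d.L₂.port
  γ₁ := d.p₁.δ ^ 2 / 2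
  γ₂ := d.p₂.δ ^ 2 / 2
  γ₁_pos := by have := d.p₁.δ_pos; positivity
  γ₁_le := d.hb ▸ gam_le d.p₁
  γ₂_pos := by have := d.p₂.δ_pos; positivity
  γ₂_le := gam_le d.p₂

/-- the system of `Md/Sys` -/
def sys : Sys where
  g := d.su.g
  p₁ := d.p₁
  p₂ := d.p₂
  h := d.h
  En := d.En
  D := d.D
  A := d.A
  k := d.k
  hr₁ := rfl
  hr₂ := rfl
  L₁ := d.L₁
  L₂ := d.L₂
  hD := (le_add_of_nonneg_right (inv_pos.2 d.p₁.b_pos).le).trans d.hD
  hA := d.hA

/-- the graph -/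
abbrev gr : SimpleGraph d.su.L.X := tgraph d.sys.g.M

theorem adj : Adj d.su.L d.gr := fun x y => by
  have h := tadj_eq_ite d.sys.g.three_le_M x y
  refine h.trans ?_
  simp only [T.mem_nbr]

theorem ball_gr (x : d.su.L.X) (n : ℕ) : T.ball d.gr x n = ball (M := d.sys.g.M) x n :=
  ball_tor (M := d.sys.g.M) x n

theorem mem_gr {x y : d.su.L.X} {n : ℕ} : y ∈ T.ball d.gr x n ↔ d1 (M := d.sys.g.M) y x ≤ n := by
  rw [ball_gr]; exact mem_ball (M := d.sys.g.M)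

theorem pa_b (y : d.su.L.X) : (d.sys.pa y).b = d.su.b0 ∧ (d.sys.pa y).cen d.En 0 = d.su.a0 ∧
    (d.sys.pa y).R + 9 ≤ d.b := by
  have h1 := d.sys.g.a_le_b
  have h2 := d.le₁
  have h3 := d.le₂
  unfold Sys.pa; split_ifs
  exacts [⟨d.hb, d.cen_eq, le_trans h2 h1⟩, ⟨rfl, rfl, h3⟩]

variable {d}

theorem reg {ν : Measure ℂ} (hν : d.su.Adm ν) : Reg d.En d.h d.D (ν.map (toT d.En d.η)) := by
  have := hν.prob
  refine ⟨inferInstance, ?_, fun a l => ?_⟩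
  · refine (ae_map_iff measurable_toT.aemeasurable (measurableSet_supp _ _)).2 ?_
    filter_upwards [hν.supp] with t ht
    rw [abs_toT_im, toT_re, sub_add_cancel]
    exact ht
  · rw [Measure.map_apply measurable_toT (measurableSet_le (by fun_prop) measurable_const)]
    have e : toT d.En d.η ⁻¹' {z | |z.re - a| ≤ l} =
        Complex.re ⁻¹' Set.Icc (a + d.En - l) (a + d.En + l) := by
      ext x; simp only [Set.mem_preimage, Set.mem_ofPred_eq, toT_re, Set.mem_Icc, abs_le]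
      constructor <;> rintro ⟨h1, h2⟩ <;> constructor <;> linarith
    rw [e, ← Measure.map_apply Complex.measurable_re measurableSet_Icc]
    refine (hν.dens _).trans ?_
    have h0 : 0 ≤ d.su.h⁻¹ + d.su.b0⁻¹ :=
      add_nonneg (inv_pos.2 d.su.hh).le (inv_pos.2 d.su.b0_pos).le
    have h1 : d.su.h⁻¹ + d.su.b0⁻¹ ≤ d.D := by have := d.hD; rwa [d.hb] at this
    rw [Measure.smul_apply, Real.volume_Icc, smul_eq_mul, ← ENNReal.ofReal_mul h0]
    rcases le_total l 0 with hl | hl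
    · rw [ENNReal.ofReal_of_nonpos (by nlinarith)]; exact zero_le
    · exact ENNReal.ofReal_le_ofReal (by nlinarith)

theorem law_map (μ : d.su.L.X → Measure ℂ) (l : d.su.L.X → Bool) (x : d.su.L.X) :
    d.sys.law (fun x => (μ x).map (toT d.En d.η)) l x =
      (d.su.lab.law d.η μ l x).map (toT d.En d.η) := by
  by_cases h : d.su.lab.act l x
  · rw [Lab.law_of_act _ _ _ h]; exact if_pos h
  · rw [Lab.law_of_not_act _ _ _ h, map_lift_zero]; exact if_neg h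

theorem fam {μ : d.su.L.X → Measure ℂ} (hμ : ∀ x, d.su.Adm (μ x)) (l : d.su.L.X → Bool) :
    d.sys.Fam l (d.sys.law (fun x => (μ x).map (toT d.En d.η)) l) :=
  Sys.fam_law fun x _ => reg (hμ x)

theorem kx_ge (x y : d.su.L.X) {c : ℝ} (hc : (d1 (M := d.sys.g.M) x y : ℝ) ≤ c * d.b) :
    Real.exp (-c) ≤ kx d.su.L d.su.D x y := by
  have hb : (8 : ℝ) ≤ d.b := by exact_mod_cast d.sys.g.eight_le_b
  have h1 : d.su.L.rx x y ≤ (7 * (d1 (M := d.sys.g.M) x y : ℝ)) ^ 2 := by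
    have h2 := dsq_le (M := d.sys.g.M) x y
    have h3 : d.su.L.rx x y ≤ 40 * dsq (M := d.sys.g.M) x y := by
      unfold G.Lat.rx dsq
      rw [mul_sum, mul_sum]
      exact sum_le_sum fun i _ => (chord_two_sided d.N i x y).2
    nlinarith [sq_nonneg (d1 (M := d.sys.g.M) x y : ℝ)]
  have h4 := Real.sqrt_le_sqrt h1
  rw [Real.sqrt_sq (by positivity)] at h4
  refine Real.exp_le_exp.2 (neg_le_neg ?_)
  rw [div_le_iff₀ (show 0 < d.su.D by unfold Mn.Su.D; change (0 : ℝ) < 42 * d.b; linarith)]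
  change _ ≤ c * (42 * (d.b : ℝ))
  have : (0 : ℝ) ≤ d1 (M := d.sys.g.M) x y := Nat.cast_nonneg _
  linarith

/-- the Gaussian kernel is below the exponential one -/
theorem ker_le (x y : d.su.L.X) {D : ℕ} {c lam : ℝ} (hl : 1 ≤ lam)
    (hc : (d1 (M := d.sys.g.M) x y : ℝ) ≤ 3 * D + c * d.b) :
    Real.exp (-(lam * D ^ 2)) ≤ Real.exp c * kx d.su.L d.su.D x y := by
  have hb : (8 : ℝ) ≤ d.b := by exact_mod_cast d.sys.g.eight_le_b
  have hD : (D : ℝ) ≤ D ^ 2 := by exact_mod_cast Nat.le_self_pow two_ne_zero D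
  have hD0 : (0 : ℝ) ≤ D := Nat.cast_nonneg _
  have h := kx_ge x y (c := D + c) (by nlinarith)
  refine le_trans ?_ (mul_le_mul_of_nonneg_left h (Real.exp_pos c).le)
  rw [← Real.exp_add]
  exact Real.exp_le_exp.2 (by nlinarith)

theorem hΛη (hη : d.η * Real.exp (d.A + 2 * d.k * d.b) ≤ 1) (x : d.su.L.X) :
    d.η * d.sys.Λ x ≤ 1 := by
  refine le_trans (mul_le_mul_of_nonneg_left (Real.exp_le_exp.2 ?_) d.η0.le) hη
  have h1 : d.sys.dep x ≤ d.b := by have := (d.pa_b x).2.2; unfold Sys.dep; omega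
  have h2 : (d.sys.dep x : ℝ) ≤ d.b := by exact_mod_cast h1
  have := d.L₁.k_nonneg
  change d.A + 2 * d.k * _ ≤ _
  gcongr

theorem bp_ctr {μ : d.su.L.X → Measure ℂ} (hμ : ∀ x, d.su.Adm (μ x)) {W : d.su.L.Mat → ℝ}
    {κ Q lam ε γ : ℝ} (hW : Temp d.En d.η W κ) (k0 : 0 ≤ κ) (hκ : κ * (d.b : ℝ) ^ 2 ≤ 1)
    {y : d.su.L.X} (hy : d.sys.ce y = y) {p : Par} (hp : d.sys.pa y = p) (hγ : 0 ≤ γ)
    (hγ1 : γ ≤ p.δ ^ 2 / 2) (hη : d.η * Real.exp (d.A + 2 * d.k * d.b) ≤ 1)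
    (hη' : d.η ≤ p.s * (p.δ ^ 2 / 16)) (hP : p.P ≤ Q) (hl1 : 1 ≤ lam)
    (hlam : d.A + 2 * d.k * (p.j + 1) ≤ lam)
    (hl : Real.exp (lam * ((p.j + 1 : ℕ) + 4004) ^ 2) ≤ Q) (hε : Q ^ 3111 * p.s ≤ ε) :
    BPat d.su.lab d.En d.η μ W y d.su.a0 d.su.b0 γ ε ε (kx d.su.L d.su.D y) := by
  subst hp
  set p := d.sys.pa y with hp
  have := fun x => (hμ x).prob
  obtain ⟨e1, e2, e3⟩ : p.b = d.su.b0 ∧ p.cen d.En 0 = d.su.a0 ∧ p.R + 9 ≤ d.b := d.pa_b y
  have hb : (8 : ℝ) ≤ d.b := by exact_mod_cast d.sys.g.eight_le_b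
  have hR : (p.R : ℝ) + 9 ≤ d.b := by exact_mod_cast e3
  have hs := p.s_pos
  have hδ := p.δ_pos
  have hP1 := p.big
  have hs1 : p.s ≤ 1 := p.s_le.trans (inv_le_one_of_one_le₀ (one_le_pow₀ (by linarith)))
  have hγ2 : γ ≤ 1 := (hγ1.trans (gam_le p)).trans p.b1
  have hη2 : d.η ≤ p.δ ^ 2 / 16 := hη'.trans (mul_le_of_le_one_left (by positivity) hs1)
  have he : Real.exp 4 ≤ Q := by
    have : Real.exp 4 ≤ 3 ^ 4 := by
      rw [show (4 : ℝ) = (4 : ℕ) * 1 by norm_num, Real.exp_nat_mul]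
      exact pow_le_pow_left₀ (Real.exp_pos _).le Real.exp_one_lt_three.le _
    linarith
  have hcard : ((ball (M := d.sys.g.M) y (p.R + 1)).card : ℝ) ≤ 4 * (d.b : ℝ) ^ 2 := by
    have h1 : ((ball (M := d.sys.g.M) y (p.R + 1)).card : ℝ) ≤ (2 * (p.R + 1 : ℝ) + 1) ^ 2 := by
      exact_mod_cast card_ball_le y (p.R + 1)
    have h0 : (0 : ℝ) ≤ p.R := Nat.cast_nonneg _
    nlinarith
  have H := bpat d.su.hh d.su.lab d.adj d.η0 μ (B := ball (M := d.sys.g.M) y (p.R + 1))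
    (Z := p.layer y) (y := y) (u := ut p.Mo p.R y) (win := fun x => p.win (d1 x y)) (a₀ := d.su.a0)
    (b := d.su.b0) (γ := γ) (P := p.P) (s := p.s) (lam := lam) (l := p.j + 1) (Q := Q)
    (D := fun x => (d1 (M := d.sys.g.M) x y - (p.R + 1) - 1) / 3) hW k0 (by nlinarith)
    d.su.b0_pos hγ hs.le (by linarith) hP
    ((Real.exp_le_exp.2 ((mul_le_mul_of_nonneg_left hcard k0).trans (by linarith))).trans he) hl
    (fun x _ => hη'.trans (mul_le_mul_of_nonneg_left (p.le_win _) hs.le))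
    (fun x hx z hz h => by
      have h := d.mem_gr.1 h
      have hx : ¬d1 (M := d.sys.g.M) x y ≤ p.R + 1 := fun e => hx (mem_ball.2 e)
      have h1 : d1 (M := d.sys.g.M) z y = p.R + 1 := p.mem_layer.1 hz
      have h2 := d1_triangle (M := d.sys.g.M) x z y
      omega)
    (fun x hx => by have := (mem_ball (M := d.sys.g.M)).1 hx; omega)
    (fun lb hlb => by
      have hl := (Sys.act_ctr hy).1 hlb
      refine ⟨(fam hμ lb).home d.η0 d.η1 hy hγ hγ2, rfl, rfl,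
        fun x hx => (update_of_ne hx ..).trans (law_map μ lb x), ?_, ?_, ?_, hΛη hη⟩
      · rw [← e2]; exact (congrArg Complex.re (update_self ..)).trans (sh_re _ _ _)
      · rw [← e1, ← e2]
        exact (fam hμ lb).block d.η0 d.η1 hy hγ hγ2 hl hη2 (by nlinarith) hlam
      · exact (Real.exp_le_exp.2 (((fam hμ lb).sum_κ d.η0 d.η1 hy hγ hγ2 hl).trans
          (by norm_num))).trans he)
  have hQ : 1 ≤ Q := by linarith
  have hQ0 : 0 ≤ Q ^ 3110 * p.s := by positivity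
  have hε' : Q * (Q ^ 3110 * p.s) ≤ ε := by rw [← mul_assoc, ← pow_succ']; exact hε
  refine bpat_mono d.η0 hW.2.1 H (le_trans (le_mul_of_one_le_left hQ0 hQ) hε') fun x => ?_
  have h1 := ker_le y x (D := (d1 (M := d.sys.g.M) x y - (p.R + 1) - 1) / 3) (c := 1) hl1 (by
    rw [d1_comm, one_mul]
    have : d1 (M := d.sys.g.M) x y ≤ 3 * ((d1 (M := d.sys.g.M) x y - (p.R + 1) - 1) / 3) + d.b := by
      omega
    exact_mod_cast this)
  have h2 : Real.exp 1 ≤ Q := (Real.exp_le_exp.2 (by norm_num)).trans he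
  have h3 : 0 ≤ kx d.su.L d.su.D y x := (Real.exp_pos _).le
  calc _ ≤ Q ^ 3110 * p.s * (Q * kx d.su.L d.su.D y x) := by
        gcongr; exact h1.trans (by gcongr)
    _ = Q * (Q ^ 3110 * p.s) * kx d.su.L d.su.D y x := by ring
    _ ≤ _ := by gcongr

theorem lc_ctr {μ : d.su.L.X → Measure ℂ} (hμ : ∀ x, d.su.Adm (μ x)) {W : d.su.L.Mat → ℝ}
    {κ lam π ℓ : ℝ} (hW : Temp d.En d.η W κ) (k0 : 0 ≤ κ) (hκ : κ * (d.b : ℝ) ^ 2 ≤ 1)
    {y o : d.su.L.X} (hy : d.sys.ce y = y) {p : Par} (hp : d.sys.pa y = p) {ρ : ℕ}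
    (hρ : d1 (M := d.sys.g.M) o y + 2 ≤ ρ) (hρ1 : p.R + 1 ≤ ρ) (hρ2 : ρ ≤ 7 * d.b)
    (hμy : μ y = d.su.port (p.δ ^ 2 / 2)) (hπ0 : 0 ≤ π)
    (hπ : μ o {t | ga d.η t ≠ 0} ≤ ENNReal.ofReal π)
    (hη : d.η * Real.exp (d.A + 2 * d.k * d.b) ≤ 1) (hl1 : 1 ≤ lam)
    (hlam : d.A + 2 * d.k * (p.R + 1) ≤ lam)
    (hℓ : Real.exp 15 * (loss (10 * Real.exp (d.A + 2 * d.k * (ρ + p.R : ℕ)) ^ 3) ((2 * ρ + 1) ^ 2)
      κ lam ρ / (p.δ ^ 2 / 2 * (p.δ ^ 2 / (64 * d.h * p.l ^ 2)) ^ (2 * (p.R + 1) + 1) ^ 2)) ≤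
        Real.exp ℓ) :
    LCat d.su.lab d.En d.η μ W o y (π * Real.exp ℓ) (kx d.su.L d.su.D o) := by
  subst hp
  set p := d.sys.pa y with hp
  have := fun x => (hμ x).prob
  have hb : (8 : ℝ) ≤ d.b := by exact_mod_cast d.sys.g.eight_le_b
  have hδ := p.δ_pos
  have hh := d.L₁.h_pos
  have hl := p.l_pos
  set Λ := Real.exp (d.A + 2 * d.k * (ρ + p.R : ℕ)) with hΛ
  have hΛ1 : Real.exp d.A ≤ Λ := d.L₁.le_exp _
  have hΛ2 : 100 ≤ Λ := d.L₁.big.trans hΛ1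
  have hΛ3 : Λ ≤ 10 * Λ ^ 3 := by nlinarith [le_self_pow₀ (show 1 ≤ Λ by linarith) three_ne_zero]
  have hreq : d.su.lab.req y = ball (M := d.sys.g.M) y (p.R + 1) ∧ d.su.lab.can y := by
    rcases Sys.ce_eq_iff.1 hy with h | h
    · rw [hp, Sys.pa_ctr₁ h]; exact ⟨Geo.req_ctr₁ _ _ _ h, Or.inr (Or.inl h)⟩
    · rw [hp, Sys.pa_ctr₂ h]; exact ⟨Geo.req_ctr₂ _ _ _ h, Or.inr (Or.inr h)⟩
  have H := lcat d.su.hh d.su.lab d.adj d.η0 μ (y := y) (o := o) (ρ := ρ) (Λ := 10 * Λ ^ 3)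
    (n := (2 * ρ + 1) ^ 2) (lam := lam) (g := p.δ ^ 2 / 2) (p := π)
    (z := (p.δ ^ 2 / (64 * d.h * p.l ^ 2)) ^ (2 * (p.R + 1) + 1) ^ 2)
    (D := fun x => (d1 (M := d.sys.g.M) x y - ρ - 1) / 3) hW k0 (by nlinarith) (by omega)
    (by linarith) (by rw [ball_gr, ball_gr]; exact ball_subset (M := d.sys.g.M) hρ)
    ⟨(id o : Tor d.sys.g.M) + Pi.single 0 1,
      T.mem_nbr.2 ((tgraph_adj_iff d.sys.g.three_le_M).2 ⟨0, Or.inl rfl⟩)⟩
    (by rw [ball_gr]; exact_mod_cast card_ball_le (M := d.sys.g.M) y ρ) hπ0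
    ((measure_mono fun t ht => ne_of_gt ht).trans hπ)
    (by
      filter_upwards [(hμ o).supp] with t ht
      have h1 := d.hA
      have h2 := d.L₁.D_nonneg
      have h3 : 0 ≤ (1 + (2 * d.h + 1) ^ 2) * (2 * d.D) := by positivity
      have h4 : ga d.η t ≤ d.h + 1 := ht.2
      linarith [abs_nonneg d.En])
    (by positivity) ((gam_le p).trans p.b1)
    (by
      rw [hμy]
      refine (ae_map_iff (measurable_pt _).aemeasurable
        (measurableSet_eq_fun (by fun_prop) measurable_const)).2 (ae_of_all _ fun a => ?_)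
      exact ga_pt _ a (by positivity))
    hreq.2 (by positivity) (by rw [hreq.1]; exact Sys.le_prod_z hy)
    (fun lb x hx => Geo.law_force (g := d.sys.g) d.su.hh d.L₁.site d.L₂.site d.η μ lb fun h => hx (by
      rw [ball_gr]
      exact ball_mono (M := d.sys.g.M) y hρ1 (hreq.1 ▸ h)))
    (fun x hx h => by
      have h := d.mem_gr.1 h
      have hx : ¬d1 (M := d.sys.g.M) x y ≤ ρ := fun e => hx (d.mem_gr.2 e)
      omega)
    (fun x hx => by have := d.mem_gr.1 hx; omega)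
    (fun lb => by
      refine ⟨(fam hμ _).env d.η0 d.η1, rfl, rfl, fun x => law_map μ _ x, fun x hx => ?_,
        Sys.grow (S := d.sys) rfl rfl y (by rw [Sys.dep_ctr hy]; exact hlam), hΛη hη⟩
      rw [ball_gr] at hx
      have h1 : d.sys.Λ x ≤ Λ := by have := Sys.Λ_le hx; rwa [Sys.dep_ctr hy] at this
      exact ⟨law_map μ lb x ▸ (fam hμ lb).u2 (fam hμ _) x h1, h1.trans hΛ3⟩)
  set c := loss (10 * Λ ^ 3) ((2 * ρ + 1) ^ 2) κ lam ρ /
    (p.δ ^ 2 / 2 * (p.δ ^ 2 / (64 * d.h * p.l ^ 2)) ^ (2 * (p.R + 1) + 1) ^ 2) with hc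
  have hc0 : 0 ≤ c := by rw [hc, loss]; positivity
  have h15 : 1 ≤ Real.exp 15 := Real.one_le_exp (by norm_num)
  refine lcat_mono d.η0 hW.2.1 H (mul_le_mul_of_nonneg_left
    ((le_mul_of_one_le_left hc0 h15).trans hℓ) hπ0) fun x => ?_
  have h1 := ker_le o x (D := (d1 (M := d.sys.g.M) x y - ρ - 1) / 3) (c := 15) hl1 (by
    have t := d1_triangle (M := d.sys.g.M) o y x
    rw [d1_comm (M := d.sys.g.M) y x] at t
    have h8 := d.sys.g.eight_le_b
    have : d1 (M := d.sys.g.M) o x ≤ 3 * ((d1 (M := d.sys.g.M) x y - ρ - 1) / 3) + 15 * d.b := by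
      change 8 ≤ d.b at h8
      omega
    exact_mod_cast this)
  have h3 : 0 ≤ kx d.su.L d.su.D o x := (Real.exp_pos _).le
  calc _ ≤ π * c * (Real.exp 15 * kx d.su.L d.su.D o x) := by gcongr
    _ = π * (Real.exp 15 * c) * kx d.su.L d.su.D o x := by ring
    _ ≤ _ := by gcongr

end Dat

end Crest.Agent.N334.Br
end
end

-- ▼ part N334/Br/W2
section

/-!
# Row 334 (helper86): numerics of the concrete model; `ParStmt → WorldStmt`
-/

set_option autoImplicit false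

open MeasureTheory Finset Function Real

noncomputable section

namespace Crest.Agent.N334.Br

open G I Sw Md

/-- size of the parameters of a class -/
structure Num (p : Par) (c : ℝ) : Prop where
  j : (p.j + 1 : ℝ) ≤ c * log (p.R + 1)
  P : p.P ≤ exp (c * log (p.R + 1))
  lo : exp (-(c * (p.R + 1))) ≤ p.δ
  hi : p.δ ≤ exp (-((p.R + 1) / c))

/-- existence of the parameters -/
def ParStmt : Prop :=
  ∀ h E₀ : ℝ, 0 < h → |E₀| < 4 + h → ∃ δ c : ℝ, 0 < δ ∧ 1 ≤ c ∧ ∀ (E : ℝ) (r₁ r₂ : ℕ),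
    |E - E₀| ≤ δ → c ≤ r₁ → r₁ ≤ r₂ → ∃ (p₁ p₂ : Par) (D A k : ℝ), r₁ = p₁.R + 1 ∧ r₂ = p₂.R + 1 ∧
      Led p₁ h E D A k ∧ Led p₂ h E D A k ∧ p₁.Mo = p₂.Mo ∧ p₁.b = p₂.b ∧ h⁻¹ + p₁.b⁻¹ ≤ D ∧
      (1 + (2 * h + 1) ^ 2) * (2 * D) + (|E| + 2 * h + 100) ≤ exp A ∧
      A ≤ c * log r₂ ∧ k ≤ c ∧ Num p₁ c ∧ Num p₂ c

/-- the numeric hypotheses for one class -/
structure Ctx (d : Dat) (p : Par) (c C L : ℝ) : Prop where
  c1 : 1 ≤ c
  hC : 2 * 10 ^ 12 * c ^ 5 ≤ C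
  num : Num p c
  L1 : 1 ≤ L
  hL : log (p.R + 1) ≤ L
  hr : C * L ^ 3 ≤ p.R + 1
  hA : d.A ≤ c * L
  hk : d.k ≤ c
  hR : p.R ≤ d.p₂.R
  hb : (d.b : ℝ) ≤ 2 * (d.p₂.R + 1 + 8)
  hη : d.η ≤ exp (-(C * (d.p₂.R + 1)))

theorem le_exp_self (x : ℝ) : x ≤ exp x := by linarith [add_one_le_exp x]

theorem δ_le_s (p : Par) : p.δ ≤ p.s := by
  have hs := p.s_pos
  have hs1 : p.s ≤ 1 := p.s_le.trans (inv_le_one_of_one_le₀ (one_le_pow₀ (by linarith [p.big])))
  rw [← p.s_four]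
  exact pow_le_of_le_one hs.le hs1 (by norm_num)

namespace Ctx

variable {d : Dat} {p : Par} {c C L : ℝ} (X : Ctx d p c C L)
include X

theorem cC : 10 ^ 12 * c ≤ C := by
  have := le_self_pow₀ X.c1 (show 5 ≠ 0 by norm_num)
  linarith [X.hC, X.c1]

theorem C_pos : 0 < C := by linarith [X.cC, X.c1]

theorem CL : C * L ≤ p.R + 1 :=
  (mul_le_mul_of_nonneg_left (le_self_pow₀ X.L1 three_ne_zero) X.C_pos.le).trans X.hr

theorem C_le : C ≤ p.R + 1 := (le_mul_of_one_le_right X.C_pos.le X.L1).trans X.CL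

theorem big : (10 : ℝ) ^ 12 ≤ p.R + 1 := by linarith [X.C_le, X.cC, X.c1]

theorem A_le : d.A ≤ p.R + 1 := by
  have h1 := X.hA
  have h2 := X.CL
  have h3 := X.cC
  have h4 := X.c1
  have h5 := X.L1
  nlinarith

theorem r_le : (p.R + 1 : ℝ) ≤ d.p₂.R + 1 := by
  have : (p.R : ℝ) ≤ d.p₂.R := by exact_mod_cast X.hR
  linarith

theorem eta₁ : d.η * exp (d.A + 2 * d.k * d.b) ≤ 1 := by
  refine (mul_le_mul_of_nonneg_right X.hη (exp_pos _).le).trans ?_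
  rw [← exp_add, exp_le_one_iff]
  have h1 := X.A_le
  have h2 := X.r_le
  have h3 := X.big
  have h4 := X.c1
  have h5 : (d.b : ℝ) ≤ 3 * (d.p₂.R + 1) := by linarith [X.hb]
  have h6 : d.k * d.b ≤ c * (3 * (d.p₂.R + 1)) :=
    mul_le_mul X.hk h5 (Nat.cast_nonneg _) (by linarith)
  have h7 := mul_le_mul_of_nonneg_right X.cC (show (0 : ℝ) ≤ d.p₂.R + 1 by linarith)
  nlinarith

theorem eta₂ : d.η ≤ p.s * (p.δ ^ 2 / 16) := by
  have hδ := p.δ_pos
  have h1 : exp (-(c * (p.R + 1))) ^ 3 ≤ p.δ ^ 3 := pow_le_pow_left₀ (exp_pos _).le X.num.lo 3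
  have h2 : p.δ ^ 3 / 16 ≤ p.s * (p.δ ^ 2 / 16) := by
    have := mul_le_mul_of_nonneg_right (δ_le_s p) (show 0 ≤ p.δ ^ 2 / 16 by positivity)
    linarith
  refine X.hη.trans (le_trans ?_ h2)
  rw [le_div_iff₀ (by norm_num)]
  refine le_trans ?_ h1
  refine (mul_le_mul_of_nonneg_left (le_exp_self 16) (exp_pos _).le).trans ?_
  rw [← exp_add, ← exp_nat_mul, exp_le_exp]
  have h2 := X.r_le
  have h3 := X.big
  have h4 := X.c1
  have h7 := mul_le_mul X.cC h2 (by linarith) X.C_pos.le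
  push_cast
  nlinarith

theorem s_le : p.s ≤ exp (-((p.R + 1) / c) / 4) := by
  refine (pow_le_pow_iff_left₀ p.s_pos.le (exp_pos _).le (by norm_num : 4 ≠ 0)).1 ?_
  rw [p.s_four, ← exp_nat_mul]
  refine X.num.hi.trans (le_of_eq ?_)
  congr 1; push_cast; ring

theorem bp {κ : ℝ} (k0 : 0 ≤ κ) (hκ : κ * (d.b : ℝ) ^ 2 ≤ 1) {ctr : d.su.L.X → Prop}
    (hc : ∀ y, ctr y → d.sys.ce y = y ∧ d.sys.pa y = p) :
    d.su.BP ctr (p.δ ^ 2 / 2) κ (exp (-((p.R + 1) / C))) := by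
  intro μ hμ W hW y hy γ h0 h1
  have c1 := X.c1
  have L1 := X.L1
  have hj : (p.j + 1 : ℝ) ≤ c * L := X.num.j.trans (by gcongr; exact X.hL)
  have hcL : 1 ≤ c * L := one_le_mul_of_one_le_of_one_le c1 L1
  have e1 : c * L ≤ c * (c * L) := le_mul_of_one_le_left (by linarith) c1
  have e2 : d.k * (p.j + 1) ≤ c * (c * L) := mul_le_mul X.hk hj (by positivity) (by linarith)
  have e3 : ((p.j + 1 : ℕ) + 4004 : ℝ) ^ 2 ≤ (4005 * (c * L)) ^ 2 := by
    refine pow_le_pow_left₀ (by positivity) ?_ 2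
    push_cast; linarith
  have e4 : 1 ≤ (4005 * (c * L)) ^ 2 := one_le_pow₀ (by linarith)
  refine Dat.bp_ctr hμ hW k0 hκ (hc y hy).1 (hc y hy).2 h0 h1 X.eta₁ X.eta₂
    (Q := exp (3 * (c * (c * L)) * (4005 * (c * L)) ^ 2)) (lam := 3 * (c * (c * L)))
    (X.num.P.trans (exp_le_exp.2 ?_)) (by linarith) (by linarith [X.hA])
    (exp_le_exp.2 (by gcongr)) ?_
  · have : c * log (p.R + 1) ≤ c * L := by gcongr; exact X.hL
    nlinarith
  · refine (mul_le_mul_of_nonneg_left X.s_le (by positivity)).trans ?_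
    rw [← exp_nat_mul, ← exp_add, exp_le_exp]
    have hr : (0 : ℝ) < p.R + 1 := by positivity
    have f1 : (p.R + 1) / C ≤ (p.R + 1) / c / 8 := by
      rw [div_div]
      exact div_le_div_of_nonneg_left hr.le (by positivity) (by linarith [X.cC])
    have f2 : 2 * 10 ^ 12 * (c ^ 4 * L ^ 3) ≤ (p.R + 1) / c := by
      rw [le_div_iff₀ (by linarith)]
      have := mul_le_mul_of_nonneg_right X.hC (show 0 ≤ L ^ 3 by positivity)
      nlinarith [X.hr]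
    have f3 : 0 ≤ c ^ 4 * L ^ 3 := by positivity
    push_cast
    nlinarith

theorem z_ge : exp (-(5 * c * (p.R + 1))) ≤ p.δ ^ 2 / (64 * d.h * p.l ^ 2) := by
  have hh := d.L₁.h_pos
  have hl := p.l_pos
  have c1 := X.c1
  have h3 := X.big
  have h1 : exp (-(c * (p.R + 1))) ^ 2 ≤ p.δ ^ 2 := pow_le_pow_left₀ (exp_pos _).le X.num.lo 2
  have h2 : p.l ^ 2 ≤ exp (c * (p.R + 1)) := by
    have e : c * log (p.R + 1) ≤ c * (p.R + 1) := by
      gcongr; exact (log_le_sub_one_of_pos (by linarith)).trans (by linarith)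
    have := X.num.P.trans (exp_le_exp.2 e)
    nlinarith [p.lP]
  have h4 : 2 * d.h ≤ exp (p.R + 1) := by
    have e1 := d.hA
    have e2 := d.L₁.D_nonneg
    have e3 : 0 ≤ (1 + (2 * d.h + 1) ^ 2) * (2 * d.D) := by positivity
    have e4 := exp_le_exp.2 X.A_le
    linarith [abs_nonneg d.En]
  have h5 : 64 * d.h * p.l ^ 2 ≤ exp 32 * exp (p.R + 1) * exp (c * (p.R + 1)) := by
    rw [show 64 * d.h = 32 * (2 * d.h) by ring]
    gcongr; exact le_exp_self _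
  rw [le_div_iff₀ (by positivity)]
  refine le_trans (mul_le_mul_of_nonneg_left h5 (exp_pos _).le) (le_trans ?_ h1)
  rw [← exp_add, ← exp_add, ← exp_add, ← exp_nat_mul, exp_le_exp]
  push_cast
  nlinarith

theorem loss_le {κ : ℝ} (k1 : κ ≤ 1) {ρ : ℕ} (hρ : (ρ : ℝ) ≤ 13 * (p.R + 1)) :
    loss (10 * exp (d.A + 2 * d.k * (ρ + p.R : ℕ)) ^ 3) ((2 * ρ + 1) ^ 2) κ (3 * c * (p.R + 1)) ρ ≤
      exp (4200000 * (c * (p.R + 1) ^ 3)) := by
  have c1 := X.c1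
  have h3 := X.big
  have hA := X.A_le
  set r : ℝ := p.R + 1 with hr
  have hρ0 : (0 : ℝ) ≤ ρ := Nat.cast_nonneg _
  have hcr : r ≤ c * r := le_mul_of_one_le_left (by linarith) c1
  have e1 : d.k * (ρ + p.R : ℕ) ≤ c * (14 * r) :=
    mul_le_mul X.hk (by push_cast; linarith) (Nat.cast_nonneg _) (by linarith)
  set Λ := 10 * exp (d.A + 2 * d.k * (ρ + p.R : ℕ)) ^ 3 with hΛ
  have hΛ0 : 0 < Λ := by positivity
  have e2 : Λ ≤ exp (88 * (c * r)) := by
    refine (mul_le_mul_of_nonneg_right (le_exp_self 10) (by positivity)).trans ?_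
    rw [← exp_nat_mul, ← exp_add, exp_le_exp]
    push_cast at e1 ⊢
    linarith
  have e3 : log Λ ≤ 88 * (c * r) := (log_le_iff_le_exp hΛ0).2 e2
  have e4 : (2 * (ρ : ℝ) + 1) ^ 2 ≤ (27 * r) ^ 2 := pow_le_pow_left₀ (by positivity) (by linarith) 2
  have e5 : ((ρ : ℝ) + 4004) ^ 2 ≤ (14 * r) ^ 2 := pow_le_pow_left₀ (by positivity) (by linarith) 2
  have e6 : 36 * (2 * (ρ : ℝ) + 1) ^ 2 * log Λ ≤ 36 * (27 * r) ^ 2 * (88 * (c * r)) :=
    (mul_le_mul_of_nonneg_left e3 (by positivity)).trans (by gcongr)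
  have e7 : 2 * κ * (2 * (ρ : ℝ) + 1) ^ 2 ≤ 2 * 1 * (27 * r) ^ 2 := by gcongr
  have e8 : 3000 * (3 * c * r) * ((ρ : ℝ) + 4004) ^ 2 ≤ 3000 * (3 * c * r) * (14 * r) ^ 2 := by
    gcongr
  have e9 : ((2 * (ρ : ℝ) + 1) ^ 2) ^ 3 ≤ exp ((27 * r) ^ 2) ^ 3 :=
    pow_le_pow_left₀ (by positivity) (e4.trans (le_exp_self _)) 3
  have f1 : r ^ 2 ≤ c * r ^ 3 := by nlinarith [mul_le_mul_of_nonneg_left hcr (sq_nonneg r)]
  have f2 : c * r ≤ c * r ^ 3 := by
    gcongr; exact le_self_pow₀ (by linarith) three_ne_zero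
  unfold loss
  refine (mul_le_mul (mul_le_mul (pow_le_pow_left₀ hΛ0.le e2 30) e9 (by positivity) (by positivity))
    (exp_le_exp.2 (add_le_add (add_le_add e7 e6) e8)) (by positivity) (by positivity)).trans ?_
  rw [← exp_nat_mul, ← exp_nat_mul, ← exp_add, ← exp_add, exp_le_exp]
  push_cast
  nlinarith

theorem lc {κ : ℝ} (k0 : 0 ≤ κ) (hκ : κ * (d.b : ℝ) ^ 2 ≤ 1) {src : d.su.L.X → Prop}
    {tg : d.su.L.X → d.su.L.X} {ρ : ℕ} (hρ1 : p.R + 1 ≤ ρ) (hρ2 : ρ ≤ 7 * d.b)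
    (hρ3 : (ρ : ℝ) ≤ 13 * (p.R + 1)) (hc : ∀ o, src o → d.sys.ce (tg o) = tg o ∧
      d.sys.pa (tg o) = p ∧ d1 (M := d.sys.g.M) o (tg o) + 2 ≤ ρ) :
    d.su.LC src tg (p.δ ^ 2 / 2) κ (C * (p.R + 1) ^ 3) := by
  intro μ hμ W hW o ho hy q h0 h1
  have c1 := X.c1
  have h3 := X.big
  have hA := X.A_le
  have hb : (8 : ℝ) ≤ d.b := by exact_mod_cast d.sys.g.eight_le_b
  have k1 : κ ≤ 1 := by nlinarith [mul_le_mul_of_nonneg_left (show (1 : ℝ) ≤ d.b ^ 2 by nlinarith) k0]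
  have hcr : (p.R + 1 : ℝ) ≤ c * (p.R + 1) := le_mul_of_one_le_left (by linarith) c1
  have e1 : d.k * (p.R + 1) ≤ c * (p.R + 1) := mul_le_mul_of_nonneg_right X.hk (by linarith)
  refine Dat.lc_ctr hμ hW k0 hκ (hc o ho).1 (hc o ho).2.1 (hc o ho).2.2 hρ1 hρ2 hy h0 h1 X.eta₁
    (lam := 3 * c * (p.R + 1)) (by linarith) (by linarith) ?_
  have e2 : exp (-(c * (p.R + 1))) ^ 2 ≤ p.δ ^ 2 := pow_le_pow_left₀ (exp_pos _).le X.num.lo 2
  have e3 : exp (-(c * (p.R + 1))) ^ 2 / exp 2 ≤ p.δ ^ 2 / 2 := by gcongr; exact le_exp_self 2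
  have e4 := pow_le_pow_left₀ (exp_pos _).le X.z_ge ((2 * (p.R + 1) + 1) ^ 2)
  refine (mul_le_mul_of_nonneg_left (div_le_div₀ (exp_pos _).le (X.loss_le k1 hρ3) (by positivity)
    (mul_le_mul e3 e4 (by positivity) (by positivity))) (exp_pos _).le).trans ?_
  rw [← exp_nat_mul, ← exp_nat_mul, ← exp_sub, ← exp_add, ← exp_sub, ← exp_add, exp_le_exp]
  push_cast
  set r : ℝ := p.R + 1 with hr
  have f1 : (2 * r + 1) ^ 2 ≤ (3 * r) ^ 2 := pow_le_pow_left₀ (by linarith) (by linarith) 2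
  have f2 : c * r ≤ c * r ^ 3 := by
    gcongr; exact le_self_pow₀ (by linarith) three_ne_zero
  have f3 := mul_le_mul_of_nonneg_right f1 (show 0 ≤ 5 * c * r by positivity)
  have f4 := mul_le_mul_of_nonneg_right X.cC (show 0 ≤ r ^ 3 by positivity)
  nlinarith

theorem inv_h : d.h⁻¹ ≤ exp (p.R + 1) := by
  have e1 := d.hA
  have e2 := d.L₁.D_nonneg
  have e3 := d.sys.hD
  have e4 := exp_le_exp.2 X.A_le
  have hh := d.L₁.h_pos
  change d.h⁻¹ ≤ d.D at e3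
  nlinarith [abs_nonneg d.En, mul_nonneg (sq_nonneg (2 * d.h + 1)) e2]

omit X in
theorem ud_le {h : ℝ} (hh : 0 < h) (a : ℝ) : ud h a ≤ h⁻¹ / 2 := by
  unfold ud; split_ifs
  · exact le_of_eq (by field_simp)
  · positivity

theorem den_le (s : Site d.h) (hs : p.δ ^ 2 / (64 * d.h * p.l ^ 2) ≤ s.z ∨ s.wd = ud d.h)
    (l : Bool) (a : ℝ) : s.den l a ≤ exp (C * (d.p₂.R + 1) ^ 3) := by
  have hh := d.L₁.h_pos
  have c1 := X.c1
  have h3 := X.big
  have h1 := ud_le hh a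
  have h2 := X.inv_h
  have h4 := ud_nonneg hh a
  have hcr : (p.R + 1 : ℝ) ≤ c * (p.R + 1) := le_mul_of_one_le_left (by linarith) c1
  have key : exp (6 * c * (p.R + 1)) ≤ exp (C * (d.p₂.R + 1) ^ 3) := by
    refine exp_le_exp.2 (mul_le_mul (by linarith [X.cC]) (X.r_le.trans
      (le_self_pow₀ (by linarith [X.r_le]) three_ne_zero)) (by linarith) X.C_pos.le)
  have h5 : exp (p.R + 1) ≤ exp (6 * c * (p.R + 1)) := exp_le_exp.2 (by linarith)
  refine le_trans ?_ key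
  cases l
  · have := s.z_le
    have := mul_nonneg s.z_nonneg (s.nonneg a)
    have h6 := inv_pos.2 hh
    change (ud d.h a - s.z * s.wd a) / (1 - s.z) ≤ _
    refine le_trans ?_ (h2.trans h5)
    rw [div_le_iff₀ (by linarith)]
    nlinarith
  · change s.wd a ≤ _
    rcases hs with hs | hs
    · have h6 := mul_le_mul_of_nonneg_right (X.z_ge.trans hs) (s.nonneg a)
      have h7 : exp (-(5 * c * (p.R + 1))) * s.wd a ≤ exp (p.R + 1) := by linarith [s.le a]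
      rw [exp_neg, inv_mul_le_iff₀ (exp_pos _), ← exp_add] at h7
      exact h7.trans (exp_le_exp.2 (by linarith))
    · rw [hs]; linarith

end Ctx

theorem world_of (H : ParStmt) : Mn.WorldStmt := by
  intro h E₀ hh hE
  obtain ⟨δ, c, hδ, c1, H⟩ := H h E₀ hh hE
  have c5 : c ≤ c ^ 5 := le_self_pow₀ c1 (by norm_num)
  refine ⟨δ, 2 * 10 ^ 12 * c ^ 5, hδ, by linarith, ?_⟩
  intro E η κ N a b r₁ r₂ hE η0 k0 hN dvd₁ dvd₂ le₁ ha le₂ hb hC hL hr hη hκ
  have h12 : r₁ ≤ r₂ := (Nat.le_self_pow two_ne_zero r₁).trans hr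
  obtain ⟨p₁, p₂, D, A, k, rfl, rfl, L₁, L₂, hMo, hb', hD, hA, hAc, hk, n₁, n₂⟩ :=
    H E r₁ r₂ hE (by linarith) h12
  set C := 2 * 10 ^ 12 * c ^ 5 with hCd
  push_cast at hC hL hη hAc ⊢
  have h12' : (p₁.R + 1 : ℝ) ≤ p₂.R + 1 := by exact_mod_cast h12
  have η1 : η ≤ 1 := hη.trans (exp_le_one_iff.2 (neg_nonpos.2 (by positivity)))
  let d : Dat := ⟨N, hN, a, b, p₁, p₂, dvd₁, dvd₂, le₁, le₂, h, E, D, A, k, η, η0, η1, L₁, L₂, hMo,
    hb', hD, hA⟩
  have L1 : 1 ≤ log (p₂.R + 1) := by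
    rw [le_log_iff_exp_le (by positivity)]
    linarith [exp_one_lt_three]
  have hb2 : (b : ℝ) ≤ 2 * (p₂.R + 1 + 8) := by exact_mod_cast hb
  have ha2 : (a : ℝ) ≤ 2 * (p₁.R + 1 + 8) := by exact_mod_cast ha
  have X₁ : Ctx d p₁ c C (log (p₂.R + 1)) := ⟨c1, le_rfl, n₁, L1, log_le_log (by positivity) h12',
    hL, hAc, hk, by change p₁.R ≤ p₂.R; omega, hb2, hη⟩
  have X₂ : Ctx d p₂ c C (log (p₂.R + 1)) := ⟨c1, le_rfl, n₂, L1, le_rfl, hL.trans h12', hAc, hk,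
    le_rfl, hb2, hη⟩
  have hab : a ≤ b := d.sys.g.a_le_b
  refine ⟨d.su, rfl, rfl, rfl, rfl, rfl, rfl, X₁.bp k0 hκ fun y hy => ?_, X₂.bp k0 hκ fun y hy => ?_,
    X₁.lc k0 hκ (ρ := 2 * a + 2) (by omega) (by change _ ≤ 7 * b; omega)
      (by push_cast; linarith [X₁.big]) fun o ho => ?_,
    X₂.lc k0 hκ (ρ := 6 * b + 2) (by omega) (by change _ ≤ 7 * b; omega)
      (by push_cast; linarith [X₂.big]) fun o ho => ?_, fun x l t => ?_⟩
  · exact ⟨(Sys.ce_eq_iff (S := d.sys)).2 (Or.inl hy), Sys.pa_ctr₁ (S := d.sys) hy⟩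
  · exact ⟨(Sys.ce_eq_iff (S := d.sys)).2 (Or.inr hy), Sys.pa_ctr₂ (S := d.sys) hy⟩
  · have hy := Geo.ctr₁_c₁ (g := d.sys.g) ho.1
    exact ⟨(Sys.ce_eq_iff (S := d.sys)).2 (Or.inl hy), Sys.pa_ctr₁ (S := d.sys) hy,
      Nat.add_le_add_right (d.sys.g.d1_c₁_le o) 2⟩
  · have hy := Geo.ctr₂_c₂ (g := d.sys.g) o
    exact ⟨(Sys.ce_eq_iff (S := d.sys)).2 (Or.inr hy), Sys.pa_ctr₂ (S := d.sys) hy,
      Nat.add_le_add_right (d.sys.g.d1_c₂_le o) 2⟩
  · by_cases h1 : d.sys.g.blk₁ x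
    · exact X₁.den_le _ (Or.inl ((L₁.le_z _).trans_eq
        (congrArg Site.z (Geo.site_blk₁ (g := d.sys.g) hh L₁.site L₂.site h1)).symm)) l t
    · by_cases h2 : d.sys.g.blk₂ x
      · exact X₂.den_le _ (Or.inl ((L₂.le_z _).trans_eq
          (congrArg Site.z (Geo.site_blk₂ (g := d.sys.g) hh L₁.site L₂.site h2)).symm)) l t
      · exact X₂.den_le _ (Or.inr
          (congrArg Site.wd (Geo.site_other (g := d.sys.g) hh L₁.site L₂.site h1 h2))) l t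

end Crest.Agent.N334.Br
end
end

-- ▼ part N334/Md/Par

/-!
# Row 334 (helper14): existence of the block parameters, with asymptotics
-/

set_option autoImplicit false

namespace Crest.Agent.N334.Md

theorem mul_log_le {c x : ℝ} (hc : 0 ≤ c) (hx : (2 * c) ^ 2 ≤ x) (hx0 : 0 < x) :
    c * Real.log x ≤ x := by
  have h1 : 2 * c ≤ √x := Real.le_sqrt_of_sq_le hx
  have h2 : Real.log x ≤ 2 * √x := by
    have := Real.log_le_sub_one_of_pos (Real.sqrt_pos.2 hx0)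
    rw [Real.log_sqrt hx0.le] at this
    linarith
  have h3 := Real.mul_self_sqrt hx0.le
  nlinarith [Real.sqrt_nonneg x, mul_le_mul_of_nonneg_left h2 hc]

theorem le_exp_mul {c t : ℝ} (hc : 0 ≤ c) (ht : 1 ≤ t) : c ≤ Real.exp (c * t) := by
  nlinarith [Real.add_one_le_exp (c * t)]

theorem one_par (Mo : Mode) {w0 b K : ℝ} (hw : 0 < w0) (hw1 : w0 ≤ 1) (hb1 : b ≤ 1)
    (h1 : 8000 ≤ K) (h2 : w0⁻¹ ≤ K) (h3 : 288 / (Mo.s * Mo.c ^ 2) ≤ K) (hb : 0 < b)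
    (h4 : 2 * b⁻¹ ≤ K) : ∃ C : ℝ, K + 14 ≤ C ∧ -Real.log Mo.r ≤ C ∧ ∀ r : ℕ, C ≤ r → ∃ p : Par,
      p.Mo = Mo ∧ p.w0 = w0 ∧ p.b = b ∧ r = p.R + 1 ∧ p.l = 10 * (2 * r + 1) ^ 2 ∧
      p.P = Real.exp ((K + 14) * Real.log r) ∧ K * (r + 1) ^ 7 ≤ p.P ∧
      (p.j : ℝ) + 1 ≤ C * Real.log r ∧ Real.exp (-(C * r)) ≤ p.δ ∧ p.δ ≤ Real.exp (-(r / C)) := by
  obtain ⟨k, hk⟩ : ∃ k, k = -Real.log Mo.r := ⟨_, rfl⟩
  have hk0 : 0 < k := by rw [hk]; exact neg_pos.2 (Real.log_neg Mo.r_pos Mo.r_lt)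
  have hρ : ∀ n : ℕ, Mo.r ^ n = Real.exp (-(k * n)) := fun n => by
    rw [hk, neg_mul, neg_neg, mul_comm, Real.exp_nat_mul, Real.exp_log Mo.r_pos]
  obtain ⟨c, hc⟩ : ∃ c, c = K + 14 := ⟨_, rfl⟩
  have hc0 : 0 < c := by linarith
  obtain ⟨e, he⟩ : ∃ e, e = 8 / w0 / Mo.c := ⟨_, rfl⟩
  have hm := Mo.c_pos
  have he1 : 8 / w0 ≤ e := by rw [he]; exact le_div_self (by positivity) hm Mo.c_le
  have he0 : 0 < e := lt_of_lt_of_le (by positivity) he1
  obtain ⟨q, hq⟩ : ∃ q, q = (12 * c + e) / k := ⟨_, rfl⟩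
  have hq0 : 0 < q := by rw [hq]; positivity
  have hqk : q * k = 12 * c + e := by rw [hq]; field_simp
  have hk' : 0 < 2 / k := by positivity
  obtain ⟨C, hC⟩ : ∃ C, C = (2 * (2 * (q + 2))) ^ 2 + 2 * (q + 2) + c + k + 2 / k := ⟨_, rfl⟩
  have hs := sq_nonneg (2 * (2 * (q + 2)))
  refine ⟨C, by linarith, by linarith, fun r hr => ?_⟩
  have hr3 : (3 : ℝ) ≤ r := by linarith
  obtain ⟨R, rfl⟩ : ∃ R, r = R + 1 := ⟨r - 1, by
    have : 3 ≤ r := by exact_mod_cast hr3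
    omega⟩
  push_cast at hr hr3 ⊢
  obtain ⟨t, ht⟩ : ∃ t, t = Real.log (R + 1) := ⟨_, rfl⟩
  have ht1 : 1 ≤ t := by
    rw [ht, Real.le_log_iff_exp_le (by linarith)]
    linarith [Real.exp_one_lt_d9]
  have htr : 2 * (q + 2) * t ≤ R + 1 := ht ▸ mul_log_le (by linarith) (by linarith) (by linarith)
  rw [← ht, ← hc]
  have hP : K * ((R : ℝ) + 1 + 1) ^ 7 ≤ Real.exp (c * t) := by
    rw [hc, add_mul, Real.exp_add]
    refine mul_le_mul (le_exp_mul (by linarith) ht1) ?_ (by positivity) (by positivity)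
    rw [show 14 * t = ((7 : ℕ) : ℝ) * (((2 : ℕ) : ℝ) * t) by push_cast; ring, Real.exp_nat_mul,
      Real.exp_nat_mul, ht, Real.exp_log (by linarith)]
    exact pow_le_pow_left₀ (by linarith) (by nlinarith) 7
  have hx : (1 : ℝ) ≤ (R : ℝ) + 1 + 1 := by linarith
  have hK : ∀ n ≤ 7, K * ((R : ℝ) + 1 + 1) ^ n ≤ Real.exp (c * t) := fun n hn =>
    (mul_le_mul_of_nonneg_left (pow_le_pow_right₀ hx hn) (by linarith)).trans hP
  have hK0 : K ≤ Real.exp (c * t) := by simpa using hK 0 (by norm_num)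
  have hδ : 8 / w0 * Mo.r ^ R ≤ Real.exp (e * t - k * R) := by
    rw [hρ, sub_eq_add_neg, Real.exp_add]
    exact mul_le_mul_of_nonneg_right (he1.trans (le_exp_mul he0.le ht1)) (Real.exp_pos _).le
  have hj := Nat.ceil_lt_add_one (show 0 ≤ q * t by positivity)
  have hj' := Nat.le_ceil (q * t)
  have h5 : (2 * ((R : ℝ) + 1) + 1) ^ 2 ≤ 4 * ((R : ℝ) + 1 + 1) ^ 2 := by nlinarith
  refine ⟨{
    Mo := Mo, w0 := w0, l := 10 * (2 * (R + 1) + 1) ^ 2, P := Real.exp (c * t), b := b, R := R,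
    j := ⌈q * t⌉₊, w0_pos := hw, w0_le := hw1
    hl := by nlinarith
    big := by linarith
    card := by nlinarith [hK 2 (by norm_num), sq_nonneg ((R : ℝ) + 1 + 1)]
    lP := by
      have := pow_le_pow_left₀ (by positivity) h5 2
      nlinarith [hK 4 (by norm_num), pow_pos (zero_lt_one.trans_le hx) 4]
    wP := inv_le_of_inv_le₀ hw (h2.trans hK0)
    obsP := by
      rw [mul_comm 288, mul_div_assoc, mul_comm]
      exact (mul_le_mul h3 (pow_le_pow_left₀ (by positivity) (by linarith) 7) (by positivity)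
        (by linarith)).trans hP
    bP := by
      rw [← div_eq_mul_inv, div_le_comm₀ (Real.exp_pos _) hb, div_eq_mul_inv]; exact h4.trans hK0
    b1 := hb1
    sP := by
      rw [← Real.exp_nat_mul, ← Real.exp_neg]
      refine hδ.trans (Real.exp_le_exp.2 ?_)
      push_cast
      nlinarith [mul_le_mul_of_nonneg_left htr hk0.le, mul_pos hk0 (zero_lt_one.trans_le ht1),
        mul_pos (mul_pos hq0 hk0) (zero_lt_one.trans_le ht1)]
    R1 := by exact_mod_cast (by linarith : (1 : ℝ) ≤ R)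
    jR := by exact_mod_cast (by nlinarith : (⌈q * t⌉₊ : ℝ) ≤ R)
    hj := by
      have e1 : Real.exp (c * t) ^ 6 * Mo.r ^ ⌈q * t⌉₊ * e ≤ 1 := by
        refine (mul_le_mul_of_nonneg_left (le_exp_mul he0.le ht1)
          (mul_pos (pow_pos (Real.exp_pos _) _) (pow_pos Mo.r_pos _)).le).trans ?_
        rw [hρ, ← Real.exp_nat_mul, ← Real.exp_add, ← Real.exp_add, Real.exp_le_one_iff]
        push_cast
        nlinarith [mul_le_mul_of_nonneg_left hj' hk0.le, mul_pos hc0 (zero_lt_one.trans_le ht1)]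
      rw [he, ← mul_div_assoc, div_le_one hm] at e1
      rwa [mul_right_comm] }, rfl, rfl, rfl, rfl, rfl, rfl, hP, ?_, ?_, ?_⟩
  · change (⌈q * t⌉₊ : ℝ) + 1 ≤ C * t
    nlinarith [mul_le_mul_of_nonneg_right (show q + 2 ≤ C by linarith) (zero_le_one.trans ht1)]
  · change _ ≤ 8 / w0 * Mo.r ^ R
    have e2 : 1 ≤ 8 / w0 := by rw [le_div_iff₀ hw]; linarith
    refine le_trans ?_ (le_mul_of_one_le_left (pow_pos Mo.r_pos _).le e2)
    rw [hρ, Real.exp_le_exp, neg_le_neg_iff]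
    exact mul_le_mul (by linarith) (by linarith) (by linarith) (by linarith)
  · refine hδ.trans (Real.exp_le_exp.2 ?_)
    have e3 : ((R : ℝ) + 1) / C ≤ (R + 1) / (2 / k) :=
      div_le_div_of_nonneg_left (by linarith) hk' (by linarith)
    rw [div_div_eq_mul_div] at e3
    nlinarith [mul_le_mul_of_nonneg_left htr hk0.le, mul_pos hc0 (zero_lt_one.trans_le ht1),
      mul_le_mul_of_nonneg_left ht1 hk0.le]

/-- the parameters of both classes -/
theorem exists_par {h E₀ : ℝ} (hh : 0 < h) (hE : |E₀| < 4 + h) : ∃ δ C : ℝ, 0 < δ ∧ 1 ≤ C ∧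
    ∀ (E : ℝ) (r₁ r₂ : ℕ), |E - E₀| ≤ δ → C ≤ r₁ → r₁ ≤ r₂ → ∃ (p₁ p₂ : Par) (D A k : ℝ),
      r₁ = p₁.R + 1 ∧ r₂ = p₂.R + 1 ∧ Led p₁ h E D A k ∧ Led p₂ h E D A k ∧ p₁.Mo = p₂.Mo ∧
      p₁.b = p₂.b ∧ h⁻¹ + p₁.b⁻¹ ≤ D ∧
      (1 + (2 * h + 1) ^ 2) * (2 * D) + (|E| + 2 * h + 100) ≤ Real.exp A ∧
      D ≤ C ∧ A ≤ C * Real.log r₂ ∧ k ≤ C ∧
      ∀ p : Par, p = p₁ ∨ p = p₂ → (p.j : ℝ) + 1 ≤ C * Real.log (p.R + 1) ∧
        p.P ≤ Real.exp (C * Real.log (p.R + 1)) ∧ p.P ≤ Real.exp A ∧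
        Real.exp (-(C * (p.R + 1))) ≤ p.δ ∧ p.δ ≤ Real.exp (-((p.R + 1) / C)) := by
  obtain ⟨Mo, μ, hμ, hM⟩ := exists_mode hh hE
  obtain ⟨w, hw0, hw1, hw2⟩ : ∃ w : ℝ, 0 < w ∧ w ≤ 1 ∧ w ≤ μ :=
    ⟨min 1 μ, lt_min one_pos hμ, min_le_left _ _, min_le_right _ _⟩
  obtain ⟨D, hD⟩ : ∃ D, D = h⁻¹ + w⁻¹ := ⟨_, rfl⟩
  have h1 := inv_pos.2 hh
  have h2 := inv_pos.2 hw0
  have h3 : 0 ≤ 288 / (Mo.s * Mo.c ^ 2) := by have := Mo.hs0; positivity
  have h4 := Mo.P_nonneg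
  have h5 : 0 ≤ (1 + (2 * h + 1) ^ 2) * (2 * D) := by rw [hD]; positivity
  have h6 := abs_nonneg E₀
  obtain ⟨K, hK⟩ : ∃ K, K = 8000 + 16000 * w⁻¹ + 288 / (Mo.s * Mo.c ^ 2) + Mo.P + D +
    ((1 + (2 * h + 1) ^ 2) * (2 * D) + (|E₀| + μ + 2 * h)) := ⟨_, rfl⟩
  obtain ⟨C, hC1, hC2, hC⟩ := one_par Mo (K := K) hw0 hw1 hw1 (by linarith) (by linarith)
    (by linarith) hw0 (by linarith)
  refine ⟨μ, C, hμ, by linarith, fun E r₁ r₂ hE' hr hr' => ?_⟩
  have hr2 : (r₁ : ℝ) ≤ r₂ := by exact_mod_cast hr'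
  obtain ⟨p₁, a1, a2, a3, a4, a5, a6, a7, a8, a9⟩ := hC r₁ hr
  obtain ⟨p₂, b1, b2, b3, b4, b5, b6, b7, b8, b9⟩ := hC r₂ (hr.trans hr2)
  have hl : ∀ r : ℕ, C ≤ r → 0 ≤ Real.log r := fun r _ => Real.log_natCast_nonneg r
  have hP : p₁.P ≤ p₂.P := by
    rw [a6, b6, Real.exp_le_exp]
    exact mul_le_mul_of_nonneg_left (Real.log_le_log (by linarith) hr2) (by linarith)
  have hK' : K ≤ p₂.P := le_trans (le_mul_of_one_le_right (by linarith)
    (one_le_pow₀ (by linarith [(Nat.cast_nonneg r₂ : (0 : ℝ) ≤ _)]))) b7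
  have key : ∀ (p : Par) (r : ℕ), p.Mo = Mo → p.w0 = w → p.b = w → r = p.R + 1 →
      p.l = 10 * (2 * r + 1) ^ 2 → K * (r + 1) ^ 7 ≤ p₂.P →
      Led p h E D ((K + 14) * Real.log r₂) (-Real.log Mo.r) := fun p r e1 e2 e3 e4 e5 e6 =>
    { win := fun v => by rw [Par.cen, e1, e2]; linarith [hM E (v 0) (v 1) hE']
      port := by rw [Par.cen, e1, e3]; linarith [hM E ((0 : Fin 2 → ℤ) 0) ((0 : Fin 2 → ℤ) 1) hE']
      hD := by rw [e3]; linarith
      hA := by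
        rw [← b6, e5, e2, div_eq_mul_inv]
        refine le_trans ?_ e6
        have hx : (1 : ℝ) ≤ r + 1 := by linarith [(Nat.cast_nonneg r : (0 : ℝ) ≤ _)]
        have f1 : (2 * (r : ℝ) + 1) ^ 4 ≤ (2 * (r + 1)) ^ 4 :=
          pow_le_pow_left₀ (by positivity) (by linarith) 4
        have f2 : ((r : ℝ) + 1) ^ 4 ≤ (r + 1) ^ 7 := pow_le_pow_right₀ hx (by norm_num)
        calc 10 * (10 * (2 * (r : ℝ) + 1) ^ 2) ^ 2 * w⁻¹ = 1000 * w⁻¹ * (2 * r + 1) ^ 4 := by ring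
          _ ≤ 1000 * w⁻¹ * (2 * (r + 1)) ^ 4 := by gcongr
          _ = 16000 * w⁻¹ * (r + 1) ^ 4 := by ring
          _ ≤ K * (r + 1) ^ 7 := mul_le_mul (by linarith) f2 (by positivity) (by linarith)
      hP := by rw [← b6, e1]; linarith
      hk := by rw [e1, Real.exp_neg, Real.exp_log Mo.r_pos]
      hκ := by rw [e5, e4]; push_cast; exact le_rfl }
  refine ⟨p₁, p₂, D, (K + 14) * Real.log r₂, -Real.log Mo.r, a4, b4,
    key p₁ r₁ a1 a2 a3 a4 a5 (a7.trans hP), key p₂ r₂ b1 b2 b3 b4 b5 b7, a1.trans b1.symm,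
    a3.trans b3.symm, by rw [a3, hD], ?_, by linarith,
    mul_le_mul_of_nonneg_right hC1 (Real.log_natCast_nonneg _), hC2, ?_⟩
  · have := abs_add_le (E - E₀) E₀
    rw [sub_add_cancel] at this
    rw [← b6]; linarith
  · have fin : ∀ r : ℕ, Real.exp ((K + 14) * Real.log r) ≤ Real.exp (C * Real.log r) := fun r =>
      Real.exp_le_exp.2 (mul_le_mul_of_nonneg_right hC1 (Real.log_natCast_nonneg _))
    rintro p (rfl | rfl)
    · have e : (p.R : ℝ) + 1 = r₁ := by rw [a4]; push_cast; rfl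
      rw [e, ← b6]; exact ⟨a8, a6.trans_le (fin _), hP, a9⟩
    · have e : (p.R : ℝ) + 1 = r₂ := by rw [b4]; push_cast; rfl
      rw [e, ← b6]; exact ⟨b8, b6.trans_le (fin _), le_rfl, b9⟩

end Crest.Agent.N334.Md
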